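import Mathlib

/-!
Analytic lemmas on the function `psi2 t = (1+t) log (1+t) + (1-t) log (1-t)`.
-/

namespace Vale.Agent.P322

open Real

/-- `psi2 t = (1+t) log (1+t) + (1-t) log (1-t)`; twice the entropy deficit (in nats) of a
sign with mean `t`. -/
noncomputable def psi2 (t : ℝ) : ℝ := (1 + t) * Real.log (1 + t) + (1 - t) * Real.log (1 - t)

theorem psi2_continuous : Continuous psi2 := by
  unfold psi2
  have h := Real.continuous_mul_log
  exact (h.comp (continuous_const.add continuous_id)).add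
    (h.comp (continuous_const.sub continuous_id))

theorem psi2_zero : psi2 0 = 0 := by simp [psi2]

theorem psi2_neg (t : ℝ) : psi2 (-t) = psi2 t := by
  unfold psi2
  rw [sub_neg_eq_add, ← sub_eq_add_neg]
  ring

theorem psi2_hasSum {t : ℝ} (ht : |t| < 1) :
    HasSum (fun k : ℕ => (t ^ 2) ^ (k + 1) / ((2 * (k : ℝ) + 1) * ((k : ℝ) + 1))) (psi2 t) := by
  have hlt := abs_lt.mp ht
  have h1 := (Real.hasSum_log_sub_log_of_abs_lt_one ht).mul_left t
  have ht2 : |t ^ 2| < 1 := by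
    rw [abs_pow]
    exact pow_lt_one₀ (abs_nonneg t) ht (by norm_num)
  have h2 := Real.hasSum_pow_div_log_of_abs_lt_one ht2
  have h3 := h1.sub h2
  have hlog : Real.log (1 - t ^ 2) = Real.log (1 + t) + Real.log (1 - t) := by
    rw [← Real.log_mul (by linarith) (by linarith)]
    congr 1
    ring
  have hval : t * (Real.log (1 + t) - Real.log (1 - t)) - -Real.log (1 - t ^ 2) = psi2 t := by
    rw [hlog]
    unfold psi2
    ring
  rw [hval] at h3
  have hfun : (fun k : ℕ => (t ^ 2) ^ (k + 1) / ((2 * (k : ℝ) + 1) * ((k : ℝ) + 1)))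
      = fun b : ℕ => t * (2 * (1 / (2 * (b : ℝ) + 1)) * t ^ (2 * b + 1))
          - (t ^ 2) ^ (b + 1) / ((b : ℝ) + 1) := by
    funext k
    have hk1 : (2 * (k : ℝ) + 1) ≠ 0 := by positivity
    have hk2 : ((k : ℝ) + 1) ≠ 0 := by positivity
    have hp : t * t ^ (2 * k + 1) = (t ^ 2) ^ (k + 1) := by
      rw [← pow_mul, ← pow_succ']
      congr 1
    have : t * (2 * (1 / (2 * (k : ℝ) + 1)) * t ^ (2 * k + 1))
        = 2 * (1 / (2 * (k : ℝ) + 1)) * (t ^ 2) ^ (k + 1) := by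
      rw [← hp]; ring
    rw [this]
    field_simp
    ring
  rw [hfun]
  exact h3

theorem psi2_nonneg_of_abs_lt {t : ℝ} (ht : |t| < 1) : 0 ≤ psi2 t := by
  refine (psi2_hasSum ht).nonneg ?_
  intro k
  positivity

/-- Key scaling inequality, open range. -/
theorem psi2_mul_le_aux {x r : ℝ} (hx : |x| ≤ 1) (hr : |r| < 1) :
    psi2 (x * r) ≤ x ^ 2 * psi2 r := by
  have hxr : |x * r| < 1 := by
    rw [abs_mul]
    calc |x| * |r| ≤ 1 * |r| := by gcongr
      _ < 1 := by simpa using hr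
  have h1 := psi2_hasSum hxr
  have h2 := (psi2_hasSum hr).mul_left (x ^ 2)
  refine hasSum_le ?_ h1 h2
  intro k
  have hx2 : x ^ 2 ≤ 1 := by
    have := pow_le_one₀ (abs_nonneg x) hx (n := 2)
    rwa [sq_abs] at this
  have hx0 : 0 ≤ x ^ 2 := by positivity
  have hpow : (x ^ 2) ^ (k + 1) ≤ x ^ 2 := by
    calc (x ^ 2) ^ (k + 1) = (x ^ 2) ^ k * x ^ 2 := pow_succ _ _
      _ ≤ 1 * x ^ 2 := by
        gcongr
        exact pow_le_one₀ hx0 hx2
      _ = x ^ 2 := one_mul _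
  have hr0 : 0 ≤ (r ^ 2) ^ (k + 1) := by positivity
  have e : ((x * r) ^ 2) ^ (k + 1) = (x ^ 2) ^ (k + 1) * (r ^ 2) ^ (k + 1) := by
    rw [mul_pow, mul_pow]
  rw [e, ← mul_div_assoc]
  gcongr

/-- Key scaling inequality: `psi2 (x r) ≤ x^2 psi2 r` for `|x| ≤ 1`, `|r| ≤ 1`. -/
theorem psi2_mul_le {x r : ℝ} (hx : |x| ≤ 1) (hr : |r| ≤ 1) :
    psi2 (x * r) ≤ x ^ 2 * psi2 r := by
  have key : ∀ s ∈ Set.Ioo (-1 : ℝ) 1, psi2 (x * s) ≤ x ^ 2 * psi2 s := by
    intro s hs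
    exact psi2_mul_le_aux hx (abs_lt.mpr ⟨hs.1, hs.2⟩)
  have hcl : r ∈ closure (Set.Ioo (-1 : ℝ) 1) := by
    rw [closure_Ioo (by norm_num)]
    exact ⟨(abs_le.mp hr).1, (abs_le.mp hr).2⟩
  refine le_on_closure key ?_ ?_ hcl
  · exact (psi2_continuous.comp (continuous_const.mul continuous_id)).continuousOn
  · exact (continuous_const.mul psi2_continuous).continuousOn

theorem psi2_nonneg {t : ℝ} (ht : |t| ≤ 1) : 0 ≤ psi2 t := by
  have h := psi2_mul_le (x := 0) (r := t) (by simp) ht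
  simp [psi2_zero] at h
  have key : ∀ s ∈ Set.Ioo (-1 : ℝ) 1, (0 : ℝ) ≤ psi2 s := by
    intro s hs
    exact psi2_nonneg_of_abs_lt (abs_lt.mpr ⟨hs.1, hs.2⟩)
  have hcl : t ∈ closure (Set.Ioo (-1 : ℝ) 1) := by
    rw [closure_Ioo (by norm_num)]
    exact ⟨(abs_le.mp ht).1, (abs_le.mp ht).2⟩
  exact le_on_closure key continuousOn_const psi2_continuous.continuousOn hcl

end Vale.Agent.P322
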