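import Vale.Agent.P322.Analytic

/-!
Basic objects for the potential-function induction: the two-point increment `K2`.
-/

namespace Vale.Agent.P322

open Real

/-- Two-point increment of `psi2`: the (doubled) information that a fair sign carries about a
binary variable whose conditional means are `P + s` and `P - s`. -/
noncomputable def K2 (P s : ℝ) : ℝ := (psi2 (P + s) + psi2 (P - s)) / 2 - psi2 P

theorem psi2_one : psi2 1 = 2 * Real.log 2 := by
  unfold psi2
  norm_num

theorem psi2_one_pos : 0 < psi2 1 := by
  rw [psi2_one]
  have := Real.log_pos (by norm_num : (1 : ℝ) < 2)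
  linarith

theorem K2_zero (P : ℝ) : K2 P 0 = 0 := by
  unfold K2
  simp

end Vale.Agent.P322
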