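import Vale.Agent.P322.BMDefs

/-!
The entropy bound `h2(x) ≤ (4x(1-x))^(2/3)` in polynomial form.
-/

namespace Vale.Agent.P322

open Real

private theorem log_le_half {x : ℝ} (hx : 1 ≤ x) : Real.log x ≤ (x - x⁻¹) / 2 := by
  have h0 : 0 ≤ Real.log x := Real.log_nonneg hx
  have h := Real.self_le_sinh_iff.2 h0
  rwa [Real.sinh_log (by linarith)] at h

private theorem l_le {s : ℝ} (h0 : 0 ≤ s) (h1 : s < 1) :
    Real.log (1 + s) - Real.log (1 - s) ≤ 2 * s / (1 - s ^ 2) := by
  have hB : 0 < 1 - s := by linarith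
  have hA : 0 < 1 + s := by linarith
  have h := log_le_half (x := (1 + s) / (1 - s)) (by rw [le_div_iff₀ hB]; linarith)
  rw [Real.log_div hA.ne' hB.ne'] at h
  refine h.trans (le_of_eq ?_)
  have h2 : 1 - s ^ 2 = (1 - s) * (1 + s) := by ring
  rw [h2]
  field_simp
  ring

private theorem hasDerivAt_logA {s : ℝ} (h : 1 + s ≠ 0) :
    HasDerivAt (fun t : ℝ => Real.log (1 + t)) (1 / (1 + s)) s := by
  have h1 : HasDerivAt (fun t : ℝ => 1 + t) 1 s := (hasDerivAt_id s).const_add 1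
  exact h1.log h

private theorem hasDerivAt_logB {s : ℝ} (h : 1 - s ≠ 0) :
    HasDerivAt (fun t : ℝ => Real.log (1 - t)) (-1 / (1 - s)) s := by
  have h1 : HasDerivAt (fun t : ℝ => 1 - t) (-1) s := (hasDerivAt_id s).const_sub 1
  exact h1.log h

private theorem hasDerivAt_A {s : ℝ} (h : 1 + s ≠ 0) :
    HasDerivAt (fun t : ℝ => (1 + t) * Real.log (1 + t)) (Real.log (1 + s) + 1) s := by
  have h1 : HasDerivAt (fun t : ℝ => 1 + t) 1 s := (hasDerivAt_id s).const_add 1
  have h2 := h1.fun_mul (hasDerivAt_logA h)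
  refine h2.congr_deriv ?_
  field_simp

private theorem hasDerivAt_B {s : ℝ} (h : 1 - s ≠ 0) :
    HasDerivAt (fun t : ℝ => (1 - t) * Real.log (1 - t)) (-Real.log (1 - s) - 1) s := by
  have h1 : HasDerivAt (fun t : ℝ => 1 - t) (-1) s := (hasDerivAt_id s).const_sub 1
  have h2 := h1.fun_mul (hasDerivAt_logB h)
  refine h2.congr_deriv ?_
  field_simp
  ring

private theorem hasDerivAt_psi2 {s : ℝ} (hA : 1 + s ≠ 0) (hB : 1 - s ≠ 0) :
    HasDerivAt psi2 (Real.log (1 + s) - Real.log (1 - s)) s := by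
  have h := (hasDerivAt_A hA).fun_add (hasDerivAt_B hB)
  refine h.congr_deriv ?_
  ring

private noncomputable def W (s : ℝ) : ℝ :=
  (3 + s) * ((1 + s) * Real.log (1 + s)) - (3 - s) * ((1 - s) * Real.log (1 - s))
    - 8 * Real.log 2 * s

private noncomputable def W1 (s : ℝ) : ℝ :=
  (4 + 2 * s) * Real.log (1 + s) + (4 - 2 * s) * Real.log (1 - s) + (6 - 8 * Real.log 2)

private noncomputable def W2 (s : ℝ) : ℝ :=
  2 * (Real.log (1 + s) - Real.log (1 - s)) - 4 * s / (1 - s ^ 2)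

private theorem W_continuous : Continuous W := by
  unfold W
  have h := Real.continuous_mul_log
  have hA : Continuous fun t : ℝ => (1 + t) * Real.log (1 + t) :=
    h.comp (continuous_const.add continuous_id)
  have hB : Continuous fun t : ℝ => (1 - t) * Real.log (1 - t) :=
    h.comp (continuous_const.sub continuous_id)
  exact (((continuous_const.add continuous_id).mul hA).sub
    ((continuous_const.sub continuous_id).mul hB)).sub (continuous_const.mul continuous_id)

private theorem hasDerivAt_W {s : ℝ} (hA : 1 + s ≠ 0) (hB : 1 - s ≠ 0) :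
    HasDerivAt W (W1 s) s := by
  have h1 : HasDerivAt (fun t : ℝ => 3 + t) 1 s := (hasDerivAt_id s).const_add 3
  have h2 : HasDerivAt (fun t : ℝ => 3 - t) (-1) s := (hasDerivAt_id s).const_sub 3
  have h3 : HasDerivAt (fun t : ℝ => 8 * Real.log 2 * t) (8 * Real.log 2 * 1) s :=
    (hasDerivAt_id s).const_mul _
  have h := ((h1.fun_mul (hasDerivAt_A hA)).fun_sub (h2.fun_mul (hasDerivAt_B hB))).fun_sub h3
  refine h.congr_deriv ?_
  unfold W1
  ring

private theorem hasDerivAt_W1 {s : ℝ} (hA : 1 + s ≠ 0) (hB : 1 - s ≠ 0) :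
    HasDerivAt W1 (W2 s) s := by
  have h1 : HasDerivAt (fun t : ℝ => 4 + 2 * t) (2 * 1) s :=
    ((hasDerivAt_id s).const_mul 2).const_add 4
  have h2 : HasDerivAt (fun t : ℝ => 4 - 2 * t) (-(2 * 1)) s :=
    ((hasDerivAt_id s).const_mul 2).const_sub 4
  have h := ((h1.fun_mul (hasDerivAt_logA hA)).fun_add
    (h2.fun_mul (hasDerivAt_logB hB))).add_const (6 - 8 * Real.log 2)
  refine h.congr_deriv ?_
  unfold W2
  have h3 : 1 - s ^ 2 = (1 - s) * (1 + s) := by ring
  rw [h3]
  field_simp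
  ring

private theorem W_concave : ConcaveOn ℝ (Set.Icc 0 1) W := by
  apply concaveOn_of_hasDerivWithinAt2_nonpos (convex_Icc 0 1) W_continuous.continuousOn
    (f' := W1) (f'' := W2)
  · intro x hx
    rw [interior_Icc] at hx
    exact (hasDerivAt_W (by linarith [hx.1]) (by linarith [hx.2])).hasDerivWithinAt
  · intro x hx
    rw [interior_Icc] at hx
    exact (hasDerivAt_W1 (by linarith [hx.1]) (by linarith [hx.2])).hasDerivWithinAt
  · intro x hx
    rw [interior_Icc] at hx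
    have h := l_le hx.1.le hx.2
    unfold W2
    have h2 : 4 * x / (1 - x ^ 2) = 2 * (2 * x / (1 - x ^ 2)) := by ring
    rw [h2]
    linarith

private theorem W_nonneg {s : ℝ} (h0 : 0 ≤ s) (h1 : s ≤ 1) : 0 ≤ W s := by
  have h := W_concave.2 (show (0 : ℝ) ∈ Set.Icc (0 : ℝ) 1 by simp)
    (show (1 : ℝ) ∈ Set.Icc (0 : ℝ) 1 by simp) (show 0 ≤ 1 - s by linarith) h0 (by ring)
  have hW0 : W 0 = 0 := by simp [W]
  have hW1 : W 1 = 0 := by
    unfold W
    norm_num
    ring
  rw [hW0, hW1] at h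
  simpa using h

private theorem hasDerivAt_R {s : ℝ} (h0 : 0 < s) (h1 : s < 1) :
    HasDerivAt (fun t : ℝ => (psi2 1 - psi2 t) ^ 3 / (1 - t ^ 2) ^ 2)
      (-((psi2 1 - psi2 s) ^ 2 * W s) / (1 - s ^ 2) ^ 3) s := by
  have hD : 0 < 1 - s ^ 2 := by nlinarith
  have hN : HasDerivAt (fun t : ℝ => psi2 1 - psi2 t)
      (-(Real.log (1 + s) - Real.log (1 - s))) s :=
    (hasDerivAt_psi2 (by linarith) (by linarith)).const_sub _
  have hDn : HasDerivAt (fun t : ℝ => 1 - t ^ 2) (-(2 * s)) s := by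
    have h := ((hasDerivAt_id s).fun_pow 2).const_sub 1
    refine h.congr_deriv ?_
    simp
  have h := (hN.fun_pow 3).fun_div (hDn.fun_pow 2) (by positivity)
  refine h.congr_deriv ?_
  rw [div_eq_div_iff (by positivity) (by positivity)]
  have hW : W s = 3 * (Real.log (1 + s) - Real.log (1 - s)) * (1 - s ^ 2)
      - 4 * s * (psi2 1 - psi2 s) := by
    rw [psi2_one]
    unfold W psi2
    ring
  rw [hW]
  push_cast
  ring

private theorem key {s : ℝ} (h0 : 0 ≤ s) (h1 : s < 1) :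
    (psi2 1 - psi2 s) ^ 3 ≤ (psi2 1) ^ 3 * (1 - s ^ 2) ^ 2 := by
  have hanti : AntitoneOn (fun t : ℝ => (psi2 1 - psi2 t) ^ 3 / (1 - t ^ 2) ^ 2)
      (Set.Ico 0 1) := by
    apply antitoneOn_of_deriv_nonpos (convex_Ico 0 1)
    · apply ContinuousOn.div
      · exact ((continuous_const.sub psi2_continuous).pow 3).continuousOn
      · fun_prop
      · intro t ht
        have : 0 < 1 - t ^ 2 := by nlinarith [ht.1, ht.2]
        positivity
    · intro t ht
      rw [interior_Ico] at ht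
      exact (hasDerivAt_R ht.1 ht.2).differentiableAt.differentiableWithinAt
    · intro t ht
      rw [interior_Ico] at ht
      rw [(hasDerivAt_R ht.1 ht.2).deriv]
      have hD : 0 < 1 - t ^ 2 := by nlinarith [ht.1, ht.2]
      have hW := W_nonneg ht.1.le ht.2.le
      apply div_nonpos_of_nonpos_of_nonneg
      · have : 0 ≤ (psi2 1 - psi2 t) ^ 2 * W t := mul_nonneg (sq_nonneg _) hW
        linarith
      · positivity
  have h := hanti (a := 0) (b := s) ⟨le_rfl, zero_lt_one⟩ ⟨h0, h1⟩ h0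
  have hD : 0 < 1 - s ^ 2 := by nlinarith
  simp only [psi2_zero] at h
  rw [div_le_iff₀ (by positivity)] at h
  norm_num at h
  exact h

private theorem ent_pow_nonneg {s : ℝ} (h0 : 0 ≤ s) (h1 : s ≤ 1) :
    (1 - psi2 s / psi2 1) ^ 3 ≤ (1 - s ^ 2) ^ 2 := by
  have hL := psi2_one_pos
  rcases h1.lt_or_eq with h1 | rfl
  · have h := key h0 h1
    have h2 : 1 - psi2 s / psi2 1 = (psi2 1 - psi2 s) / psi2 1 := by
      field_simp
    rw [h2, div_pow, div_le_iff₀ (by positivity)]
    linarith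
  · rw [div_self hL.ne']
    norm_num

/-- With `a = 1 - psi2 s / psi2 1` (the binary entropy, in bits, of a sign with mean `s`):
`a ^ 3 ≤ (1 - s^2)^2`. -/
theorem ent_pow {s : ℝ} (hs : |s| ≤ 1) :
    (1 - psi2 s / psi2 1) ^ 3 ≤ (1 - s ^ 2) ^ 2 := by
  rcases le_total 0 s with h | h
  · exact ent_pow_nonneg h (by rwa [abs_of_nonneg h] at hs)
  · have h2 := ent_pow_nonneg (s := -s) (by linarith) (by rwa [abs_of_nonpos h] at hs)
    rw [psi2_neg] at h2
    simpa using h2

end Vale.Agent.P322
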