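import Vale.Agent.P322.BMDefs

/-!
The reverse-channel identity for the two-point increment and its first consequences.
-/

namespace Vale.Agent.P322

open Real

theorem scaled_mul_log {x u : ℝ} (hx : 0 < x) (hu : 0 ≤ u) :
    x * ((u / x) * Real.log (u / x)) = u * Real.log u - u * Real.log x := by
  rcases hu.eq_or_lt with h | h
  · subst h
    simp
  · rw [Real.log_div h.ne' hx.ne']
    field_simp

theorem scaled_psi2 {x s : ℝ} (hx : 0 < x) (hs : |s| ≤ x) :
    x * psi2 (s / x) = (x + s) * Real.log (x + s) + (x - s) * Real.log (x - s)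
      - 2 * x * Real.log x := by
  have h1 : 0 ≤ x + s := by linarith [(abs_le.mp hs).1]
  have h2 : 0 ≤ x - s := by linarith [(abs_le.mp hs).2]
  have e1 : 1 + s / x = (x + s) / x := by field_simp
  have e2 : 1 - s / x = (x - s) / x := by field_simp
  unfold psi2
  rw [e1, e2, mul_add, scaled_mul_log hx h1, scaled_mul_log hx h2]
  ring

/-- `K2 P s = (1+P)/2 psi2 (s/(1+P)) + (1-P)/2 psi2 (s/(1-P))`. -/
theorem K2_eq {P s : ℝ} (hP : |P| < 1) (hs : |s| ≤ 1 - |P|) :
    K2 P s = (1 + P) / 2 * psi2 (s / (1 + P)) + (1 - P) / 2 * psi2 (s / (1 - P)) := by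
  have hP' := abs_lt.mp hP
  have hx1 : 0 < 1 + P := by linarith
  have hx2 : 0 < 1 - P := by linarith
  have hs1 : |s| ≤ 1 + P := by linarith [neg_abs_le P]
  have hs2 : |s| ≤ 1 - P := by linarith [le_abs_self P]
  have a1 := scaled_psi2 hx1 hs1
  have a2 := scaled_psi2 hx2 hs2
  have b1 : (1 + P) / 2 * psi2 (s / (1 + P)) = ((1 + P) * psi2 (s / (1 + P))) / 2 := by ring
  have b2 : (1 - P) / 2 * psi2 (s / (1 - P)) = ((1 - P) * psi2 (s / (1 - P))) / 2 := by ring
  rw [b1, b2, a1, a2]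
  unfold K2 psi2
  have c1 : 1 + (P + s) = 1 + P + s := by ring
  have c2 : 1 - (P + s) = 1 - P - s := by ring
  have c3 : 1 + (P - s) = 1 + P - s := by ring
  have c4 : 1 - (P - s) = 1 - P + s := by ring
  rw [c1, c2, c3, c4]
  ring

/-- Noise bound for the two-point increment. -/
theorem K2_noise_le {P D r : ℝ} (hP : |P| < 1) (hD : |D| ≤ 1 - |P|) (hr : |r| ≤ 1) :
    K2 P (r * D) ≤ psi2 r * (D ^ 2 / (1 - P ^ 2)) := by
  have hP' := abs_lt.mp hP
  have hx1 : 0 < 1 + P := by linarith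
  have hx2 : 0 < 1 - P := by linarith
  have hs1 : |D| ≤ 1 + P := by linarith [neg_abs_le P]
  have hs2 : |D| ≤ 1 - P := by linarith [le_abs_self P]
  have hrD : |r * D| ≤ 1 - |P| := by
    rw [abs_mul]
    calc |r| * |D| ≤ 1 * |D| := by gcongr
      _ ≤ 1 - |P| := by linarith
  rw [K2_eq hP hrD]
  have t1 : |D / (1 + P)| ≤ 1 := by
    rw [abs_div, abs_of_pos hx1]
    exact (div_le_one hx1).mpr hs1
  have t2 : |D / (1 - P)| ≤ 1 := by
    rw [abs_div, abs_of_pos hx2]
    exact (div_le_one hx2).mpr hs2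
  have m1 := psi2_mul_le t1 hr
  have m2 := psi2_mul_le t2 hr
  have e1 : r * D / (1 + P) = D / (1 + P) * r := by ring
  have e2 : r * D / (1 - P) = D / (1 - P) * r := by ring
  rw [e1, e2]
  have g1 : (1 + P) / 2 * psi2 (D / (1 + P) * r) ≤ (1 + P) / 2 * ((D / (1 + P)) ^ 2 * psi2 r) :=
    mul_le_mul_of_nonneg_left m1 (by linarith)
  have g2 : (1 - P) / 2 * psi2 (D / (1 - P) * r) ≤ (1 - P) / 2 * ((D / (1 - P)) ^ 2 * psi2 r) :=
    mul_le_mul_of_nonneg_left m2 (by linarith)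
  have hc : (1 + P) / 2 * ((D / (1 + P)) ^ 2 * psi2 r) + (1 - P) / 2 * ((D / (1 - P)) ^ 2 * psi2 r)
      = psi2 r * (D ^ 2 / (1 - P ^ 2)) := by
    have h3 : (1 - P ^ 2) = (1 + P) * (1 - P) := by ring
    rw [h3]
    field_simp
    ring
  linarith

/-- `KL ≤ chi^2` in the present notation. -/
theorem psi2_chi2 {t m : ℝ} (ht : |t| ≤ 1) (hm : |m| < 1) :
    psi2 t ≤ (1 + t) * Real.log (1 + m) + (1 - t) * Real.log (1 - m)
      + 2 * (t - m) ^ 2 / (1 - m ^ 2) := by
  have hm' := abs_lt.mp hm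
  have ht' := abs_le.mp ht
  have hx1 : 0 < 1 + m := by linarith
  have hx2 : 0 < 1 - m := by linarith
  have key : ∀ u x : ℝ, 0 ≤ u → 0 < x → u * Real.log u ≤ u * Real.log x + u * (u / x - 1) := by
    intro u x hu hx
    rcases hu.eq_or_lt with h | h
    · subst h
      simp
    · have h1 : Real.log (u / x) ≤ u / x - 1 := Real.log_le_sub_one_of_pos (div_pos h hx)
      rw [Real.log_div h.ne' hx.ne'] at h1
      nlinarith
  have k1 := key (1 + t) (1 + m) (by linarith) hx1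
  have k2 := key (1 - t) (1 - m) (by linarith) hx2
  have hc : (1 + t) * ((1 + t) / (1 + m) - 1) + (1 - t) * ((1 - t) / (1 - m) - 1)
      = 2 * (t - m) ^ 2 / (1 - m ^ 2) := by
    have h3 : (1 - m ^ 2) = (1 + m) * (1 - m) := by ring
    rw [h3]
    field_simp
    ring
  unfold psi2
  linarith

end Vale.Agent.P322
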