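import Vale.Agent.P322.BMMain

/-!
From the potential inequality to the mutual information of a Boolean function.
-/

namespace Vale.Agent.P322

open Real

variable {n : ℕ}

theorem ell_half_pair {t : ℝ} (ht : |t| ≤ 1) :
    ell ((1 + t) / 2) + ell ((1 - t) / 2) = psi2 t / 2 - Real.log 2 := by
  have hl := abs_le.mp ht
  have e1 : ell ((1 + t) / 2) = (1 / 2) * ell (1 + t) + (1 + t) * ell (1 / 2) := by
    rw [← ell_mul (by norm_num) (by linarith)]
    congr 1
    ring
  have e2 : ell ((1 - t) / 2) = (1 / 2) * ell (1 - t) + (1 - t) * ell (1 / 2) := by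
    rw [← ell_mul (by norm_num) (by linarith)]
    congr 1
    ring
  have e3 : ell (1 / 2) = -(Real.log 2) / 2 := by
    unfold ell
    rw [one_div, Real.log_inv]
    ring
  have e4 : psi2 t = ell (1 + t) + ell (1 - t) := rfl
  rw [e1, e2, e3, e4]
  ring

theorem Tn_one (ε : ℝ) (y : Cube n) : Tn ε (fun _ : Cube n => (1 : ℝ)) y = 1 := by
  unfold Tn
  simp [wn_total]

theorem Tn_ind (f : Cube n → ℤˣ) (ε : ℝ) (a : ℤˣ) :
    Tn ε (ind f a) = fun y => (1 + sg a * Tn ε (fun x => sg (f x)) y) / 2 := by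
  have h : ind f a = fun x => (1 / 2 : ℝ) * (1 + sg a * sg (f x)) := by
    funext x
    unfold ind
    rw [ind_eq]
    ring
  rw [h, Tn_mul_left]
  funext y
  rw [Tn_add, Tn_mul_left]
  simp only [Tn_one]
  ring

/-- `I(f(X);Y)` in terms of the two-sided entropy functional of the noisy version of `f`. -/
theorem mutualInfo_eq_E2 (f : Cube n → ℤˣ) {ε : ℝ} (h0 : 0 ≤ ε) (h1 : ε ≤ 1) :
    mutualInfo (law n ε) (fun ω => f ω.1) (fun ω => noisy ω)
      = E2 (Tn ε (fun x => sg (f x))) / (2 * Real.log 2) := by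
  have hl2 : Real.log 2 ≠ 0 := by positivity
  rw [mutualInfo_full f h0 h1]
  set H := Tn ε (fun x => sg (f x)) with hH
  have hH1 : ∀ y, |H y| ≤ 1 := Tn_abs_le h0 h1 (fun x => le_of_eq (sg_abs _))
  have hm : |mean H| ≤ 1 := abs_mean_le hH1
  have key : Ent (Tn ε (ind f 1)) + Ent (Tn ε (ind f (-1))) = E2 H / 2 := by
    unfold Ent E2
    rw [Tn_ind, Tn_ind]
    simp only [sg_one, sg_neg_one, one_mul, neg_mul, ← sub_eq_add_neg, ← hH]
    have m1 : mean (fun y => (1 + H y) / 2) = (1 + mean H) / 2 := by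
      have : (fun y => (1 + H y) / 2) = fun y => (1 / 2 : ℝ) * (1 + H y) := by
        funext y; ring
      rw [this, mean_mul_left, mean_add, mean_const]
      ring
    have m2 : mean (fun y => (1 - H y) / 2) = (1 - mean H) / 2 := by
      have : (fun y => (1 - H y) / 2) = fun y => (1 / 2 : ℝ) * (1 - H y) := by
        funext y; ring
      rw [this, mean_mul_left, mean_sub, mean_const]
      ring
    rw [m1, m2]
    have s : mean (fun x => ell ((1 + H x) / 2)) + mean (fun x => ell ((1 - H x) / 2))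
        = mean (fun x => psi2 (H x)) / 2 - Real.log 2 := by
      rw [← mean_add]
      have : (fun x => ell ((1 + H x) / 2) + ell ((1 - H x) / 2))
          = fun x => (1 / 2 : ℝ) * psi2 (H x) - Real.log 2 := by
        funext x
        rw [ell_half_pair (hH1 x)]
        ring
      rw [this, mean_sub, mean_mul_left, mean_const]
      ring
    have s2 := ell_half_pair hm
    linarith
  rw [key]
  field_simp

theorem E2_sign (f : Cube n → ℤˣ) :
    E2 (fun x => sg (f x)) = psi2 1 - psi2 (mean (fun x => sg (f x))) := by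
  unfold E2
  have : (fun x => psi2 (sg (f x))) = fun _ => psi2 1 := by
    funext x
    rcases sg_cases (f x) with h | h <;> rw [h]
    · simp
    · rw [sg_neg_one, psi2_neg]
  rw [this, mean_const]

/-- Refined Courtade-Kumar inequality in the range `1 - h2 ε ≤ 1/6`. -/
theorem ck_refined (f : Cube n → ℤˣ) {ε : ℝ} (h0 : 0 ≤ ε) (h1 : ε ≤ 1 / 2)
    (hq : 1 - h2 ε ≤ 1 / 6) :
    mutualInfo (law n ε) (fun ω => f ω.1) (fun ω => noisy ω)
      ≤ (1 - h2 ε) * (1 - pw (psi2 (mean (fun x => sg (f x))) / psi2 1)) := by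
  have hl2 : 0 < Real.log 2 := by positivity
  rw [mutualInfo_eq_E2 f h0 (by linarith)]
  rw [one_sub_h2 ε h0 h1] at hq ⊢
  have hq' : psi2 (1 - 2 * ε) ≤ psi2 1 / 6 := by
    rw [psi2_one]
    rw [div_le_iff₀ (by positivity)] at hq
    linarith
  have h := bm h0 (by linarith) hq' n (fun x => sg (f x)) (fun x => le_of_eq (sg_abs _))
  rw [E2_sign] at h
  have e : 1 - (psi2 1 - psi2 (mean (fun x => sg (f x)))) / psi2 1
      = psi2 (mean (fun x => sg (f x))) / psi2 1 := by
    have := psi2_one_pos.ne'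
    field_simp
    ring
  rw [e] at h
  rw [div_mul_eq_mul_div]
  gcongr

/-- The Courtade-Kumar inequality for all Boolean functions in the range `1 - h2 ε ≤ 1/6`. -/
theorem ck_high_noise (f : Cube n → ℤˣ) {ε : ℝ} (h0 : 0 ≤ ε) (h1 : ε ≤ 1 / 2)
    (hq : 1 - h2 ε ≤ 1 / 6) :
    mutualInfo (law n ε) (fun ω => f ω.1) (fun ω => noisy ω) ≤ 1 - h2 ε := by
  refine le_trans (ck_refined f h0 h1 hq) ?_
  have hr : |1 - 2 * ε| ≤ 1 := by
    rw [abs_le]
    constructor <;> linarith
  have hl2 : 0 < Real.log 2 := by positivity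
  have hc : 0 ≤ 1 - h2 ε := by
    rw [one_sub_h2 ε h0 h1]
    exact div_nonneg (psi2_nonneg hr) (by positivity)
  have hm : |mean (fun x => sg (f x))| ≤ 1 := abs_mean_le (fun x => le_of_eq (sg_abs _))
  have hp : 0 ≤ pw (psi2 (mean (fun x => sg (f x))) / psi2 1) :=
    pw_nonneg (div_nonneg (psi2_nonneg hm) psi2_one_pos.le)
  nlinarith

end Vale.Agent.P322
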