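import Vale.Agent.P322.BMLink

/-!
An explicit noise range in which `1 - h2 ε ≤ 1/6`.
-/

namespace Vale.Agent.P322

open Real

theorem psi2_upper {t : ℝ} (ht : |t| < 1) :
    psi2 t ≤ t ^ 2 + t ^ 4 / 6 + t ^ 6 / (15 * (1 - t ^ 2)) := by
  have h := psi2_hasSum ht
  have h2 := (hasSum_nat_add_iff' 2).mpr h
  have ht2 : t ^ 2 < 1 := by
    rw [← sq_abs]
    exact pow_lt_one₀ (abs_nonneg t) ht (by norm_num)
  have ht0 : 0 ≤ t ^ 2 := by positivity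
  have hg := (hasSum_geometric_of_lt_one ht0 ht2).mul_left (t ^ 6 / 15)
  have hle := hasSum_le (fun k => ?_) h2 hg
  · simp only [Finset.sum_range_succ, Finset.sum_range_zero] at hle
    norm_num at hle
    have e : t ^ 6 / 15 * (1 - t ^ 2)⁻¹ = t ^ 6 / (15 * (1 - t ^ 2)) := by
      have : (1 - t ^ 2) ≠ 0 := by linarith
      field_simp
    rw [e] at hle
    have e4 : (t ^ 2) ^ 2 = t ^ 4 := by ring
    rw [e4] at hle
    linarith
  · have e : (t ^ 2) ^ (k + 2 + 1) = t ^ 6 * (t ^ 2) ^ k := by ring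
    rw [e]
    have hk : (15 : ℝ) ≤ (2 * ((k + 2 : ℕ) : ℝ) + 1) * (((k + 2 : ℕ) : ℝ) + 1) := by
      push_cast
      have : (0 : ℝ) ≤ k := Nat.cast_nonneg k
      nlinarith
    have hpos : 0 ≤ t ^ 6 * (t ^ 2) ^ k := by positivity
    calc t ^ 6 * (t ^ 2) ^ k / ((2 * ((k + 2 : ℕ) : ℝ) + 1) * (((k + 2 : ℕ) : ℝ) + 1))
        ≤ t ^ 6 * (t ^ 2) ^ k / 15 := by gcongr
      _ = t ^ 6 / 15 * (t ^ 2) ^ k := by ring

theorem one_sub_h2_le {ε : ℝ} (h0 : 265 / 1000 ≤ ε) (h1 : ε ≤ 1 / 2) : 1 - h2 ε ≤ 1 / 6 := by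
  have hl2 : 0 < Real.log 2 := by positivity
  rw [one_sub_h2 ε (by linarith) h1]
  rw [div_le_iff₀ (by positivity)]
  set r := 1 - 2 * ε with hr
  have hr0 : 0 ≤ r := by linarith
  have hr1 : r ≤ 47 / 100 := by linarith
  have habs : |r| < 1 := by
    rw [abs_lt]
    constructor <;> linarith
  have hu := psi2_upper habs
  have hlog : (0.6931471803 : ℝ) < Real.log 2 := Real.log_two_gt_d9
  have p2 : r ^ 2 ≤ (47 / 100 : ℝ) ^ 2 := by gcongr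
  have p4 : r ^ 4 ≤ (47 / 100 : ℝ) ^ 4 := by gcongr
  have p6 : r ^ 6 ≤ (47 / 100 : ℝ) ^ 6 := by gcongr
  have hd : r ^ 6 / (15 * (1 - r ^ 2)) ≤ (47 / 100 : ℝ) ^ 6 / (15 * (1 - (47 / 100 : ℝ) ^ 2)) := by
    apply div_le_div₀ (by positivity) p6 (by norm_num)
    linarith
  norm_num at p2 p4 hd hlog ⊢
  linarith

end Vale.Agent.P322
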