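import Vale.Agent.P322.BMMain2
import Vale.Agent.P322.BMNum

/-!
The Courtade-Kumar inequality for all Boolean functions when `1/6 ≤ ε ≤ 1/2`.
-/

namespace Vale.Agent.P322

open Real

variable {n : ℕ}

theorem psi2_two_thirds {r : ℝ} (h0 : 0 ≤ r) (h1 : r ≤ 2 / 3) : psi2 r ≤ 36 / 100 * psi2 1 := by
  have habs : |r| < 1 := by
    rw [abs_lt]
    constructor <;> linarith
  have hu := psi2_upper habs
  have hlog : (0.6931471803 : ℝ) < Real.log 2 := Real.log_two_gt_d9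
  rw [psi2_one]
  have p2 : r ^ 2 ≤ (2 / 3 : ℝ) ^ 2 := by gcongr
  have p4 : r ^ 4 ≤ (2 / 3 : ℝ) ^ 4 := by gcongr
  have p6 : r ^ 6 ≤ (2 / 3 : ℝ) ^ 6 := by gcongr
  have hd : r ^ 6 / (15 * (1 - r ^ 2)) ≤ (2 / 3 : ℝ) ^ 6 / (15 * (1 - (2 / 3 : ℝ) ^ 2)) := by
    apply div_le_div₀ (by positivity) p6 (by norm_num)
    linarith
  norm_num at p2 p4 hd hlog ⊢
  linarith

/-- Refined Courtade-Kumar inequality in the range `1/6 ≤ ε ≤ 1/2`. -/
theorem ck_refined2 (f : Cube n → ℤˣ) {ε : ℝ} (h0 : 1 / 6 ≤ ε) (h1 : ε ≤ 1 / 2) :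
    mutualInfo (law n ε) (fun ω => f ω.1) (fun ω => noisy ω)
      ≤ (1 - h2 ε) * (1 - pw (psi2 (mean (fun x => sg (f x))) / psi2 1)) := by
  have hl2 : 0 < Real.log 2 := by positivity
  have h0' : 0 ≤ ε := by linarith
  rw [mutualInfo_eq_E2 f h0' (by linarith)]
  rw [one_sub_h2 ε h0' h1]
  have hr0 : 0 ≤ 1 - 2 * ε := by linarith
  have hr1 : 1 - 2 * ε ≤ 2 / 3 := by linarith
  have hr2 : (1 - 2 * ε) ^ 2 ≤ 4 / 9 := by nlinarith
  have h := bm2 h0' (by linarith) hr2 (psi2_two_thirds hr0 hr1) n (fun x => sg (f x))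
    (fun x => le_of_eq (sg_abs _))
  rw [E2_sign] at h
  have e : 1 - (psi2 1 - psi2 (mean (fun x => sg (f x)))) / psi2 1
      = psi2 (mean (fun x => sg (f x))) / psi2 1 := by
    have := psi2_one_pos.ne'
    field_simp
    ring
  rw [e] at h
  rw [div_mul_eq_mul_div]
  gcongr

/-- The Courtade-Kumar inequality for all Boolean functions in the range `1/6 ≤ ε ≤ 1/2`. -/
theorem ck_sixth (f : Cube n → ℤˣ) {ε : ℝ} (h0 : 1 / 6 ≤ ε) (h1 : ε ≤ 1 / 2) :
    mutualInfo (law n ε) (fun ω => f ω.1) (fun ω => noisy ω) ≤ 1 - h2 ε := by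
  refine le_trans (ck_refined2 f h0 h1) ?_
  have hr : |1 - 2 * ε| ≤ 1 := by
    rw [abs_le]
    constructor <;> linarith
  have hl2 : 0 < Real.log 2 := by positivity
  have hc : 0 ≤ 1 - h2 ε := by
    rw [one_sub_h2 ε (by linarith) h1]
    exact div_nonneg (psi2_nonneg hr) (by positivity)
  have hm : |mean (fun x => sg (f x))| ≤ 1 := abs_mean_le (fun x => le_of_eq (sg_abs _))
  have hp : 0 ≤ pw (psi2 (mean (fun x => sg (f x))) / psi2 1) :=
    pw_nonneg (div_nonneg (psi2_nonneg hm) psi2_one_pos.le)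
  nlinarith

end Vale.Agent.P322
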