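import Vale.Agent.P322.BMIdent

/-!
Lower bound for the two-point increment.
-/

namespace Vale.Agent.P322

open Real

/-- Midpoint convexity of powers on the nonnegative reals. -/
theorem midpoint_pow_le {X Y : ℝ} (hX : 0 ≤ X) (hY : 0 ≤ Y) (j : ℕ) :
    ((X + Y) / 2) ^ j ≤ (X ^ j + Y ^ j) / 2 := by
  have h := (convexOn_pow j).2 (Set.mem_Ici.mpr hX) (Set.mem_Ici.mpr hY)
    (by norm_num : (0 : ℝ) ≤ 1 / 2) (by norm_num : (0 : ℝ) ≤ 1 / 2) (by norm_num)
  simp only [smul_eq_mul] at h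
  have e1 : (1 / 2 : ℝ) * X + 1 / 2 * Y = (X + Y) / 2 := by ring
  have e2 : (1 / 2 : ℝ) * X ^ j + 1 / 2 * Y ^ j = (X ^ j + Y ^ j) / 2 := by ring
  rw [e1, e2] at h
  exact h

/-- Rewriting one term. -/
theorem term_rewrite {a : ℝ} (ha : 0 < a) (D : ℝ) (k : ℕ) :
    a * ((D / a) ^ 2) ^ (k + 1) = (D ^ 2) ^ (k + 1) * (1 / a) ^ (2 * k + 1) := by
  have hu : a * (1 / a) = 1 := by field_simp
  have e : D / a = D * (1 / a) := by ring
  rw [e]
  generalize 1 / a = u at hu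
  calc a * ((D * u) ^ 2) ^ (k + 1) = (D ^ 2) ^ (k + 1) * ((a * u) * u ^ (2 * k + 1)) := by ring
    _ = (D ^ 2) ^ (k + 1) * u ^ (2 * k + 1) := by rw [hu, one_mul]

/-- The termwise comparison. -/
theorem K2_lower_term {P : ℝ} (hP : |P| < 1) (D : ℝ) (k : ℕ) :
    (1 - P ^ 2) * ((D / (1 - P ^ 2)) ^ 2) ^ (k + 1)
      ≤ (1 + P) / 2 * ((D / (1 + P)) ^ 2) ^ (k + 1)
        + (1 - P) / 2 * ((D / (1 - P)) ^ 2) ^ (k + 1) := by
  have h1 : 0 < 1 + P := by linarith [(abs_lt.mp hP).1]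
  have h2 : 0 < 1 - P := by linarith [(abs_lt.mp hP).2]
  have hc : 0 < 1 - P ^ 2 := by nlinarith
  have hX0 : 0 ≤ 1 / (1 + P) := by positivity
  have hY0 : 0 ≤ 1 / (1 - P) := by positivity
  have hXY : (1 / (1 + P) + 1 / (1 - P)) / 2 = 1 / (1 - P ^ 2) := by
    field_simp
    ring
  have hconv := midpoint_pow_le hX0 hY0 (2 * k + 1)
  rw [hXY] at hconv
  have hD : 0 ≤ (D ^ 2) ^ (k + 1) := by positivity
  have e3 := term_rewrite hc D k
  have e1 := term_rewrite h1 D k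
  have e2 := term_rewrite h2 D k
  have e1' : (1 + P) / 2 * ((D / (1 + P)) ^ 2) ^ (k + 1)
      = (D ^ 2) ^ (k + 1) * (1 / (1 + P)) ^ (2 * k + 1) / 2 := by
    rw [← e1]; ring
  have e2' : (1 - P) / 2 * ((D / (1 - P)) ^ 2) ^ (k + 1)
      = (D ^ 2) ^ (k + 1) * (1 / (1 - P)) ^ (2 * k + 1) / 2 := by
    rw [← e2]; ring
  rw [e1', e2', e3]
  have := mul_le_mul_of_nonneg_left hconv hD
  linarith

/-- The open range. -/
theorem K2_lower_aux {P D : ℝ} (hP : |P| < 1) (hD : |D| < 1 - |P|) :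
    (1 - P ^ 2) * psi2 (D / (1 - P ^ 2)) ≤ K2 P D := by
  have h1 : 0 < 1 + P := by linarith [(abs_lt.mp hP).1]
  have h2 : 0 < 1 - P := by linarith [(abs_lt.mp hP).2]
  have hc : 0 < 1 - P ^ 2 := by nlinarith
  have hP1 : 1 - |P| ≤ 1 + P := by linarith [neg_abs_le P]
  have hP2 : 1 - |P| ≤ 1 - P := by linarith [le_abs_self P]
  have hP3 : 1 - |P| ≤ 1 - P ^ 2 := by
    have h0 := abs_nonneg P
    have : P ^ 2 = |P| ^ 2 := (sq_abs P).symm
    rw [this]
    nlinarith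
  have t1 : |D / (1 + P)| < 1 := by
    rw [abs_div, abs_of_pos h1, div_lt_one h1]
    linarith
  have t2 : |D / (1 - P)| < 1 := by
    rw [abs_div, abs_of_pos h2, div_lt_one h2]
    linarith
  have t3 : |D / (1 - P ^ 2)| < 1 := by
    rw [abs_div, abs_of_pos hc, div_lt_one hc]
    linarith
  rw [K2_eq hP hD.le]
  have s1 := (psi2_hasSum t1).mul_left ((1 + P) / 2)
  have s2 := (psi2_hasSum t2).mul_left ((1 - P) / 2)
  have s3 := (psi2_hasSum t3).mul_left (1 - P ^ 2)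
  refine hasSum_le ?_ s3 (s1.add s2)
  intro k
  have hden : 0 < (2 * (k : ℝ) + 1) * ((k : ℝ) + 1) := by positivity
  have := K2_lower_term hP D k
  rw [← mul_div_assoc, ← mul_div_assoc, ← mul_div_assoc, ← add_div]
  exact div_le_div_of_nonneg_right this hden.le

/-- `K2 P D ≥ c psi2 (D / c)` with `c = 1 - P^2`. -/
theorem K2_lower {P D : ℝ} (hP : |P| < 1) (hD : |D| ≤ 1 - |P|) :
    (1 - P ^ 2) * psi2 (D / (1 - P ^ 2)) ≤ K2 P D := by
  have hpos : 0 < 1 - |P| := by linarith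
  have key : ∀ s ∈ Set.Ioo (-(1 - |P|)) (1 - |P|),
      (1 - P ^ 2) * psi2 (s / (1 - P ^ 2)) ≤ K2 P s := by
    intro s hs
    exact K2_lower_aux hP (abs_lt.mpr ⟨hs.1, hs.2⟩)
  have hcl : D ∈ closure (Set.Ioo (-(1 - |P|)) (1 - |P|)) := by
    rw [closure_Ioo (by linarith)]
    exact ⟨(abs_le.mp hD).1, (abs_le.mp hD).2⟩
  refine le_on_closure key ?_ ?_ hcl
  · exact (continuous_const.mul
      (psi2_continuous.comp (continuous_id.div_const _))).continuousOn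
  · unfold K2
    have c1 : Continuous fun s : ℝ => psi2 (P + s) :=
      psi2_continuous.comp (continuous_const.add continuous_id)
    have c2 : Continuous fun s : ℝ => psi2 (P - s) :=
      psi2_continuous.comp (continuous_const.sub continuous_id)
    exact (((c1.add c2).div_const 2).sub continuous_const).continuousOn

end Vale.Agent.P322
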