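import Vale.Agent.P322.BMOne

/-!
The potential-function induction and its consequence for Boolean functions.
-/

namespace Vale.Agent.P322

open Real

variable {n : ℕ}

/-- Two-sided entropy functional (doubled, in nats): for `G` with values in `[-1,1]`, regarded as
the conditional mean of a sign `B` given `X`, this is `2 I(B;X)`. -/
noncomputable def E2 (G : Cube n → ℝ) : ℝ := mean (fun x => psi2 (G x)) - psi2 (mean G)

theorem E2_zero_dim (F : Cube 0 → ℝ) : E2 F = 0 := by
  unfold E2 mean
  simp

theorem Tn_abs_le {ε : ℝ} (h0 : 0 ≤ ε) (h1 : ε ≤ 1) {G : Cube n → ℝ} (hG : ∀ x, |G x| ≤ 1)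
    (y : Cube n) : |Tn ε G y| ≤ 1 := by
  have hlo : 0 ≤ Tn ε (fun x => 1 + G x) y :=
    Tn_nonneg h0 h1 (fun x => by linarith [(abs_le.mp (hG x)).1]) y
  have hhi : 0 ≤ Tn ε (fun x => 1 + (-1) * G x) y :=
    Tn_nonneg h0 h1 (fun x => by linarith [(abs_le.mp (hG x)).2]) y
  have hone : Tn ε (fun _ : Cube n => (1 : ℝ)) y = 1 := by
    unfold Tn
    simp [wn_total]
  rw [Tn_add] at hlo hhi
  rw [Tn_mul_left] at hhi
  simp only [hone] at hlo hhi
  rw [abs_le]
  constructor <;> linarith

/-- The main inequality: for every `G : {-1,1}^n → [-1,1]`,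
`E2 (T G) ≤ psi2 ρ (1 - (1 - E2 G / psi2 1)^(3/2))` as soon as `psi2 ρ ≤ psi2 1 / 6`. -/
theorem bm {ε : ℝ} (h0 : 0 ≤ ε) (h1 : ε ≤ 1) (hq : psi2 (1 - 2 * ε) ≤ psi2 1 / 6) :
    ∀ (n : ℕ) (G : Cube n → ℝ), (∀ x, |G x| ≤ 1) →
      E2 (Tn ε G) ≤ psi2 (1 - 2 * ε) * (1 - pw (1 - E2 G / psi2 1)) := by
  intro n
  have hr : |1 - 2 * ε| ≤ 1 := by
    rw [abs_le]
    constructor <;> linarith
  have hq0 : 0 ≤ psi2 (1 - 2 * ε) := psi2_nonneg hr
  have hLpos : 0 < psi2 1 := psi2_one_pos
  induction n with
  | zero =>
    intro G _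
    rw [E2_zero_dim, E2_zero_dim]
    simp [pw_one]
  | succ n ih =>
    intro G hG
    set U : Cube n → ℝ := fun x' => G (Fin.cons 1 x') with hU
    set V : Cube n → ℝ := fun x' => G (Fin.cons (-1) x') with hV
    set P : Cube n → ℝ := fun x' => (U x' + V x') / 2 with hP
    set D : Cube n → ℝ := fun x' => (U x' - V x') / 2 with hD
    set r := 1 - 2 * ε with hrdef
    have hU1 : ∀ x, |U x| ≤ 1 := fun x => hG _
    have hV1 : ∀ x, |V x| ≤ 1 := fun x => hG _
    have hPD : ∀ x, |P x| + |D x| ≤ 1 := by
      intro x
      apply abs_add_abs_le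
      · have : P x + D x = U x := by simp only [hP, hD]; ring
        rw [this]; exact hU1 x
      · have : P x - D x = V x := by simp only [hP, hD]; ring
        rw [this]; exact hV1 x
    set Hp : Cube n → ℝ := fun x' => P x' + r * D x' with hHp
    set Hm : Cube n → ℝ := fun x' => P x' - r * D x' with hHm
    have hrD : ∀ x, |r * D x| ≤ |D x| := by
      intro x
      rw [abs_mul]
      calc |r| * |D x| ≤ 1 * |D x| := by gcongr
        _ = |D x| := one_mul _
    have hHp1 : ∀ x, |Hp x| ≤ 1 := fun x =>
      le_trans (abs_add_le _ _) (by linarith [hPD x, hrD x])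
    have hHm1 : ∀ x, |Hm x| ≤ 1 := fun x =>
      le_trans (abs_sub _ _) (by linarith [hPD x, hrD x])
    have sp : (fun x' : Cube n => Tn ε G (Fin.cons 1 x')) = Tn ε Hp := by
      funext y'
      rw [Tn_cons]
      congr 1
      funext x'
      simp only [hHp, hP, hD, hU, hV, hrdef]
      ring
    have sm : (fun x' : Cube n => Tn ε G (Fin.cons (-1) x')) = Tn ε Hm := by
      funext y'
      rw [Tn_cons]
      congr 1
      funext x'
      simp only [hHm, hP, hD, hU, hV, hrdef, neg_neg]
      ring
    have ip := ih Hp hHp1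
    have im := ih Hm hHm1
    -- means
    have mHp : mean Hp = mean P + r * mean D := by
      rw [hHp, mean_add, mean_mul_left]
    have mHm : mean Hm = mean P - r * mean D := by
      rw [hHm, mean_sub, mean_mul_left]
    -- decomposition of the left side
    have hleft : E2 (Tn ε G) = (E2 (Tn ε Hp) + E2 (Tn ε Hm)) / 2 + K2 (mean P) (r * mean D) := by
      unfold E2 K2
      rw [mean_cons (fun x => psi2 (Tn ε G x)), mean_cons (Tn ε G)]
      have e1 : (fun x' : Cube n => psi2 (Tn ε G (Fin.cons 1 x'))) = fun x' => psi2 (Tn ε Hp x') := by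
        funext x'
        rw [← sp]
      have e2 : (fun x' : Cube n => psi2 (Tn ε G (Fin.cons (-1) x')))
          = fun x' => psi2 (Tn ε Hm x') := by
        funext x'
        rw [← sm]
      rw [e1, e2, sp, sm, mean_Tn, mean_Tn, mHp, mHm]
      have e3 : (mean P + r * mean D + (mean P - r * mean D)) / 2 = mean P := by ring
      rw [e3]
      ring
    -- the averaged entropy of the two noisy slices
    have havg : (E2 Hp + E2 Hm) / 2 = mean (fun x => psi2 (P x)) - psi2 (mean P)
        + mean (fun x => K2 (P x) (r * D x)) - K2 (mean P) (r * mean D) := by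
      unfold E2
      rw [mHp, mHm]
      have e : mean (fun x => K2 (P x) (r * D x))
          = (mean (fun x => psi2 (Hp x)) + mean (fun x => psi2 (Hm x))) / 2
            - mean (fun x => psi2 (P x)) := by
        unfold K2
        rw [mean_sub]
        congr 1
        have : (fun x => (psi2 (P x + r * D x) + psi2 (P x - r * D x)) / 2)
            = fun x => (1 / 2) * (psi2 (Hp x) + psi2 (Hm x)) := by
          funext x
          simp only [hHp, hHm]
          ring
        rw [this, mean_mul_left, mean_add]
        ring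
      rw [e]
      unfold K2
      ring
    have hright : E2 G = mean (fun x => psi2 (P x)) - psi2 (mean P)
        + mean (fun x => K2 (P x) (D x)) := by
      unfold E2
      rw [mean_cons (fun x => psi2 (G x)), mean_cons G]
      have e : mean (fun x => K2 (P x) (D x))
          = (mean (fun x => psi2 (U x)) + mean (fun x => psi2 (V x))) / 2
            - mean (fun x => psi2 (P x)) := by
        unfold K2
        rw [mean_sub]
        congr 1
        have : (fun x => (psi2 (P x + D x) + psi2 (P x - D x)) / 2)
            = fun x => (1 / 2) * (psi2 (U x) + psi2 (V x)) := by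
          funext x
          have a1 : P x + D x = U x := by simp only [hP, hD]; ring
          have a2 : P x - D x = V x := by simp only [hP, hD]; ring
          rw [a1, a2]
          ring
        rw [this, mean_mul_left, mean_add]
        ring
      have eP : mean P = (mean U + mean V) / 2 := by
        have : P = fun x => (1 / 2) * (U x + V x) := by
          funext x
          simp only [hP]
          ring
        rw [this, mean_mul_left, mean_add]
        ring
      rw [e, eP]
      ring
    -- nonnegativity of the normalised quantities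
    have hE2le : ∀ H : Cube n → ℝ, (∀ x, |H x| ≤ 1) → 0 ≤ 1 - E2 H / psi2 1 := by
      intro H hH
      have h1 : mean (fun x => psi2 (H x)) ≤ psi2 1 := by
        have := mean_le_mean (fun x => psi2_le_one (hH x))
        rwa [mean_const] at this
      have h2 : 0 ≤ psi2 (mean H) := psi2_nonneg (abs_mean_le hH)
      have : E2 H / psi2 1 ≤ 1 := by
        rw [div_le_one hLpos]
        unfold E2
        linarith
      linarith
    have hmid := pw_mid (hE2le Hp hHp1) (hE2le Hm hHm1)
    have eavg : ((1 - E2 Hp / psi2 1) + (1 - E2 Hm / psi2 1)) / 2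
        = 1 - ((E2 Hp + E2 Hm) / 2) / psi2 1 := by
      ring
    rw [eavg, havg] at hmid
    have hos := one_step hr hq P D hPD
    rw [hleft, hright]
    have hcomb : (E2 (Tn ε Hp) + E2 (Tn ε Hm)) / 2
        ≤ psi2 r * (1 - (pw (1 - E2 Hp / psi2 1) + pw (1 - E2 Hm / psi2 1)) / 2) := by
      linarith
    have hcomb2 : psi2 r * (1 - (pw (1 - E2 Hp / psi2 1) + pw (1 - E2 Hm / psi2 1)) / 2)
        ≤ psi2 r * (1 - pw (1 - (mean (fun x => psi2 (P x)) - psi2 (mean P)
          + mean (fun x => K2 (P x) (r * D x)) - K2 (mean P) (r * mean D)) / psi2 1)) := by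
      apply mul_le_mul_of_nonneg_left _ hq0
      linarith
    linarith

end Vale.Agent.P322
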