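import Vale.Agent.P322.BMLink

/-!
The strong data processing inequality for the two-sided entropy functional `E2`.
-/

namespace Vale.Agent.P322

open Real

variable {n : ℕ}

theorem E2_eq_Ent (G : Cube n → ℝ) (hG : ∀ x, |G x| ≤ 1) :
    Ent (fun x => (1 + G x) / 2) + Ent (fun x => (1 - G x) / 2) = E2 G / 2 := by
  have hm : |mean G| ≤ 1 := abs_mean_le hG
  unfold Ent E2
  have m1 : mean (fun y => (1 + G y) / 2) = (1 + mean G) / 2 := by
    have : (fun y => (1 + G y) / 2) = fun y => (1 / 2 : ℝ) * (1 + G y) := by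
      funext y; ring
    rw [this, mean_mul_left, mean_add, mean_const]
    ring
  have m2 : mean (fun y => (1 - G y) / 2) = (1 - mean G) / 2 := by
    have : (fun y => (1 - G y) / 2) = fun y => (1 / 2 : ℝ) * (1 - G y) := by
      funext y; ring
    rw [this, mean_mul_left, mean_sub, mean_const]
    ring
  rw [m1, m2]
  have s : mean (fun x => ell ((1 + G x) / 2)) + mean (fun x => ell ((1 - G x) / 2))
      = mean (fun x => psi2 (G x)) / 2 - Real.log 2 := by
    rw [← mean_add]
    have : (fun x => ell ((1 + G x) / 2) + ell ((1 - G x) / 2))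
        = fun x => (1 / 2 : ℝ) * psi2 (G x) - Real.log 2 := by
      funext x
      rw [ell_half_pair (hG x)]
      ring
    rw [this, mean_sub, mean_mul_left, mean_const]
    ring
  have s2 := ell_half_pair hm
  linarith

theorem Tn_half_add (ε : ℝ) (G : Cube n → ℝ) :
    Tn ε (fun x => (1 + G x) / 2) = fun y => (1 + Tn ε G y) / 2 := by
  have h : (fun x => (1 + G x) / 2) = fun x => (1 / 2 : ℝ) * (1 + G x) := by
    funext x; ring
  rw [h, Tn_mul_left]
  funext y
  rw [Tn_add]
  simp only [Tn_one]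
  ring

theorem Tn_half_sub (ε : ℝ) (G : Cube n → ℝ) :
    Tn ε (fun x => (1 - G x) / 2) = fun y => (1 - Tn ε G y) / 2 := by
  have h : (fun x => (1 - G x) / 2) = fun x => (1 / 2 : ℝ) * (1 + (-1) * G x) := by
    funext x; ring
  rw [h, Tn_mul_left]
  funext y
  rw [Tn_add, Tn_mul_left]
  simp only [Tn_one]
  ring

/-- Strong data processing for `E2`. -/
theorem E2_sdpi {ε : ℝ} (h0 : 0 ≤ ε) (h1 : ε ≤ 1) (G : Cube n → ℝ) (hG : ∀ x, |G x| ≤ 1) :
    E2 (Tn ε G) ≤ (1 - 2 * ε) ^ 2 * E2 G := by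
  have s1 := sdpi h0 h1 n (fun x => (1 + G x) / 2)
    (fun x => by linarith [(abs_le.mp (hG x)).1])
  have s2 := sdpi h0 h1 n (fun x => (1 - G x) / 2)
    (fun x => by linarith [(abs_le.mp (hG x)).2])
  rw [Tn_half_add] at s1
  rw [Tn_half_sub] at s2
  have e1 := E2_eq_Ent G hG
  have e2 := E2_eq_Ent (Tn ε G) (Tn_abs_le h0 h1 hG)
  nlinarith

end Vale.Agent.P322
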