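import Vale.Agent.P322.BMStep

/-!
The one-step inequality.
-/

namespace Vale.Agent.P322

open Real

variable {n : ℕ}

/-- Cauchy-Schwarz in the form needed. -/
theorem cs_step (P D : Cube n → ℝ) (hPD : ∀ x, |P x| + |D x| ≤ 1)
    (hc : 0 < mean (fun x => 1 - (P x) ^ 2)) :
    (mean D) ^ 2 ≤ mean (fun x => 1 - (P x) ^ 2) * mean (fun x => (D x) ^ 2 / (1 - (P x) ^ 2)) := by
  set cb := mean (fun x => 1 - (P x) ^ 2) with hcb
  set A := mean (fun x => (D x) ^ 2 / (1 - (P x) ^ 2)) with hA
  set d := mean D with hd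
  set t := d / cb with ht
  have hpt : ∀ x, 0 ≤ t ^ 2 * (1 - (P x) ^ 2) + (-2 * t) * D x + (D x) ^ 2 / (1 - (P x) ^ 2) := by
    intro x
    have hcx : |D x| ≤ 1 - (P x) ^ 2 := abs_le_c (hPD x)
    have hc0 : 0 ≤ 1 - (P x) ^ 2 := le_trans (abs_nonneg _) hcx
    rcases hc0.eq_or_lt with h | h
    · have hD : D x = 0 := by
        rw [← h] at hcx
        exact abs_eq_zero.mp (le_antisymm hcx (abs_nonneg _))
      rw [← h, hD]
      simp
    · have e : t ^ 2 * (1 - (P x) ^ 2) + (-2 * t) * D x + (D x) ^ 2 / (1 - (P x) ^ 2)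
          = (t * (1 - (P x) ^ 2) - D x) ^ 2 / (1 - (P x) ^ 2) := by
        field_simp
        ring
      rw [e]
      positivity
  have hm := mean_nonneg hpt
  rw [mean_add, mean_add, mean_mul_left, mean_mul_left] at hm
  rw [← hcb, ← hA, ← hd] at hm
  have e2 : t ^ 2 * cb + -2 * t * d + A = A - d ^ 2 / cb := by
    rw [ht]
    field_simp
    ring
  rw [e2] at hm
  have : d ^ 2 / cb ≤ A := by linarith
  rw [div_le_iff₀ hc] at this
  linarith

/-- `KL ≥ 0` in the present notation. -/
theorem psi2_tangent {t m : ℝ} (ht : |t| ≤ 1) (hm : |m| < 1) :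
    (1 + t) * Real.log (1 + m) + (1 - t) * Real.log (1 - m) ≤ psi2 t := by
  have hm' := abs_lt.mp hm
  have ht' := abs_le.mp ht
  have hx1 : 0 < 1 + m := by linarith
  have hx2 : 0 < 1 - m := by linarith
  have key : ∀ u x : ℝ, 0 ≤ u → 0 < x → u * Real.log x + (u - x) ≤ u * Real.log u := by
    intro u x hu hx
    rcases hu.eq_or_lt with h | h
    · subst h
      simp
      exact hx.le
    · have h1 : Real.log (x / u) ≤ x / u - 1 := Real.log_le_sub_one_of_pos (div_pos hx h)
      rw [Real.log_div hx.ne' h.ne'] at h1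
      have h2 : u * (Real.log x - Real.log u) ≤ u * (x / u - 1) :=
        mul_le_mul_of_nonneg_left h1 h.le
      have h3 : u * (x / u - 1) = x - u := by
        field_simp
      linarith
  have k1 := key (1 + t) (1 + m) (by linarith) hx1
  have k2 := key (1 - t) (1 - m) (by linarith) hx2
  unfold psi2
  linarith

/-- first and second moment facts -/
theorem var_nonneg (P : Cube n → ℝ) : (mean P) ^ 2 ≤ mean (fun x => (P x) ^ 2) := by
  have h : ∀ x, 0 ≤ (mean P) ^ 2 + (-2 * mean P) * P x + 1 * (P x) ^ 2 := by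
    intro x
    nlinarith [sq_nonneg (P x - mean P)]
  have := mean_nonneg h
  rw [mean_quad] at this
  nlinarith

theorem abs_add_abs_le {m d : ℝ} (h1 : |m + d| ≤ 1) (h2 : |m - d| ≤ 1) : |m| + |d| ≤ 1 := by
  have a1 := abs_le.mp h1
  have a2 := abs_le.mp h2
  rcases abs_cases m with ⟨e1, _⟩ | ⟨e1, _⟩ <;> rcases abs_cases d with ⟨e2, _⟩ | ⟨e2, _⟩ <;>
    rw [e1, e2] <;> linarith [a1.1, a1.2, a2.1, a2.2]

/-- entropy of `P` against its variance (both bounds) -/
theorem ent_var (P : Cube n → ℝ) (hP1 : ∀ x, |P x| ≤ 1) (hm : |mean P| < 1) :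
    0 ≤ mean (fun x => psi2 (P x)) - psi2 (mean P) ∧
    mean (fun x => psi2 (P x)) - psi2 (mean P)
      ≤ 2 * (mean (fun x => (P x) ^ 2) - (mean P) ^ 2) / (1 - (mean P) ^ 2) := by
  set m := mean P with hmdef
  have hpsi : psi2 m = (1 + m) * Real.log (1 + m) + (1 - m) * Real.log (1 - m) := rfl
  constructor
  · have h : ∀ x, (Real.log (1 + m) + Real.log (1 - m))
        + (Real.log (1 + m) - Real.log (1 - m)) * P x + 0 * (P x) ^ 2 ≤ psi2 (P x) := by
      intro x
      have := psi2_tangent (hP1 x) hm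
      linarith
    have := mean_le_mean h
    rw [mean_quad, ← hmdef] at this
    rw [hpsi]
    linarith
  · set g := 2 / (1 - m ^ 2) with hg
    have h : ∀ x, psi2 (P x) ≤ (Real.log (1 + m) + Real.log (1 - m) + g * m ^ 2)
        + (Real.log (1 + m) - Real.log (1 - m) - 2 * g * m) * P x + g * (P x) ^ 2 := by
      intro x
      have := psi2_chi2 (hP1 x) hm
      have e : 2 * (P x - m) ^ 2 / (1 - m ^ 2) = g * (P x - m) ^ 2 := by
        rw [hg]
        ring
      rw [e] at this
      nlinarith
    have := mean_le_mean h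
    rw [mean_quad, ← hmdef] at this
    have e : 2 * (mean (fun x => (P x) ^ 2) - m ^ 2) / (1 - m ^ 2)
        = g * (mean (fun x => (P x) ^ 2) - m ^ 2) := by
      rw [hg]
      ring
    rw [e, hpsi]
    nlinarith

/-- Upper bound for the potential of the un-noised function. -/
theorem pw_bound (P D : Cube n → ℝ) (hPD : ∀ x, |P x| + |D x| ≤ 1) {uw u1 : ℝ}
    (hcb : mean (fun x => 1 - (P x) ^ 2) ≤ uw) (hu1 : 0 ≤ u1)
    (h : u1 ≤ uw - mean (fun x => K2 (P x) (D x)) / psi2 1) :
    pw u1 ≤ Real.sqrt uw * (uw - mean (fun x => (D x) ^ 2 / (1 - (P x) ^ 2))) := by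
  set L := psi2 1 with hL
  have hLpos : 0 < L := psi2_one_pos
  set c : Cube n → ℝ := fun x => 1 - (P x) ^ 2 with hc
  set s : Cube n → ℝ := fun x => D x / c x with hs
  set a : Cube n → ℝ := fun x => 1 - psi2 (s x) / L with ha
  have hDc : ∀ x, |D x| ≤ c x := fun x => abs_le_c (hPD x)
  have hc0 : ∀ x, 0 ≤ c x := fun x => le_trans (abs_nonneg _) (hDc x)
  have hs1 : ∀ x, |s x| ≤ 1 := by
    intro x
    simp only [hs]
    rw [abs_div, abs_of_nonneg (hc0 x)]
    exact div_le_one_of_le₀ (hDc x) (hc0 x)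
  have ha0 : ∀ x, 0 ≤ a x := by
    intro x
    simp only [ha]
    have := psi2_le_one (hs1 x)
    have h2 : psi2 (s x) / L ≤ 1 := (div_le_one hLpos).mpr this
    linarith
  have hs2 : ∀ x, 0 ≤ 1 - (s x) ^ 2 := by
    intro x
    have := pow_le_one₀ (abs_nonneg (s x)) (hs1 x) (n := 2)
    rw [sq_abs] at this
    linarith
  have hpa : ∀ x, pw (a x) ≤ 1 - (s x) ^ 2 :=
    fun x => pw_le_of_cube_le_sq (ha0 x) (hs2 x) (ent_pow (hs1 x))
  have hcs : ∀ x, c x * (s x) ^ 2 = (D x) ^ 2 / c x := by
    intro x
    simp only [hs]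
    rcases (hc0 x).eq_or_lt with h0 | h0
    · rw [← h0]
      simp
    · field_simp
  set cb := mean c with hcbdef
  set A := mean (fun x => (D x) ^ 2 / c x) with hA
  set μ := uw - cb with hμ
  have hμ0 : 0 ≤ μ := by linarith
  -- lower bound for tau
  have hτ : L * (cb - mean (fun x => c x * a x)) ≤ mean (fun x => K2 (P x) (D x)) := by
    have hpt : ∀ x, L * (c x - c x * a x) ≤ K2 (P x) (D x) := by
      intro x
      have h1 := K2_lower' (hPD x)
      have e : L * (c x - c x * a x) = c x * psi2 (s x) := by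
        simp only [ha]
        field_simp
        ring
      rw [e]
      exact h1
    have := mean_le_mean hpt
    rw [mean_mul_left, mean_sub] at this
    exact this
  have hu1' : u1 ≤ μ + mean (fun x => c x * a x) := by
    have : cb - mean (fun x => c x * a x) ≤ mean (fun x => K2 (P x) (D x)) / L := by
      rw [le_div_iff₀ hLpos]
      linarith
    linarith
  have hj := pw_jensen c a hc0 ha0 hμ0
  have hsum : μ + mean c = uw := by
    rw [hμ]
    ring
  rw [hsum] at hj
  have hcp : mean (fun x => c x * pw (a x)) ≤ cb - A := by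
    have hpt : ∀ x, c x * pw (a x) ≤ c x - (D x) ^ 2 / c x := by
      intro x
      have := mul_le_mul_of_nonneg_left (hpa x) (hc0 x)
      rw [← hcs x]
      linarith
    have := mean_le_mean hpt
    rw [mean_sub] at this
    exact this
  calc pw u1 ≤ pw (μ + mean (fun x => c x * a x)) := pw_mono hu1 hu1'
    _ ≤ Real.sqrt uw * (μ + mean (fun x => c x * pw (a x))) := hj
    _ ≤ Real.sqrt uw * (uw - A) := by
      apply mul_le_mul_of_nonneg_left _ (Real.sqrt_nonneg uw)
      linarith

/-- The one-step inequality of the induction. -/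
theorem one_step {r : ℝ} (hr : |r| ≤ 1) (hq : psi2 r ≤ psi2 1 / 6)
    (P D : Cube n → ℝ) (hPD : ∀ x, |P x| + |D x| ≤ 1) :
    K2 (mean P) (r * mean D)
      + psi2 r * (1 - pw (1 - (mean (fun x => psi2 (P x)) - psi2 (mean P)
          + mean (fun x => K2 (P x) (r * D x)) - K2 (mean P) (r * mean D)) / psi2 1))
    ≤ psi2 r * (1 - pw (1 - (mean (fun x => psi2 (P x)) - psi2 (mean P)
          + mean (fun x => K2 (P x) (D x))) / psi2 1)) := by
  set L := psi2 1 with hL
  have hLpos : 0 < L := psi2_one_pos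
  set q := psi2 r with hqd
  have hq0 : 0 ≤ q := psi2_nonneg hr
  set m := mean P with hm
  set d := mean D with hd
  set cb := mean (fun x => 1 - (P x) ^ 2) with hcb
  set A := mean (fun x => (D x) ^ 2 / (1 - (P x) ^ 2)) with hA
  set w := mean (fun x => psi2 (P x)) - psi2 m with hw
  set y := mean (fun x => K2 (P x) (r * D x)) with hy
  set τ := mean (fun x => K2 (P x) (D x)) with hτ
  set k := K2 m (r * d) with hk
  have hP1 : ∀ x, |P x| ≤ 1 := fun x => by linarith [hPD x, abs_nonneg (D x)]
  have hDc : ∀ x, |D x| ≤ 1 - (P x) ^ 2 := fun x => abs_le_c (hPD x)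
  have hc0 : ∀ x, 0 ≤ 1 - (P x) ^ 2 := fun x => le_trans (abs_nonneg _) (hDc x)
  have hcb0 : 0 ≤ cb := mean_nonneg hc0
  have hm1 : |m| ≤ 1 := abs_mean_le hP1
  have hrD : ∀ x, |r * D x| ≤ |D x| := by
    intro x
    rw [abs_mul]
    calc |r| * |D x| ≤ 1 * |D x| := by gcongr
      _ = |D x| := one_mul _
  have hmd : |m| + |d| ≤ 1 := by
    apply abs_add_abs_le
    · rw [hm, hd, ← mean_add]
      exact abs_mean_le (fun x => le_trans (abs_add_le _ _) (hPD x))
    · rw [hm, hd, ← mean_sub]
      exact abs_mean_le (fun x => le_trans (abs_sub _ _) (hPD x))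
  have hrd : |r * d| ≤ |d| := by
    rw [abs_mul]
    calc |r| * |d| ≤ 1 * |d| := by gcongr
      _ = |d| := one_mul _
  -- the two normalised quantities are nonnegative
  have hwτ : w + τ ≤ L := by
    have hpt : ∀ x, psi2 (P x) + K2 (P x) (D x) ≤ L := by
      intro x
      have h1 : |P x + D x| ≤ 1 := le_trans (abs_add_le _ _) (hPD x)
      have h2 : |P x - D x| ≤ 1 := le_trans (abs_sub _ _) (hPD x)
      have := psi2_le_one h1
      have := psi2_le_one h2
      unfold K2
      linarith
    have := mean_le_mean hpt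
    rw [mean_add, mean_const] at this
    have h0 := psi2_nonneg hm1
    linarith
  have hwy : w + y - k ≤ L := by
    have hpt : ∀ x, psi2 (P x) + K2 (P x) (r * D x) ≤ L := by
      intro x
      have h1 : |P x + r * D x| ≤ 1 :=
        le_trans (abs_add_le _ _) (by linarith [hPD x, hrD x])
      have h2 : |P x - r * D x| ≤ 1 :=
        le_trans (abs_sub _ _) (by linarith [hPD x, hrD x])
      have := psi2_le_one h1
      have := psi2_le_one h2
      unfold K2
      linarith
    have := mean_le_mean hpt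
    rw [mean_add, mean_const] at this
    have h1 : |m + r * d| ≤ 1 := le_trans (abs_add_le _ _) (by linarith)
    have h2 : |m - r * d| ≤ 1 := le_trans (abs_sub _ _) (by linarith)
    have e : psi2 m + k = (psi2 (m + r * d) + psi2 (m - r * d)) / 2 := by
      rw [hk]
      unfold K2
      ring
    have := psi2_nonneg h1
    have := psi2_nonneg h2
    linarith
  have hu1 : 0 ≤ 1 - (w + τ) / L := by
    have : (w + τ) / L ≤ 1 := (div_le_one hLpos).mpr hwτ
    linarith
  have hur : 0 ≤ 1 - (w + y - k) / L := by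
    have : (w + y - k) / L ≤ 1 := (div_le_one hLpos).mpr hwy
    linarith
  rcases hcb0.eq_or_lt with hz | hpos
  · -- degenerate case: P = ±1 everywhere, D = 0
    have hcx : ∀ x, 1 - (P x) ^ 2 = 0 := fun x => mean_eq_zero_imp hc0 hz.symm x
    have hDx : ∀ x, D x = 0 := by
      intro x
      have := hDc x
      rw [hcx x] at this
      exact abs_eq_zero.mp (le_antisymm this (abs_nonneg _))
    have hD0 : D = fun _ => 0 := funext hDx
    have hd0 : d = 0 := by
      rw [hd, hD0, mean_const]
    have hk0 : k = 0 := by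
      rw [hk, hd0]
      simp [K2_zero]
    have hy0 : y = 0 := by
      rw [hy, hD0]
      simp [K2_zero, mean_const]
    have hτ0 : τ = 0 := by
      rw [hτ, hD0]
      simp [K2_zero, mean_const]
    rw [hk0, hy0, hτ0]
    simp
  · set q2 := mean (fun x => (P x) ^ 2) with hq2
    have hcbq : cb = 1 - q2 := by
      rw [hcb, mean_sub, mean_const]
    have hvar : m ^ 2 ≤ q2 := var_nonneg P
    have hm2 : m ^ 2 < 1 := by linarith
    have hmlt : |m| < 1 := by
      have := (sq_lt_one_iff_abs_lt_one m).mp hm2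
      exact this
    have hcm : 0 < 1 - m ^ 2 := by linarith
    obtain ⟨hw0, hwchi⟩ := ent_var P hP1 hmlt
    rw [← hm, ← hq2, ← hw] at hwchi
    rw [← hm, ← hw] at hw0
    set θ := cb / (1 - m ^ 2) with hθ
    have hθ0 : 0 ≤ θ := div_nonneg hcb0 hcm.le
    have hθ1 : θ ≤ 1 := by
      rw [hθ, div_le_one hcm]
      linarith
    have hν : (q2 - m ^ 2) / (1 - m ^ 2) = 1 - θ := by
      rw [hθ, hcbq]
      field_simp
      ring
    have hA0 : 0 ≤ A := mean_nonneg (fun x => div_nonneg (sq_nonneg _) (hc0 x))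
    set uw := 1 - w / L with huw
    have huw1 : uw ≤ 1 := by
      have : 0 ≤ w / L := div_nonneg hw0 hLpos.le
      linarith
    -- w ≤ L (1 - cb) - psi2 m
    have hwle : w ≤ L * (1 - cb) - psi2 m := by
      have hpt : ∀ x, psi2 (P x) ≤ L * (P x) ^ 2 := by
        intro x
        have := psi2_le_sq (hP1 x)
        linarith
      have := mean_le_mean hpt
      rw [mean_mul_left, ← hq2] at this
      rw [hcbq]
      linarith
    have huwge : cb + psi2 m / L ≤ uw := by
      have : w / L ≤ (1 - cb) - psi2 m / L := by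
        rw [div_le_iff₀ hLpos]
        have e : ((1 - cb) - psi2 m / L) * L = L * (1 - cb) - psi2 m := by
          field_simp
        rw [e]
        exact hwle
      linarith
    have hpm0 : 0 ≤ psi2 m / L := div_nonneg (psi2_nonneg hm1) hLpos.le
    have huw0 : 0 ≤ uw := by linarith
    have hL2 : L = 2 * Real.log 2 := psi2_one
    have hlogpos : 0 < Real.log 2 := by linarith
    -- the variance-entropy comparison
    have hfc : 1 - (1 - θ) ≤ Real.sqrt uw * (1 - (1 - θ) / 4) := by
      apply fc_step (z := m ^ 2) (by linarith) (by linarith) (sq_nonneg m) hm2.le huw0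
      · -- chi-square bound
        have : w / L ≤ (1 - θ) / Real.log 2 := by
          rw [div_le_div_iff₀ hLpos hlogpos, hL2]
          have e : 2 * (q2 - m ^ 2) / (1 - m ^ 2) = 2 * (1 - θ) := by
            rw [← hν]
            ring
          rw [e] at hwchi
          nlinarith
        linarith
      · have h1 : m ^ 2 / (2 * Real.log 2) ≤ psi2 m / L := by
          rw [← hL2]
          exact div_le_div_of_nonneg_right (sq_le_psi2 hm1) hLpos.le
        have h2 : (1 - m ^ 2) * (1 - (1 - θ)) = cb := by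
          rw [hθ]
          field_simp
          ring
        rw [h2]
        linarith
    have hfc' : θ ≤ Real.sqrt uw * (1 - (1 - θ) / 4) := by linarith
    -- potential of the un-noised function
    have h1 : pw (1 - (w + τ) / L) ≤ Real.sqrt uw * (uw - A) := by
      apply pw_bound P D hPD (by linarith) hu1
      have e : 1 - (w + τ) / L = uw - τ / L := by
        rw [huw]
        ring
      rw [e]
    -- noise bound
    have hyle : y ≤ q * A := by
      have := mean_le_mean (fun x => K2_noise_le' (hPD x) hr)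
      rw [mean_mul_left] at this
      exact this
    have h2 : uw - (q * A - k) / L ≤ 1 - (w + y - k) / L := by
      have e : 1 - (w + y - k) / L = uw - (y - k) / L := by
        rw [huw]
        ring
      rw [e]
      have : (y - k) / L ≤ (q * A - k) / L :=
        div_le_div_of_nonneg_right (by linarith) hLpos.le
      linarith
    have h3 : k ≤ q * (θ * A) := by
      have hk1 : k ≤ q * (d ^ 2 / (1 - m ^ 2)) := K2_noise_le hmlt (by linarith) hr
      have hcs : d ^ 2 ≤ cb * A := cs_step P D hPD hpos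
      have : d ^ 2 / (1 - m ^ 2) ≤ θ * A := by
        rw [div_le_iff₀ hcm, hθ]
        have e : cb / (1 - m ^ 2) * A * (1 - m ^ 2) = cb * A := by
          field_simp
        rw [e]
        exact hcs
      calc k ≤ q * (d ^ 2 / (1 - m ^ 2)) := hk1
        _ ≤ q * (θ * A) := mul_le_mul_of_nonneg_left this hq0
    exact scalar_step hq0 hLpos hq huw0 huw1 hur hA0 hθ0 hθ1 h1 h2 h3 hfc'

end Vale.Agent.P322
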