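import Vale.Agent.P322.BMScalar

/-!
Scalar inequalities for the hybrid induction step (power potential together with the strong data
processing bound).
-/

namespace Vale.Agent.P322

open Real

/-- The comparison of `scalar_step` with a general ratio `q / L`. -/
theorem scalar_step' {q L uw u1 ur A k θ : ℝ} (hq0 : 0 ≤ q) (hL : 0 < L) (hqL : q ≤ 2 / 3 * L)
    (huw0 : 0 ≤ uw) (huw1 : uw ≤ 1) (hur : 0 ≤ ur) (hA : 0 ≤ A)
    (h1 : pw u1 ≤ Real.sqrt uw * (uw - A))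
    (h2 : uw - (q * A - k) / L ≤ ur)
    (h3 : k ≤ q * (θ * A))
    (h4 : θ ≤ Real.sqrt uw * (1 - 3 / 2 * (q / L) * (1 - θ))) :
    k + q * (1 - pw ur) ≤ q * (1 - pw u1) := by
  set v := Real.sqrt uw with hv
  have hv0 : 0 ≤ v := Real.sqrt_nonneg uw
  have hv1 : v ≤ 1 := by
    rw [hv]
    exact Real.sqrt_le_one.mpr huw1 |> fun h => h
  have ht := pw_tangent hur huw0
  have hpwuw : pw uw = uw * v := rfl
  rw [hpwuw] at ht
  set l := q / L with hl
  have hl0 : 0 ≤ l := div_nonneg hq0 hL.le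
  have hl1 : l ≤ 2 / 3 := by
    rw [hl, div_le_iff₀ hL]
    linarith
  have hql : q = l * L := by
    rw [hl]
    field_simp
  have hdiff : -(q * A - k) / L ≤ ur - uw := by
    have : -(q * A - k) / L = -((q * A - k) / L) := by ring
    rw [this]
    linarith
  have ht2 : uw * v + 3 / 2 * v * (-(q * A - k) / L) ≤ pw ur := by
    have : 3 / 2 * v * (-(q * A - k) / L) ≤ 3 / 2 * v * (ur - uw) :=
      mul_le_mul_of_nonneg_left hdiff (by positivity)
    linarith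
  have e1 : -(q * A - k) / L = -(l * A) + k / L := by
    rw [hl]
    field_simp
    ring
  rw [e1] at ht2
  have hgoal : k ≤ q * (pw ur - pw u1) := by
    have hlow : v * A - 3 / 2 * v * (l * A) + 3 / 2 * v * (k / L) ≤ pw ur - pw u1 := by
      nlinarith
    have hq1 : q * (v * A - 3 / 2 * v * (l * A) + 3 / 2 * v * (k / L)) ≤ q * (pw ur - pw u1) :=
      mul_le_mul_of_nonneg_left hlow hq0
    have e2 : q * (k / L) = l * k := by
      rw [hl]
      field_simp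
    have e3 : q * (v * A - 3 / 2 * v * (l * A) + 3 / 2 * v * (k / L))
        = q * A * v * (1 - 3 / 2 * l) + 3 / 2 * v * (l * k) := by
      rw [← e2]
      ring
    rw [e3] at hq1
    have hfac : 0 ≤ 1 - 3 / 2 * l * v := by nlinarith
    have s1 : k * (1 - 3 / 2 * l * v) ≤ q * (θ * A) * (1 - 3 / 2 * l * v) :=
      mul_le_mul_of_nonneg_right h3 hfac
    have s2 : θ * (1 - 3 / 2 * l * v) ≤ v * (1 - 3 / 2 * l) := by
      nlinarith
    have s3 : q * A * (θ * (1 - 3 / 2 * l * v)) ≤ q * A * (v * (1 - 3 / 2 * l)) :=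
      mul_le_mul_of_nonneg_left s2 (mul_nonneg hq0 hA)
    nlinarith
  linarith

/-- region of large entropy of the even part -/
theorem hyb_R1 {a l θ : ℝ} (ha0 : 0 ≤ a) (ha2 : a ≤ 0.8486) (hl0 : 0 ≤ l) (hl1 : l ≤ 36 / 100)
    (hθ : θ ≤ a * a) : θ ≤ a * (1 - 3 / 2 * l * (1 - θ)) := by
  have hla : l * a ≤ 36 / 100 * 0.8486 := mul_le_mul hl1 ha2 ha0 (by norm_num)
  have hfac : 0 ≤ 1 - 3 / 2 * l * a := by nlinarith
  have s1 : θ * (1 - 3 / 2 * l * a) ≤ (a * a) * (1 - 3 / 2 * l * a) :=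
    mul_le_mul_of_nonneg_right hθ hfac
  have h8 : 0 ≤ 1 - 3 / 2 * l * (1 + a) := by nlinarith
  have h9 : 0 ≤ a * (1 - a) * (1 - 3 / 2 * l * (1 + a)) :=
    mul_nonneg (mul_nonneg ha0 (by linarith)) h8
  nlinarith

/-- a cubic inequality used in the region of small entropy -/
theorem hyb_poly {t : ℝ} (h0 : 0 ≤ t) (h1 : t ≤ 4 / 9) :
    (1.386295 : ℝ) ≤ (1 + t / 6 + t ^ 2 / 15) * (1 + 0.499 * (1 - t)) := by
  nlinarith [mul_nonneg h0 (sub_nonneg.mpr h1), mul_nonneg h0 h0,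
    mul_nonneg (mul_nonneg h0 h0) (sub_nonneg.mpr h1)]

theorem hyb_R2b {q L r2 uw : ℝ} (hLlo : (1.3862 : ℝ) < L) (hLhi : L < (1.386295 : ℝ))
    (hq0 : 0 ≤ q) (hr0 : 0 ≤ r2) (hr1 : r2 ≤ 4 / 9) (hqr : r2 + r2 ^ 2 / 6 + r2 ^ 3 / 15 ≤ q)
    (hc : 72 / 100 < uw) : r2 * L ≤ q * (1 + L / 2 * uw * (1 - r2)) := by
  have hb0 : 0 ≤ 1 - r2 := by linarith
  have c1 : (0.499 : ℝ) ≤ L / 2 * uw := by nlinarith
  have c2 : 1 + 0.499 * (1 - r2) ≤ 1 + L / 2 * uw * (1 - r2) := by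
    have := mul_le_mul_of_nonneg_right c1 hb0
    linarith
  have c3 : q * (1 + 0.499 * (1 - r2)) ≤ q * (1 + L / 2 * uw * (1 - r2)) :=
    mul_le_mul_of_nonneg_left c2 hq0
  have c4 : (r2 + r2 ^ 2 / 6 + r2 ^ 3 / 15) * (1 + 0.499 * (1 - r2))
      ≤ q * (1 + 0.499 * (1 - r2)) :=
    mul_le_mul_of_nonneg_right hqr (by nlinarith)
  have c5 : r2 * 1.386295 ≤ (r2 + r2 ^ 2 / 6 + r2 ^ 3 / 15) * (1 + 0.499 * (1 - r2)) := by
    have := mul_le_mul_of_nonneg_left (hyb_poly hr0 hr1) hr0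
    have e : r2 * ((1 + r2 / 6 + r2 ^ 2 / 15) * (1 + 0.499 * (1 - r2)))
        = (r2 + r2 ^ 2 / 6 + r2 ^ 3 / 15) * (1 + 0.499 * (1 - r2)) := by ring
    linarith
  have c7 : r2 * L ≤ r2 * 1.386295 := mul_le_mul_of_nonneg_left hLhi.le hr0
  linarith

theorem hyb_R2a {q L r2 a : ℝ} (hLhi : L < (1.386295 : ℝ))
    (hr0 : 0 ≤ r2) (hqr : r2 + r2 ^ 2 / 6 + r2 ^ 3 / 15 ≤ q)
    (ha3 : 0.8485 ≤ a) : r2 * L * (1 + a) ≤ q * (1 + a + a * a) := by
  have p3 : r2 * (1 + a + a * a) ≤ q * (1 + a + a * a) := by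
    apply mul_le_mul_of_nonneg_right _ (by nlinarith)
    have : 0 ≤ r2 ^ 2 / 6 + r2 ^ 3 / 15 := by positivity
    linarith
  have p4 : L * (1 + a) ≤ 1 + a + a * a := by nlinarith
  have p5 : r2 * (L * (1 + a)) ≤ r2 * (1 + a + a * a) := mul_le_mul_of_nonneg_left p4 hr0
  linarith

/-- main inequality in the region of small entropy of the even part -/
theorem hyb_R2 {q L r2 uw a A θ : ℝ} (hLlo : (1.3862 : ℝ) < L) (hLhi : L < (1.386295 : ℝ))
    (hq0 : 0 ≤ q) (hr0 : 0 ≤ r2) (hr1 : r2 ≤ 4 / 9) (hqr : r2 + r2 ^ 2 / 6 + r2 ^ 3 / 15 ≤ q)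
    (hc : 72 / 100 < uw) (huw1 : uw ≤ 1) (ha0 : 0 ≤ a) (haa : a * a = uw)
    (hA0 : 0 ≤ A) (hAuw : A ≤ uw) (hchi : L / 2 * (1 - uw) ≤ 1 - θ) :
    0 ≤ q * (1 - a * uw) - r2 * (L * (1 - uw)) + q * A * (a - θ * (1 - r2) - r2) := by
  have hb0 : 0 ≤ 1 - r2 := by linarith
  have huw0 : 0 ≤ uw := by linarith
  have ha1 : a ≤ 1 := by nlinarith
  have ha3 : 0.8485 ≤ a := by
    by_contra hcon
    have : a < 0.8485 := not_le.mp hcon
    nlinarith
  by_cases hs : 0 ≤ a - θ * (1 - r2) - r2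
  · have p1 : 0 ≤ q * A * (a - θ * (1 - r2) - r2) := mul_nonneg (mul_nonneg hq0 hA0) hs
    have p2 := hyb_R2a hLhi hr0 hqr ha3
    have p6 : 0 ≤ (1 - a) * (q * (1 + a + a * a) - r2 * L * (1 + a)) :=
      mul_nonneg (by linarith) (by linarith)
    have e : q * (1 - a * uw) - r2 * (L * (1 - uw))
        = (1 - a) * (q * (1 + a + a * a) - r2 * L * (1 + a)) := by
      rw [← haa]
      ring
    linarith
  · have hs' : a - θ * (1 - r2) - r2 < 0 := not_le.mp hs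
    have p1 : q * uw * (a - θ * (1 - r2) - r2) ≤ q * A * (a - θ * (1 - r2) - r2) := by
      have h5 : q * A ≤ q * uw := mul_le_mul_of_nonneg_left hAuw hq0
      have := mul_le_mul_of_nonpos_right h5 hs'.le
      linarith
    have p3 : a - 1 + L / 2 * (1 - uw) * (1 - r2) ≤ a - θ * (1 - r2) - r2 := by
      have := mul_le_mul_of_nonneg_right hchi hb0
      linarith
    have p4 : q * uw * (a - 1 + L / 2 * (1 - uw) * (1 - r2))
        ≤ q * uw * (a - θ * (1 - r2) - r2) :=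
      mul_le_mul_of_nonneg_left p3 (mul_nonneg hq0 huw0)
    have p5 := hyb_R2b hLlo hLhi hq0 hr0 hr1 hqr hc
    have p6 : 0 ≤ (1 - uw) * (q * (1 + L / 2 * uw * (1 - r2)) - r2 * L) :=
      mul_nonneg (by linarith) (by linarith)
    have e : q * (1 - a * uw) - r2 * (L * (1 - uw))
          + q * uw * (a - 1 + L / 2 * (1 - uw) * (1 - r2))
        = (1 - uw) * (q * (1 + L / 2 * uw * (1 - r2)) - r2 * L) := by
      ring
    linarith

/-- The hybrid scalar step: either the power potential closes by itself, or the strong data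
processing bound for the two slices suffices. -/
theorem hyb_scalar {q L r2 w y uw u1 ur A k θ m2 cb : ℝ}
    (hL : L = 2 * Real.log 2) (hq0 : 0 ≤ q) (hqL : q ≤ 36 / 100 * L)
    (hr0 : 0 ≤ r2) (hr1 : r2 ≤ 4 / 9) (hqr : r2 + r2 ^ 2 / 6 + r2 ^ 3 / 15 ≤ q)
    (hw0 : 0 ≤ w) (huw : uw = 1 - w / L) (huw0 : 0 ≤ uw) (hur : 0 ≤ ur)
    (hA0 : 0 ≤ A) (hAcb : A ≤ cb)
    (hm0 : 0 ≤ m2) (hm1 : m2 < 1) (hcb : cb = θ * (1 - m2))
    (huwge : cb + m2 / L ≤ uw) (hchi : w ≤ 2 * (1 - θ))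
    (h1 : pw u1 ≤ Real.sqrt uw * (uw - A))
    (h2 : uw - (q * A - k) / L ≤ ur)
    (h3 : k ≤ q * (θ * A)) (hy : y ≤ q * A) :
    k + q * (1 - pw ur) ≤ q * (1 - pw u1) ∨ k + r2 * (w + y - k) ≤ q * (1 - pw u1) := by
  have hlog1 : (0.6931471803 : ℝ) < Real.log 2 := Real.log_two_gt_d9
  have hlog2 : Real.log 2 < (0.6931471808 : ℝ) := Real.log_two_lt_d9
  have hLlo : (1.3862 : ℝ) < L := by rw [hL]; linarith
  have hLhi : L < (1.386295 : ℝ) := by rw [hL]; linarith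
  have hLpos : 0 < L := by linarith
  have huw1 : uw ≤ 1 := by
    have : 0 ≤ w / L := div_nonneg hw0 hLpos.le
    linarith
  set a := Real.sqrt uw with ha
  have ha0 : 0 ≤ a := Real.sqrt_nonneg uw
  have haa : a * a = uw := Real.mul_self_sqrt huw0
  have hwL : w = L * (1 - uw) := by
    rw [huw]
    field_simp
    ring
  by_cases hc : uw ≤ 72 / 100
  · left
    have hinv : (0.72 : ℝ) ≤ 1 / L := by
      rw [le_div_iff₀ hLpos]
      linarith
    have hmL : 0.72 * m2 ≤ m2 / L := by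
      have e : m2 / L = (1 / L) * m2 := by ring
      rw [e]
      exact mul_le_mul_of_nonneg_right hinv hm0
    have hθuw : θ ≤ uw := by
      have h5 : θ * (1 - m2) + 0.72 * m2 ≤ uw := by
        rw [← hcb]
        linarith
      have h7 : 0 < 1 - m2 := by linarith
      have h6 : θ * (1 - m2) ≤ uw * (1 - m2) := by
        have : uw * m2 ≤ 0.72 * m2 := mul_le_mul_of_nonneg_right (by linarith) hm0
        linarith
      exact le_of_mul_le_mul_right h6 h7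
    have ha2 : a ≤ 0.8486 := by
      by_contra hcon
      have : 0.8486 < a := not_le.mp hcon
      nlinarith
    have hl0 : 0 ≤ q / L := div_nonneg hq0 hLpos.le
    have hl1 : q / L ≤ 36 / 100 := by
      rw [div_le_iff₀ hLpos]
      linarith
    apply scalar_step' hq0 hLpos (by linarith) huw0 huw1 hur hA0 h1 h2 h3
    rw [← ha]
    exact hyb_R1 ha0 ha2 hl0 hl1 (by rw [haa]; exact hθuw)
  · right
    have hc' : 72 / 100 < uw := not_le.mp hc
    have hb0 : 0 ≤ 1 - r2 := by linarith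
    have t1 : k * (1 - r2) ≤ q * (θ * A) * (1 - r2) := mul_le_mul_of_nonneg_right h3 hb0
    have t2 : r2 * y ≤ r2 * (q * A) := mul_le_mul_of_nonneg_left hy hr0
    have t3 : q * pw u1 ≤ q * (a * (uw - A)) := mul_le_mul_of_nonneg_left h1 hq0
    have hAuw : A ≤ uw := by
      have : 0 ≤ m2 / L := div_nonneg hm0 hLpos.le
      linarith
    have hchi' : L / 2 * (1 - uw) ≤ 1 - θ := by
      rw [hwL] at hchi
      linarith
    have hmain := hyb_R2 hLlo hLhi hq0 hr0 hr1 hqr hc' huw1 ha0 haa hA0 hAuw hchi'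
    rw [← hwL] at hmain
    have e1 : k + r2 * (w + y - k) = k * (1 - r2) + r2 * w + r2 * y := by ring
    have e2 : q * (θ * A) * (1 - r2) + r2 * w + r2 * (q * A) + q * (a * (uw - A))
        = q - (q * (1 - a * uw) - r2 * w + q * A * (a - θ * (1 - r2) - r2)) := by ring
    rw [e1]
    linarith

end Vale.Agent.P322
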