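import Vale.Agent.P322.BMOne
import Vale.Agent.P322.BMScalar2

/-!
The one-step inequality of the hybrid induction.
-/

namespace Vale.Agent.P322

open Real

variable {n : ℕ}

/-- The one-step inequality of the hybrid induction: either the power potential closes, or the
strong data processing bound for the slices does. -/
theorem one_step2 {r : ℝ} (hr : |r| ≤ 1) (hr2 : r ^ 2 ≤ 4 / 9) (hq : psi2 r ≤ 36 / 100 * psi2 1)
    (P D : Cube n → ℝ) (hPD : ∀ x, |P x| + |D x| ≤ 1) :
    (K2 (mean P) (r * mean D)
      + psi2 r * (1 - pw (1 - (mean (fun x => psi2 (P x)) - psi2 (mean P)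
          + mean (fun x => K2 (P x) (r * D x)) - K2 (mean P) (r * mean D)) / psi2 1))
    ≤ psi2 r * (1 - pw (1 - (mean (fun x => psi2 (P x)) - psi2 (mean P)
          + mean (fun x => K2 (P x) (D x))) / psi2 1))) ∨
    (K2 (mean P) (r * mean D)
      + r ^ 2 * (mean (fun x => psi2 (P x)) - psi2 (mean P)
          + mean (fun x => K2 (P x) (r * D x)) - K2 (mean P) (r * mean D))
    ≤ psi2 r * (1 - pw (1 - (mean (fun x => psi2 (P x)) - psi2 (mean P)
          + mean (fun x => K2 (P x) (D x))) / psi2 1))) := by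
  set L := psi2 1 with hL
  have hLpos : 0 < L := psi2_one_pos
  set q := psi2 r with hqd
  have hq0 : 0 ≤ q := psi2_nonneg hr
  set m := mean P with hm
  set d := mean D with hd
  set cb := mean (fun x => 1 - (P x) ^ 2) with hcb
  set A := mean (fun x => (D x) ^ 2 / (1 - (P x) ^ 2)) with hA
  set w := mean (fun x => psi2 (P x)) - psi2 m with hw
  set y := mean (fun x => K2 (P x) (r * D x)) with hy
  set τ := mean (fun x => K2 (P x) (D x)) with hτ
  set k := K2 m (r * d) with hk
  have hP1 : ∀ x, |P x| ≤ 1 := fun x => by linarith [hPD x, abs_nonneg (D x)]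
  have hDc : ∀ x, |D x| ≤ 1 - (P x) ^ 2 := fun x => abs_le_c (hPD x)
  have hc0 : ∀ x, 0 ≤ 1 - (P x) ^ 2 := fun x => le_trans (abs_nonneg _) (hDc x)
  have hcb0 : 0 ≤ cb := mean_nonneg hc0
  have hm1 : |m| ≤ 1 := abs_mean_le hP1
  have hrD : ∀ x, |r * D x| ≤ |D x| := by
    intro x
    rw [abs_mul]
    calc |r| * |D x| ≤ 1 * |D x| := by gcongr
      _ = |D x| := one_mul _
  have hmd : |m| + |d| ≤ 1 := by
    apply abs_add_abs_le
    · rw [hm, hd, ← mean_add]
      exact abs_mean_le (fun x => le_trans (abs_add_le _ _) (hPD x))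
    · rw [hm, hd, ← mean_sub]
      exact abs_mean_le (fun x => le_trans (abs_sub _ _) (hPD x))
  have hrd : |r * d| ≤ |d| := by
    rw [abs_mul]
    calc |r| * |d| ≤ 1 * |d| := by gcongr
      _ = |d| := one_mul _
  -- the two normalised quantities are nonnegative
  have hwτ : w + τ ≤ L := by
    have hpt : ∀ x, psi2 (P x) + K2 (P x) (D x) ≤ L := by
      intro x
      have h1 : |P x + D x| ≤ 1 := le_trans (abs_add_le _ _) (hPD x)
      have h2 : |P x - D x| ≤ 1 := le_trans (abs_sub _ _) (hPD x)
      have := psi2_le_one h1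
      have := psi2_le_one h2
      unfold K2
      linarith
    have := mean_le_mean hpt
    rw [mean_add, mean_const] at this
    have h0 := psi2_nonneg hm1
    linarith
  have hwy : w + y - k ≤ L := by
    have hpt : ∀ x, psi2 (P x) + K2 (P x) (r * D x) ≤ L := by
      intro x
      have h1 : |P x + r * D x| ≤ 1 :=
        le_trans (abs_add_le _ _) (by linarith [hPD x, hrD x])
      have h2 : |P x - r * D x| ≤ 1 :=
        le_trans (abs_sub _ _) (by linarith [hPD x, hrD x])
      have := psi2_le_one h1
      have := psi2_le_one h2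
      unfold K2
      linarith
    have := mean_le_mean hpt
    rw [mean_add, mean_const] at this
    have h1 : |m + r * d| ≤ 1 := le_trans (abs_add_le _ _) (by linarith)
    have h2 : |m - r * d| ≤ 1 := le_trans (abs_sub _ _) (by linarith)
    have e : psi2 m + k = (psi2 (m + r * d) + psi2 (m - r * d)) / 2 := by
      rw [hk]
      unfold K2
      ring
    have := psi2_nonneg h1
    have := psi2_nonneg h2
    linarith
  have hu1 : 0 ≤ 1 - (w + τ) / L := by
    have : (w + τ) / L ≤ 1 := (div_le_one hLpos).mpr hwτ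
    linarith
  have hur : 0 ≤ 1 - (w + y - k) / L := by
    have : (w + y - k) / L ≤ 1 := (div_le_one hLpos).mpr hwy
    linarith
  rcases hcb0.eq_or_lt with hz | hpos
  · -- degenerate case: P = ±1 everywhere, D = 0
    have hcx : ∀ x, 1 - (P x) ^ 2 = 0 := fun x => mean_eq_zero_imp hc0 hz.symm x
    have hDx : ∀ x, D x = 0 := by
      intro x
      have := hDc x
      rw [hcx x] at this
      exact abs_eq_zero.mp (le_antisymm this (abs_nonneg _))
    have hD0 : D = fun _ => 0 := funext hDx
    have hd0 : d = 0 := by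
      rw [hd, hD0, mean_const]
    have hk0 : k = 0 := by
      rw [hk, hd0]
      simp [K2_zero]
    have hy0 : y = 0 := by
      rw [hy, hD0]
      simp [K2_zero, mean_const]
    have hτ0 : τ = 0 := by
      rw [hτ, hD0]
      simp [K2_zero, mean_const]
    left
    rw [hk0, hy0, hτ0]
    simp
  · set q2 := mean (fun x => (P x) ^ 2) with hq2
    have hcbq : cb = 1 - q2 := by
      rw [hcb, mean_sub, mean_const]
    have hvar : m ^ 2 ≤ q2 := var_nonneg P
    have hm2 : m ^ 2 < 1 := by linarith
    have hmlt : |m| < 1 := by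
      have := (sq_lt_one_iff_abs_lt_one m).mp hm2
      exact this
    have hcm : 0 < 1 - m ^ 2 := by linarith
    obtain ⟨hw0, hwchi⟩ := ent_var P hP1 hmlt
    rw [← hm, ← hq2, ← hw] at hwchi
    rw [← hm, ← hw] at hw0
    set θ := cb / (1 - m ^ 2) with hθ
    have hθ0 : 0 ≤ θ := div_nonneg hcb0 hcm.le
    have hθ1 : θ ≤ 1 := by
      rw [hθ, div_le_one hcm]
      linarith
    have hν : (q2 - m ^ 2) / (1 - m ^ 2) = 1 - θ := by
      rw [hθ, hcbq]
      field_simp
      ring
    have hA0 : 0 ≤ A := mean_nonneg (fun x => div_nonneg (sq_nonneg _) (hc0 x))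
    set uw := 1 - w / L with huw
    have huw1 : uw ≤ 1 := by
      have : 0 ≤ w / L := div_nonneg hw0 hLpos.le
      linarith
    -- w ≤ L (1 - cb) - psi2 m
    have hwle : w ≤ L * (1 - cb) - psi2 m := by
      have hpt : ∀ x, psi2 (P x) ≤ L * (P x) ^ 2 := by
        intro x
        have := psi2_le_sq (hP1 x)
        linarith
      have := mean_le_mean hpt
      rw [mean_mul_left, ← hq2] at this
      rw [hcbq]
      linarith
    have huwge : cb + psi2 m / L ≤ uw := by
      have : w / L ≤ (1 - cb) - psi2 m / L := by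
        rw [div_le_iff₀ hLpos]
        have e : ((1 - cb) - psi2 m / L) * L = L * (1 - cb) - psi2 m := by
          field_simp
        rw [e]
        exact hwle
      linarith
    have hpm0 : 0 ≤ psi2 m / L := div_nonneg (psi2_nonneg hm1) hLpos.le
    have huw0 : 0 ≤ uw := by linarith
    have hL2 : L = 2 * Real.log 2 := psi2_one
    have hlogpos : 0 < Real.log 2 := by linarith
    -- potential of the un-noised function
    have h1 : pw (1 - (w + τ) / L) ≤ Real.sqrt uw * (uw - A) := by
      apply pw_bound P D hPD (by linarith) hu1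
      have e : 1 - (w + τ) / L = uw - τ / L := by
        rw [huw]
        ring
      rw [e]
    -- noise bound
    have hyle : y ≤ q * A := by
      have := mean_le_mean (fun x => K2_noise_le' (hPD x) hr)
      rw [mean_mul_left] at this
      exact this
    have h2 : uw - (q * A - k) / L ≤ 1 - (w + y - k) / L := by
      have e : 1 - (w + y - k) / L = uw - (y - k) / L := by
        rw [huw]
        ring
      rw [e]
      have : (y - k) / L ≤ (q * A - k) / L :=
        div_le_div_of_nonneg_right (by linarith) hLpos.le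
      linarith
    have h3 : k ≤ q * (θ * A) := by
      have hk1 : k ≤ q * (d ^ 2 / (1 - m ^ 2)) := K2_noise_le hmlt (by linarith) hr
      have hcs : d ^ 2 ≤ cb * A := cs_step P D hPD hpos
      have : d ^ 2 / (1 - m ^ 2) ≤ θ * A := by
        rw [div_le_iff₀ hcm, hθ]
        have e : cb / (1 - m ^ 2) * A * (1 - m ^ 2) = cb * A := by
          field_simp
        rw [e]
        exact hcs
      calc k ≤ q * (d ^ 2 / (1 - m ^ 2)) := hk1
        _ ≤ q * (θ * A) := mul_le_mul_of_nonneg_left this hq0
    have hAcb : A ≤ cb := by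
      have hpt : ∀ x, (D x) ^ 2 / (1 - (P x) ^ 2) ≤ 1 - (P x) ^ 2 := by
        intro x
        rcases (hc0 x).eq_or_lt with h0 | h0
        · rw [← h0]
          simp
        · rw [div_le_iff₀ h0]
          have := hDc x
          have h5 : (D x) ^ 2 = |D x| ^ 2 := (sq_abs _).symm
          rw [h5]
          nlinarith [abs_nonneg (D x)]
      exact mean_le_mean hpt
    have hcbθ : cb = θ * (1 - m ^ 2) := by
      rw [hθ]
      field_simp
    have huwge2 : cb + m ^ 2 / L ≤ uw := by
      have : m ^ 2 / L ≤ psi2 m / L := div_le_div_of_nonneg_right (sq_le_psi2 hm1) hLpos.le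
      linarith
    have hchi2 : w ≤ 2 * (1 - θ) := by
      have e : 2 * (q2 - m ^ 2) / (1 - m ^ 2) = 2 * (1 - θ) := by
        rw [← hν]
        ring
      rw [e] at hwchi
      exact hwchi
    have hqr : r ^ 2 + (r ^ 2) ^ 2 / 6 + (r ^ 2) ^ 3 / 15 ≤ q := by
      have := psi2_lower3 hr
      have e4 : (r ^ 2) ^ 2 = r ^ 4 := by ring
      have e6 : (r ^ 2) ^ 3 = r ^ 6 := by ring
      rw [e4, e6]
      exact this
    exact hyb_scalar hL2 hq0 hq (sq_nonneg r) hr2 hqr hw0 huw huw0 hur hA0 hAcb
      (sq_nonneg m) hm2 hcbθ huwge2 hchi2 h1 h2 h3 hyle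

end Vale.Agent.P322
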