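import Vale.Agent.P322.SDPI2

/-!
The potential `pw u = u^(3/2)` and the scalar inequalities of the induction step.
-/

namespace Vale.Agent.P322

open Real

variable {n : ℕ}

/-- `pw u = u^(3/2)`. -/
noncomputable def pw (u : ℝ) : ℝ := u * Real.sqrt u

theorem pw_zero : pw 0 = 0 := by simp [pw]

theorem pw_one : pw 1 = 1 := by simp [pw]

theorem pw_nonneg {u : ℝ} (hu : 0 ≤ u) : 0 ≤ pw u := mul_nonneg hu (Real.sqrt_nonneg u)

/-- Tangent line inequality for the convex function `pw`. -/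
theorem pw_tangent {x u : ℝ} (hx : 0 ≤ x) (hu : 0 ≤ u) :
    pw u + 3 / 2 * Real.sqrt u * (x - u) ≤ pw x := by
  unfold pw
  set a := Real.sqrt x with ha
  set b := Real.sqrt u with hb
  have ha0 : 0 ≤ a := Real.sqrt_nonneg x
  have hb0 : 0 ≤ b := Real.sqrt_nonneg u
  have hxa : x = a ^ 2 := (Real.sq_sqrt hx).symm
  have hub : u = b ^ 2 := (Real.sq_sqrt hu).symm
  rw [hxa, hub]
  have : 0 ≤ (a - b) ^ 2 * (a + b / 2) := by positivity
  nlinarith

theorem pw_mono {x y : ℝ} (hx : 0 ≤ x) (hxy : x ≤ y) : pw x ≤ pw y := by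
  unfold pw
  have := Real.sqrt_le_sqrt hxy
  exact mul_le_mul hxy this (Real.sqrt_nonneg x) (le_trans hx hxy)

theorem pw_mid {x y : ℝ} (hx : 0 ≤ x) (hy : 0 ≤ y) : pw ((x + y) / 2) ≤ (pw x + pw y) / 2 := by
  have hm : 0 ≤ (x + y) / 2 := by linarith
  have h1 := pw_tangent hx hm
  have h2 := pw_tangent hy hm
  nlinarith

theorem pw_le_of_cube_le_sq {a b : ℝ} (ha : 0 ≤ a) (hb : 0 ≤ b) (h : a ^ 3 ≤ b ^ 2) :
    pw a ≤ b := by
  have h0 : 0 ≤ pw a := pw_nonneg ha
  have hsq : (pw a) ^ 2 = a ^ 3 := by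
    unfold pw
    rw [mul_pow, Real.sq_sqrt ha]
    ring
  exact abs_le_of_sq_le_sq' (by rw [hsq]; exact h) hb |>.2

theorem pw_mul {u r : ℝ} (hu : 0 ≤ u) : pw (u * r) = Real.sqrt u * (u * pw r) := by
  unfold pw
  rw [Real.sqrt_mul hu]
  ring

/-- Weighted Jensen inequality for `pw` with an extra atom of mass `μ` at the value `1`. -/
theorem pw_jensen (c a : Cube n → ℝ) (hc : ∀ x, 0 ≤ c x) (ha : ∀ x, 0 ≤ a x) {μ : ℝ}
    (hμ : 0 ≤ μ) :
    pw (μ + mean (fun x => c x * a x))
      ≤ Real.sqrt (μ + mean c) * (μ + mean (fun x => c x * pw (a x))) := by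
  have hmc : 0 ≤ mean c := mean_nonneg hc
  have hmca : 0 ≤ mean (fun x => c x * a x) := mean_nonneg (fun x => mul_nonneg (hc x) (ha x))
  set u := μ + mean c with hu
  set M := μ + mean (fun x => c x * a x) with hM
  have hu0 : 0 ≤ u := by linarith
  have hM0 : 0 ≤ M := by linarith
  rcases hu0.eq_or_lt with h | h
  · -- total mass zero
    have hμ0 : μ = 0 := by linarith
    have hc0 : mean c = 0 := by linarith
    have hcx : ∀ x, c x = 0 := fun x => mean_eq_zero_imp hc hc0 x
    have : M = 0 := by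
      rw [hM, hμ0]
      simp [hcx, mean_const]
    rw [this, ← h]
    simp [pw_zero]
  · set r := M / u with hr
    have hr0 : 0 ≤ r := div_nonneg hM0 hu0
    have hur : u * r = M := by
      rw [hr]
      field_simp
    have hpt : ∀ x, c x * (pw r + 3 / 2 * Real.sqrt r * (a x - r)) ≤ c x * pw (a x) :=
      fun x => mul_le_mul_of_nonneg_left (pw_tangent (ha x) hr0) (hc x)
    have hmean := mean_le_mean hpt
    have hexp : mean (fun x => c x * (pw r + 3 / 2 * Real.sqrt r * (a x - r)))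
        = (pw r - 3 / 2 * Real.sqrt r * r) * mean c
          + 3 / 2 * Real.sqrt r * mean (fun x => c x * a x) := by
      rw [← mean_mul_left, ← mean_mul_left, ← mean_add]
      congr 1
      funext x
      ring
    have h1 := pw_tangent (zero_le_one) hr0
    rw [pw_one] at h1
    have h1' : μ * (pw r + 3 / 2 * Real.sqrt r * (1 - r)) ≤ μ * 1 :=
      mul_le_mul_of_nonneg_left h1 hμ
    have hkey : u * pw r ≤ μ + mean (fun x => c x * pw (a x)) := by
      rw [hexp] at hmean
      have e : u * pw r = (pw r - 3 / 2 * Real.sqrt r * r) * mean c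
          + 3 / 2 * Real.sqrt r * mean (fun x => c x * a x)
          + μ * (pw r + 3 / 2 * Real.sqrt r * (1 - r)) := by
        have : 3 / 2 * Real.sqrt r * (u * r) = 3 / 2 * Real.sqrt r * M := by rw [hur]
        rw [hu, hM] at this
        rw [hu]
        linarith
      linarith
    rw [← hur, pw_mul hu0]
    exact mul_le_mul_of_nonneg_left hkey (Real.sqrt_nonneg u)

end Vale.Agent.P322
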