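import Vale.Agent.P322.BMPot

/-!
Scalar inequalities closing the induction step.
-/

namespace Vale.Agent.P322

open Real

/-- The final comparison: all law-level quantities have been reduced to a few scalars. -/
theorem scalar_step {q L uw u1 ur A k θ : ℝ} (hq0 : 0 ≤ q) (hL : 0 < L) (hqL : q ≤ L / 6)
    (huw0 : 0 ≤ uw) (huw1 : uw ≤ 1) (hur : 0 ≤ ur) (hA : 0 ≤ A)
    (hθ0 : 0 ≤ θ) (hθ1 : θ ≤ 1)
    (h1 : pw u1 ≤ Real.sqrt uw * (uw - A))
    (h2 : uw - (q * A - k) / L ≤ ur)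
    (h3 : k ≤ q * (θ * A))
    (h4 : θ ≤ Real.sqrt uw * (1 - (1 - θ) / 4)) :
    k + q * (1 - pw ur) ≤ q * (1 - pw u1) := by
  set v := Real.sqrt uw with hv
  have hv0 : 0 ≤ v := Real.sqrt_nonneg uw
  have hv1 : v ≤ 1 := by
    rw [hv]
    exact Real.sqrt_le_one.mpr huw1 |> fun h => h
  have ht := pw_tangent hur huw0
  have hpwuw : pw uw = uw * v := rfl
  rw [hpwuw] at ht
  set l := q / L with hl
  have hl0 : 0 ≤ l := div_nonneg hq0 hL.le
  have hl1 : l ≤ 1 / 6 := by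
    rw [hl, div_le_iff₀ hL]
    linarith
  have hql : q = l * L := by
    rw [hl]
    field_simp
  -- lower bound for pw ur
  have hdiff : -(q * A - k) / L ≤ ur - uw := by
    have : -(q * A - k) / L = -((q * A - k) / L) := by ring
    rw [this]
    linarith
  have ht2 : uw * v + 3 / 2 * v * (-(q * A - k) / L) ≤ pw ur := by
    have : 3 / 2 * v * (-(q * A - k) / L) ≤ 3 / 2 * v * (ur - uw) :=
      mul_le_mul_of_nonneg_left hdiff (by positivity)
    linarith
  have e1 : -(q * A - k) / L = -(l * A) + k / L := by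
    rw [hl]
    field_simp
    ring
  rw [e1] at ht2
  -- it suffices: k ≤ q * (pw ur - pw u1)
  have hgoal : k ≤ q * (pw ur - pw u1) := by
    have hlow : v * A - 3 / 2 * v * (l * A) + 3 / 2 * v * (k / L) ≤ pw ur - pw u1 := by
      nlinarith
    have hq1 : q * (v * A - 3 / 2 * v * (l * A) + 3 / 2 * v * (k / L)) ≤ q * (pw ur - pw u1) :=
      mul_le_mul_of_nonneg_left hlow hq0
    have e2 : q * (k / L) = l * k := by
      rw [hl]
      field_simp
    have e3 : q * (v * A - 3 / 2 * v * (l * A) + 3 / 2 * v * (k / L))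
        = q * A * v * (1 - 3 / 2 * l) + 3 / 2 * v * (l * k) := by
      rw [← e2]
      ring
    rw [e3] at hq1
    -- k (1 - 3/2 l v) ≤ q θ A (1 - 3/2 l v) ≤ q A v (1 - 3/2 l)
    have hfac : 0 ≤ 1 - 3 / 2 * l * v := by nlinarith
    have s1 : k * (1 - 3 / 2 * l * v) ≤ q * (θ * A) * (1 - 3 / 2 * l * v) :=
      mul_le_mul_of_nonneg_right h3 hfac
    have s2 : θ * (1 - 3 / 2 * l * v) ≤ v * (1 - 3 / 2 * l) := by
      have : v * (1 - (1 - θ) / 4) ≤ v * (1 - 3 / 2 * l * (1 - θ)) := by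
        apply mul_le_mul_of_nonneg_left _ hv0
        nlinarith
      nlinarith
    have s3 : q * A * (θ * (1 - 3 / 2 * l * v)) ≤ q * A * (v * (1 - 3 / 2 * l)) :=
      mul_le_mul_of_nonneg_left s2 (mul_nonneg hq0 hA)
    nlinarith
  linarith

/-- The variance-entropy comparison needed in `scalar_step`. -/
theorem fc_step {u ν z : ℝ} (hν0 : 0 ≤ ν) (hν1 : ν ≤ 1) (hz0 : 0 ≤ z) (hz1 : z ≤ 1)
    (hu0 : 0 ≤ u)
    (h1 : 1 - ν / Real.log 2 ≤ u)
    (h2 : z / (2 * Real.log 2) + (1 - z) * (1 - ν) ≤ u) :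
    1 - ν ≤ Real.sqrt u * (1 - ν / 4) := by
  have hlog1 : (0.6931 : ℝ) < Real.log 2 := by
    have := Real.log_two_gt_d9
    linarith
  have hlog2 : Real.log 2 < (0.6932 : ℝ) := by
    have := Real.log_two_lt_d9
    linarith
  have hlogpos : 0 < Real.log 2 := by linarith
  have hfac : 0 < 1 - ν / 4 := by linarith
  -- main claim: (1 - ν)^2 ≤ u (1 - ν/4)^2
  have hmain : (1 - ν) ^ 2 ≤ u * (1 - ν / 4) ^ 2 := by
    by_cases hc : ν ≤ 1 / 5
    · have hinv : ν / Real.log 2 ≤ 1.4428 * ν := by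
        rw [div_le_iff₀ hlogpos]
        nlinarith
      have hu : 1 - 1.4428 * ν ≤ u := by linarith
      have hsq : 0 ≤ (1 - ν / 4) ^ 2 := by positivity
      have hstep : (1 - 1.4428 * ν) * (1 - ν / 4) ^ 2 ≤ u * (1 - ν / 4) ^ 2 :=
        mul_le_mul_of_nonneg_right hu hsq
      have hpoly : (1 - ν) ^ 2 ≤ (1 - 1.4428 * ν) * (1 - ν / 4) ^ 2 := by
        nlinarith [mul_nonneg hν0 hν0, mul_nonneg (mul_nonneg hν0 hν0) hν0,
          mul_nonneg hν0 (sub_nonneg.mpr hc), mul_nonneg (mul_nonneg hν0 hν0) (sub_nonneg.mpr hc)]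
      linarith
    · have hc' : 1 / 5 < ν := not_le.mp hc
      have hk : (0.7212 : ℝ) * z ≤ z / (2 * Real.log 2) := by
        rw [le_div_iff₀ (by linarith)]
        nlinarith
      have hu : 0.7212 * z + (1 - z) * (1 - ν) ≤ u := by linarith
      have hsq : 0 ≤ (1 - ν / 4) ^ 2 := by positivity
      have hstep : (0.7212 * z + (1 - z) * (1 - ν)) * (1 - ν / 4) ^ 2 ≤ u * (1 - ν / 4) ^ 2 :=
        mul_le_mul_of_nonneg_right hu hsq
      have ha : (1 - ν) ^ 2 ≤ (1 - ν) * (1 - ν / 4) ^ 2 := by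
        have : (1 - ν) ≤ (1 - ν / 4) ^ 2 := by nlinarith
        nlinarith
      have hb : (1 - ν) ^ 2 ≤ 0.7212 * (1 - ν / 4) ^ 2 := by
        nlinarith
      have hcomb : (1 - ν) ^ 2 ≤ (0.7212 * z + (1 - z) * (1 - ν)) * (1 - ν / 4) ^ 2 := by
        have e : (0.7212 * z + (1 - z) * (1 - ν)) * (1 - ν / 4) ^ 2
            = z * (0.7212 * (1 - ν / 4) ^ 2) + (1 - z) * ((1 - ν) * (1 - ν / 4) ^ 2) := by ring
        rw [e]
        nlinarith [mul_le_mul_of_nonneg_left hb hz0,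
          mul_le_mul_of_nonneg_left ha (sub_nonneg.mpr hz1)]
      linarith
  have h3 : (1 - ν) / (1 - ν / 4) ≤ Real.sqrt u := by
    apply Real.le_sqrt_of_sq_le
    rw [div_pow, div_le_iff₀ (by positivity)]
    exact hmain
  rw [div_le_iff₀ hfac] at h3
  exact h3

end Vale.Agent.P322
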