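import Mathlib

/-!
Definitions for the Courtade-Kumar problem: the cube, the noise model, mutual information in bits.
-/

namespace Vale.Agent.P322

/-- The discrete cube `{-1,1}^n`; a sign is a unit of `ℤ`. -/
abbrev Cube (n : ℕ) : Type := Fin n → ℤˣ

/-- Binary entropy in bits. -/
noncomputable def h2 (p : ℝ) : ℝ := -(p * Real.logb 2 p) - (1 - p) * Real.logb 2 (1 - p)

/-- The probability of the outcome `ω = (x, z)`: the input `X = x` is uniform on the cube and the
noise signs `Z = z` are independent of `X` and of each other, each equal to `-1` with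
probability `ε`. -/
noncomputable def law (n : ℕ) (ε : ℝ) (ω : Cube n × Cube n) : ℝ :=
  (1 / 2) ^ n * ∏ i, (if ω.2 i = -1 then ε else 1 - ε)

/-- The noisy vector `Y = (X_1 Z_1, ..., X_n Z_n)`. -/
def noisy {n : ℕ} (ω : Cube n × Cube n) : Cube n := fun i => ω.1 i * ω.2 i

/-- Probability of an event under a probability mass function `P` on a finite space. -/
noncomputable def prob {Ω : Type} [Fintype Ω] (P : Ω → ℝ) (E : Ω → Prop) [DecidablePred E] : ℝ :=
  ∑ ω, if E ω then P ω else 0

/-- Mutual information, in bits, of two finitely valued random variables `U`, `V` on the finite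
probability space `(Ω, P)`: the sum over values `a`, `b` of
`P(U=a,V=b) log2 (P(U=a,V=b) / (P(U=a) P(V=b)))`. -/
noncomputable def mutualInfo {Ω A B : Type} [Fintype Ω] [Fintype A] [Fintype B]
    [DecidableEq A] [DecidableEq B] (P : Ω → ℝ) (U : Ω → A) (V : Ω → B) : ℝ :=
  ∑ a, ∑ b, prob P (fun ω => U ω = a ∧ V ω = b) *
    Real.logb 2 (prob P (fun ω => U ω = a ∧ V ω = b) /
      (prob P (fun ω => U ω = a) * prob P (fun ω => V ω = b)))

end Vale.Agent.P322
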