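import Mathlib
import Vale.Agent.P322.Defs

/-!
Elementary Fourier analysis on the cube `{-1,1}^n` and the law of `(X, Z)`.
-/

namespace Vale.Agent.P322

open Finset

/-- A sign as a real number. -/
def sg (u : ℤˣ) : ℝ := ((u : ℤ) : ℝ)

@[simp] theorem sg_one : sg 1 = 1 := by simp [sg]
@[simp] theorem sg_neg_one : sg (-1) = -1 := by simp [sg]

theorem sg_mul (u v : ℤˣ) : sg (u * v) = sg u * sg v := by simp [sg]

theorem sg_cases (u : ℤˣ) : u = 1 ∨ u = -1 := Int.units_eq_one_or u

theorem sg_sq (u : ℤˣ) : sg u * sg u = 1 := by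
  rcases sg_cases u with h | h <;> simp [h]

theorem sg_abs (u : ℤˣ) : |sg u| = 1 := by
  rcases sg_cases u with h | h <;> simp [h]

theorem sum_units (F : ℤˣ → ℝ) : ∑ u, F u = F 1 + F (-1) := by
  have : (Finset.univ : Finset ℤˣ) = {1, -1} := by decide
  rw [this, Finset.sum_pair (by decide)]

theorem ind_eq (u a : ℤˣ) : (if u = a then (1 : ℝ) else 0) = (1 + sg a * sg u) / 2 := by
  rcases sg_cases u with h | h <;> rcases sg_cases a with h' | h' <;> subst h <;> subst h' <;>
    norm_num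

variable {n : ℕ}

/-- The character `χ_S(x) = ∏_{i ∈ S} x_i` as a real number. -/
def chi (S : Finset (Fin n)) (x : Cube n) : ℝ := ∏ i ∈ S, sg (x i)

/-- The uniform mean on the cube. -/
noncomputable def mean (G : Cube n → ℝ) : ℝ := (1 / 2) ^ n * ∑ x, G x

/-- Fourier coefficient of a Boolean function. -/
noncomputable def fhat (f : Cube n → ℤˣ) (S : Finset (Fin n)) : ℝ :=
  mean (fun x => sg (f x) * chi S x)

theorem chi_eq_prod_ite (S : Finset (Fin n)) (x : Cube n) :
    chi S x = ∏ i, (if i ∈ S then sg (x i) else 1) := by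
  unfold chi
  rw [Finset.prod_ite_mem]
  simp

theorem sg_prod (S : Finset (Fin n)) (x : Cube n) : sg (∏ i ∈ S, x i) = chi S x := by
  unfold chi sg
  push_cast
  rfl

theorem chi_mul (S : Finset (Fin n)) (x z : Cube n) :
    chi S (fun i => x i * z i) = chi S x * chi S z := by
  unfold chi
  rw [← Finset.prod_mul_distrib]
  exact Finset.prod_congr rfl (fun i _ => sg_mul _ _)

theorem chi_sq (S : Finset (Fin n)) (x : Cube n) : chi S x * chi S x = 1 := by
  unfold chi
  rw [← Finset.prod_mul_distrib]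
  exact Finset.prod_eq_one (fun i _ => sg_sq _)

theorem chi_cases (S : Finset (Fin n)) (x : Cube n) : chi S x = 1 ∨ chi S x = -1 := by
  have h := chi_sq S x
  have : (chi S x - 1) * (chi S x + 1) = 0 := by ring_nf; rw [← h]; ring
  rcases mul_eq_zero.mp this with h1 | h1
  · left; linarith
  · right; linarith

/-- Sum over the cube of a product of coordinate functions. -/
theorem sum_cube_prod (F : Fin n → ℤˣ → ℝ) :
    ∑ z : Cube n, ∏ i, F i (z i) = ∏ i, (F i 1 + F i (-1)) := by
  have h := Finset.prod_univ_sum (fun _ : Fin n => (Finset.univ : Finset ℤˣ)) F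
  rw [Fintype.piFinset_univ] at h
  rw [← h]
  exact Finset.prod_congr rfl (fun i _ => sum_units _)

theorem noise_sum (ε : ℝ) (S : Finset (Fin n)) :
    ∑ z : Cube n, (∏ i, (if z i = -1 then ε else 1 - ε)) * chi S z = (1 - 2 * ε) ^ S.card := by
  have h1 : ∀ z : Cube n, (∏ i, (if z i = -1 then ε else 1 - ε)) * chi S z
      = ∏ i, ((fun (i : Fin n) (u : ℤˣ) =>
          (if u = -1 then ε else 1 - ε) * (if i ∈ S then sg u else 1)) i (z i)) := by
    intro z
    rw [chi_eq_prod_ite, ← Finset.prod_mul_distrib]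
  rw [Finset.sum_congr rfl (fun z _ => h1 z), sum_cube_prod (fun (i : Fin n) (u : ℤˣ) =>
          (if u = -1 then ε else 1 - ε) * (if i ∈ S then sg u else 1))]
  have h2 : ∀ i : Fin n, ((if (1 : ℤˣ) = -1 then ε else 1 - ε) * (if i ∈ S then sg 1 else 1)
      + (if (-1 : ℤˣ) = -1 then ε else 1 - ε) * (if i ∈ S then sg (-1) else 1))
      = if i ∈ S then (1 - 2 * ε) else 1 := by
    intro i
    rw [if_neg (by decide), if_pos rfl]
    by_cases hi : i ∈ S
    · simp [hi]; ring
    · simp [hi]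
  rw [Finset.prod_congr rfl (fun i _ => h2 i), Finset.prod_ite_mem]
  simp

theorem noise_total (ε : ℝ) :
    ∑ z : Cube n, (∏ i, (if z i = -1 then ε else 1 - ε)) = 1 := by
  have h := noise_sum (n := n) ε ∅
  simpa [chi] using h

theorem sum_chi (S : Finset (Fin n)) (hS : S.Nonempty) : ∑ x : Cube n, chi S x = 0 := by
  have h1 : ∀ x : Cube n, chi S x
      = ∏ i, ((fun (i : Fin n) (u : ℤˣ) => (if i ∈ S then sg u else 1)) i (x i)) := by
    intro x
    rw [chi_eq_prod_ite]
  rw [Finset.sum_congr rfl (fun z _ => h1 z),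
    sum_cube_prod (fun (i : Fin n) (u : ℤˣ) => (if i ∈ S then sg u else 1))]
  obtain ⟨j, hj⟩ := hS
  apply Finset.prod_eq_zero (Finset.mem_univ j)
  simp [hj]

theorem mean_chi (S : Finset (Fin n)) (hS : S.Nonempty) : mean (chi S) = 0 := by
  unfold mean
  rw [sum_chi S hS, mul_zero]

theorem card_cube : (Fintype.card (Cube n) : ℝ) = 2 ^ n := by
  simp [Cube]

theorem mean_const (c : ℝ) : mean (fun _ : Cube n => c) = c := by
  unfold mean
  rw [Finset.sum_const, Finset.card_univ, nsmul_eq_mul, card_cube, ← mul_assoc, ← mul_pow]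
  norm_num

/-- Expectation under the law of `(X, Z)` of `G(X) χ_S(Z)`. -/
theorem law_sum (ε : ℝ) (G : Cube n → ℝ) (S : Finset (Fin n)) :
    ∑ ω : Cube n × Cube n, law n ε ω * (G ω.1 * chi S ω.2) = mean G * (1 - 2 * ε) ^ S.card := by
  rw [Fintype.sum_prod_type]
  unfold law mean
  simp only
  have : ∀ x : Cube n, ∑ z : Cube n,
      (1 / 2 : ℝ) ^ n * (∏ i, (if z i = -1 then ε else 1 - ε)) * (G x * chi S z)
      = (1 / 2 : ℝ) ^ n * G x * (1 - 2 * ε) ^ S.card := by
    intro x
    rw [← noise_sum ε S, Finset.mul_sum]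
    exact Finset.sum_congr rfl (fun z _ => by ring)
  rw [Finset.sum_congr rfl (fun x _ => this x), Finset.mul_sum, Finset.sum_mul]

theorem law_sum' (ε : ℝ) (G : Cube n → ℝ) :
    ∑ ω : Cube n × Cube n, law n ε ω * G ω.1 = mean G := by
  have h := law_sum ε G ∅
  simpa [chi] using h

theorem prod_one_add_sg (x y : Cube n) :
    ∏ i, (1 + sg (x i) * sg (y i)) = if x = y then (2 : ℝ) ^ n else 0 := by
  by_cases h : x = y
  · subst h
    rw [if_pos rfl]
    have : ∀ i : Fin n, (1 + sg (x i) * sg (x i)) = 2 := by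
      intro i; rw [sg_sq]; norm_num
    rw [Finset.prod_congr rfl (fun i _ => this i)]
    simp
  · rw [if_neg h]
    have : ∃ i, x i ≠ y i := by
      by_contra hcon
      exact h (funext (fun i => by
        by_contra hi
        exact hcon ⟨i, hi⟩))
    obtain ⟨i, hi⟩ := this
    apply Finset.prod_eq_zero (Finset.mem_univ i)
    rcases sg_cases (x i) with h1 | h1 <;> rcases sg_cases (y i) with h2 | h2
    · exact absurd (h1.trans h2.symm) hi
    · rw [h1, h2]; simp
    · rw [h1, h2]; simp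
    · exact absurd (h1.trans h2.symm) hi

/-- Parseval for Boolean functions. -/
theorem parseval (f : Cube n → ℤˣ) : ∑ S : Finset (Fin n), (fhat f S) ^ 2 = 1 := by
  unfold fhat mean
  have h1 : ∀ S : Finset (Fin n), ((1 / 2 : ℝ) ^ n * ∑ x, sg (f x) * chi S x) ^ 2
      = ((1 / 2 : ℝ) ^ n) ^ 2 * ∑ x : Cube n, ∑ y : Cube n,
          sg (f x) * sg (f y) * ∏ i ∈ S, (sg (x i) * sg (y i)) := by
    intro S
    rw [mul_pow, sq (∑ x, sg (f x) * chi S x), Finset.sum_mul_sum]
    congr 1
    refine Finset.sum_congr rfl (fun x _ => Finset.sum_congr rfl (fun y _ => ?_))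
    rw [Finset.prod_mul_distrib]
    unfold chi
    ring
  rw [Finset.sum_congr rfl (fun S _ => h1 S), ← Finset.mul_sum, Finset.sum_comm]
  have h2 : ∀ x : Cube n, ∑ S : Finset (Fin n), ∑ y : Cube n,
      sg (f x) * sg (f y) * ∏ i ∈ S, (sg (x i) * sg (y i)) = (2 : ℝ) ^ n := by
    intro x
    rw [Finset.sum_comm]
    have h3 : ∀ y : Cube n, ∑ S : Finset (Fin n),
        sg (f x) * sg (f y) * ∏ i ∈ S, (sg (x i) * sg (y i))
        = sg (f x) * sg (f y) * (if x = y then (2 : ℝ) ^ n else 0) := by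
      intro y
      rw [← Finset.mul_sum, ← prod_one_add_sg, Finset.prod_one_add, Finset.powerset_univ]
    rw [Finset.sum_congr rfl (fun y _ => h3 y)]
    simp [sg_sq]
  rw [Finset.sum_congr rfl (fun x _ => h2 x), Finset.sum_const, Finset.card_univ, nsmul_eq_mul,
    card_cube, ← pow_mul, ← pow_two, ← pow_mul, ← mul_pow]
  norm_num

end Vale.Agent.P322
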