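import Mathlib
import Vale.Agent.P322.Defs
import Vale.Agent.P322.Analytic
import Vale.Agent.P322.Fourier

/-!
Mutual information between `f(X)` and a parity of the noisy vector.
-/

namespace Vale.Agent.P322

open Finset

variable {n : ℕ}

theorem mean_nonneg {G : Cube n → ℝ} (h : ∀ x, 0 ≤ G x) : 0 ≤ mean G := by
  unfold mean
  exact mul_nonneg (by positivity) (Finset.sum_nonneg (fun x _ => h x))

theorem mean_add (G H : Cube n → ℝ) : mean (fun x => G x + H x) = mean G + mean H := by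
  unfold mean
  rw [Finset.sum_add_distrib, mul_add]

theorem mean_mul_left (c : ℝ) (G : Cube n → ℝ) : mean (fun x => c * G x) = c * mean G := by
  unfold mean
  rw [← Finset.mul_sum]
  ring

theorem fhat_empty (f : Cube n → ℤˣ) : fhat f ∅ = mean (fun x => sg (f x)) := by
  unfold fhat
  simp [chi]

/-- expansion of the mean of `(1 + a f)(1 + c χ_S)`. -/
theorem mean_expand (f : Cube n → ℤˣ) (S : Finset (Fin n)) (hS : S.Nonempty) (a c : ℝ) :
    mean (fun x => (1 + a * sg (f x)) * (1 + c * chi S x))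
      = 1 + a * fhat f ∅ + a * c * fhat f S := by
  have h : (fun x : Cube n => (1 + a * sg (f x)) * (1 + c * chi S x))
      = fun x => ((1 + a * sg (f x)) + c * chi S x) + (a * c) * (sg (f x) * chi S x) := by
    funext x; ring
  rw [h, mean_add, mean_add, mean_add, mean_mul_left, mean_mul_left, mean_mul_left, mean_const,
    mean_chi S hS, fhat_empty]
  unfold fhat
  ring

theorem fhat_abs_le (f : Cube n → ℤˣ) (S : Finset (Fin n)) (hS : S.Nonempty) (a : ℤˣ) :
    |fhat f S| ≤ 1 + sg a * fhat f ∅ := by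
  have key : ∀ c : ℝ, (c = 1 ∨ c = -1) → 0 ≤ 1 + sg a * fhat f ∅ + sg a * c * fhat f S := by
    intro c hc
    rw [← mean_expand f S hS]
    apply mean_nonneg
    intro x
    apply mul_nonneg
    · rcases sg_cases a with h | h <;> rcases sg_cases (f x) with h' | h' <;> rw [h, h'] <;>
        norm_num
    · rcases chi_cases S x with h | h <;> rcases hc with h' | h' <;> rw [h, h'] <;> norm_num
  have h1 := key 1 (Or.inl rfl)
  have h2 := key (-1) (Or.inr rfl)
  rw [abs_le]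
  rcases sg_cases a with h | h <;> rw [h] at h1 h2 ⊢ <;> simp at h1 h2 ⊢ <;>
    constructor <;> linarith

theorem prob_eq_sum {Ω : Type} [Fintype Ω] (P : Ω → ℝ) (E : Ω → Prop) [DecidablePred E] :
    prob P E = ∑ ω, P ω * (if E ω then 1 else 0) := by
  unfold prob
  exact Finset.sum_congr rfl (fun ω _ => by split_ifs <;> simp)

theorem sg_parity (S : Finset (Fin n)) (ω : Cube n × Cube n) :
    sg (∏ i ∈ S, noisy ω i) = chi S ω.1 * chi S ω.2 := by
  rw [sg_prod, ← chi_mul]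
  rfl

theorem prob_f (f : Cube n → ℤˣ) (ε : ℝ) (a : ℤˣ) :
    prob (law n ε) (fun ω => f ω.1 = a) = (1 + sg a * fhat f ∅) / 2 := by
  rw [prob_eq_sum]
  have h : ∀ ω : Cube n × Cube n, law n ε ω * (if f ω.1 = a then 1 else 0)
      = law n ε ω * ((fun x => (1 + sg a * sg (f x)) / 2) ω.1) := by
    intro ω
    rw [ind_eq]
  rw [Finset.sum_congr rfl (fun ω _ => h ω), law_sum' ε (fun x => (1 + sg a * sg (f x)) / 2),
    fhat_empty]
  have h2 : (fun x : Cube n => (1 + sg a * sg (f x)) / 2)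
      = fun x => (1 / 2 : ℝ) + (sg a / 2) * sg (f x) := by
    funext x; ring
  rw [h2, mean_add, mean_const, mean_mul_left]
  ring

theorem prob_parity (ε : ℝ) (S : Finset (Fin n)) (hS : S.Nonempty) (b : ℤˣ) :
    prob (law n ε) (fun ω => ∏ i ∈ S, noisy ω i = b) = 1 / 2 := by
  rw [prob_eq_sum]
  have h : ∀ ω : Cube n × Cube n, law n ε ω * (if ∏ i ∈ S, noisy ω i = b then 1 else 0)
      = law n ε ω * ((fun _ => (1 / 2 : ℝ)) ω.1)
        + law n ε ω * ((fun x => sg b / 2 * chi S x) ω.1 * chi S ω.2) := by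
    intro ω
    rw [ind_eq, sg_parity]
    ring
  rw [Finset.sum_congr rfl (fun ω _ => h ω), Finset.sum_add_distrib,
    law_sum' ε (fun _ => (1 / 2 : ℝ)), law_sum ε (fun x => sg b / 2 * chi S x) S,
    mean_const, mean_mul_left, mean_chi S hS]
  ring

theorem prob_joint (f : Cube n → ℤˣ) (ε : ℝ) (S : Finset (Fin n)) (hS : S.Nonempty) (a b : ℤˣ) :
    prob (law n ε) (fun ω => f ω.1 = a ∧ ∏ i ∈ S, noisy ω i = b)
      = (1 + sg a * fhat f ∅ + sg a * sg b * (fhat f S * (1 - 2 * ε) ^ S.card)) / 4 := by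
  rw [prob_eq_sum]
  have h : ∀ ω : Cube n × Cube n,
      law n ε ω * (if f ω.1 = a ∧ ∏ i ∈ S, noisy ω i = b then 1 else 0)
      = law n ε ω * ((fun x => (1 + sg a * sg (f x)) / 4) ω.1)
        + law n ε ω * ((fun x => (sg b / 4) * chi S x
            + (sg a * sg b / 4) * (sg (f x) * chi S x)) ω.1 * chi S ω.2) := by
    intro ω
    have e : (if f ω.1 = a ∧ ∏ i ∈ S, noisy ω i = b then (1 : ℝ) else 0)
        = (if f ω.1 = a then 1 else 0) * (if ∏ i ∈ S, noisy ω i = b then 1 else 0) := by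
      split_ifs <;> simp_all
    rw [e, ind_eq, ind_eq, sg_parity]
    ring
  rw [Finset.sum_congr rfl (fun ω _ => h ω), Finset.sum_add_distrib,
    law_sum' ε (fun x => (1 + sg a * sg (f x)) / 4),
    law_sum ε (fun x => (sg b / 4) * chi S x + (sg a * sg b / 4) * (sg (f x) * chi S x)) S,
    mean_add, mean_mul_left, mean_mul_left, mean_chi S hS]
  have h2 : (fun x : Cube n => (1 + sg a * sg (f x)) / 4)
      = fun x => (1 / 4 : ℝ) + (sg a / 4) * sg (f x) := by
    funext x; ring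
  rw [h2, mean_add, mean_const, mean_mul_left, fhat_empty]
  unfold fhat
  ring

/-- The analytic bound for one value `a` of `f(X)`. -/
theorem term_bound (A t r : ℝ) (k : ℕ) (ht : |t| ≤ A) (hr0 : 0 ≤ r) (hr1 : r ≤ 1) :
    ((A + t * r ^ (k + 1)) / 4) * Real.log (((A + t * r ^ (k + 1)) / 4) / ((A / 2) * (1 / 2)))
      + ((A - t * r ^ (k + 1)) / 4) * Real.log (((A - t * r ^ (k + 1)) / 4) / ((A / 2) * (1 / 2)))
      ≤ t ^ 2 * psi2 r / (4 * A) := by
  have hA : 0 ≤ A := le_trans (abs_nonneg t) ht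
  rcases hA.eq_or_lt with h0 | hpos
  · have ht0 : t = 0 := by
      rw [← h0] at ht
      exact abs_nonpos_iff.mp ht
    subst ht0
    rw [← h0]
    simp
  · set x : ℝ := t * r ^ k / A with hx
    have hrk : r ^ k ≤ 1 := pow_le_one₀ hr0 hr1
    have hrk0 : 0 ≤ r ^ k := pow_nonneg hr0 k
    have hxabs : |x| ≤ 1 := by
      rw [hx, abs_div, abs_mul, abs_of_pos hpos, abs_of_nonneg hrk0, div_le_one hpos]
      calc |t| * r ^ k ≤ A * 1 := by gcongr
        _ = A := mul_one A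
    have hrabs : |r| ≤ 1 := by rw [abs_of_nonneg hr0]; exact hr1
    have hkey := psi2_mul_le hxabs hrabs
    have hpsi : 0 ≤ psi2 r := psi2_nonneg hrabs
    have hxr : x * r = t * r ^ (k + 1) / A := by
      rw [hx, pow_succ]; field_simp
    have e1 : ((A + t * r ^ (k + 1)) / 4) / ((A / 2) * (1 / 2)) = 1 + x * r := by
      rw [hxr]; field_simp; ring
    have e2 : ((A - t * r ^ (k + 1)) / 4) / ((A / 2) * (1 / 2)) = 1 - x * r := by
      rw [hxr]; field_simp; ring
    have e3 : (A + t * r ^ (k + 1)) / 4 = (A / 4) * (1 + x * r) := by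
      rw [hxr]; field_simp
    have e4 : (A - t * r ^ (k + 1)) / 4 = (A / 4) * (1 - x * r) := by
      rw [hxr]; field_simp
    rw [e1, e2, e3, e4]
    have e5 : A / 4 * (1 + x * r) * Real.log (1 + x * r) + A / 4 * (1 - x * r) * Real.log (1 - x * r)
        = (A / 4) * psi2 (x * r) := by
      unfold psi2; ring
    rw [e5]
    have hx2 : x ^ 2 ≤ t ^ 2 / A ^ 2 := by
      rw [hx, div_pow, mul_pow]
      have : (r ^ k) ^ 2 ≤ 1 := pow_le_one₀ hrk0 hrk
      have ht2 : 0 ≤ t ^ 2 := by positivity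
      gcongr
      calc t ^ 2 * (r ^ k) ^ 2 ≤ t ^ 2 * 1 := by gcongr
        _ = t ^ 2 := mul_one _
    calc (A / 4) * psi2 (x * r) ≤ (A / 4) * (x ^ 2 * psi2 r) := by gcongr
      _ ≤ (A / 4) * (t ^ 2 / A ^ 2 * psi2 r) := by gcongr
      _ = t ^ 2 * psi2 r / (4 * A) := by field_simp

/-- `1 - h2 ε` in terms of `psi2`. -/
theorem one_sub_h2 (ε : ℝ) (h0 : 0 ≤ ε) (h1 : ε ≤ 1 / 2) :
    1 - h2 ε = psi2 (1 - 2 * ε) / (2 * Real.log 2) := by
  have hl2 : Real.log 2 ≠ 0 := by positivity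
  unfold h2 psi2 Real.logb
  have e1 : (1 + (1 - 2 * ε)) = 2 * (1 - ε) := by ring
  have e2 : (1 - (1 - 2 * ε)) = 2 * ε := by ring
  rw [e1, e2]
  have hpos : (1 - ε) ≠ 0 := by linarith
  rw [Real.log_mul (by norm_num) hpos]
  rcases h0.eq_or_lt with h | h
  · rw [← h]
    simp
    field_simp
  · rw [Real.log_mul (by norm_num) h.ne']
    field_simp
    ring

/-- Bound on the mutual information between `f(X)` and the parity `∏_{i ∈ S} Y_i`. -/
theorem mutualInfo_parity_le (f : Cube n → ℤˣ) (ε : ℝ) (h0 : 0 ≤ ε) (h1 : ε ≤ 1 / 2)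
    (S : Finset (Fin n)) (hS : S.Nonempty) :
    mutualInfo (law n ε) (fun ω => f ω.1) (fun ω => ∏ i ∈ S, noisy ω i)
      ≤ (fhat f S ^ 2 * psi2 (1 - 2 * ε) / (4 * (1 + fhat f ∅))
          + fhat f S ^ 2 * psi2 (1 - 2 * ε) / (4 * (1 - fhat f ∅))) / Real.log 2 := by
  obtain ⟨k, hk⟩ : ∃ k, S.card = k + 1 := ⟨S.card - 1, by
    have := Finset.card_pos.mpr hS
    omega⟩
  have hl2 : 0 < Real.log 2 := by positivity
  unfold mutualInfo
  simp only [prob_joint f ε S hS, prob_f, prob_parity ε S hS, sum_units, sg_one, sg_neg_one,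
    Real.logb, hk]
  have hr0 : 0 ≤ 1 - 2 * ε := by linarith
  have hr1 : 1 - 2 * ε ≤ 1 := by linarith
  have b1 := term_bound (1 + fhat f ∅) (fhat f S) (1 - 2 * ε) k
    (by simpa using fhat_abs_le f S hS 1) hr0 hr1
  have b2 := term_bound (1 - fhat f ∅) (fhat f S) (1 - 2 * ε) k
    (by have := fhat_abs_le f S hS (-1); simp at this; linarith) hr0 hr1
  rw [le_div_iff₀ hl2]
  have e : ∀ p q : ℝ, p * (q / Real.log 2) * Real.log 2 = p * q := by
    intro p q; field_simp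
  simp only [add_mul, e]
  have c1 : (1 + 1 * fhat f ∅ + 1 * 1 * (fhat f S * (1 - 2 * ε) ^ (k + 1)))
      = (1 + fhat f ∅) + fhat f S * (1 - 2 * ε) ^ (k + 1) := by ring
  have c2 : (1 + 1 * fhat f ∅ + 1 * -1 * (fhat f S * (1 - 2 * ε) ^ (k + 1)))
      = (1 + fhat f ∅) - fhat f S * (1 - 2 * ε) ^ (k + 1) := by ring
  have c3 : (1 + -1 * fhat f ∅ + -1 * 1 * (fhat f S * (1 - 2 * ε) ^ (k + 1)))
      = (1 - fhat f ∅) - fhat f S * (1 - 2 * ε) ^ (k + 1) := by ring
  have c4 : (1 + -1 * fhat f ∅ + -1 * -1 * (fhat f S * (1 - 2 * ε) ^ (k + 1)))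
      = (1 - fhat f ∅) + fhat f S * (1 - 2 * ε) ^ (k + 1) := by ring
  have c5 : (1 + 1 * fhat f ∅) = 1 + fhat f ∅ := by ring
  have c6 : (1 + -1 * fhat f ∅) = 1 - fhat f ∅ := by ring
  rw [c1, c2, c3, c4, c5, c6]
  linarith

end Vale.Agent.P322

namespace Vale.Agent.P322

open Finset

variable {n : ℕ}

theorem sum_fhat_sq_le (f : Cube n → ℤˣ) (T : Finset (Finset (Fin n)))
    (hT : ∀ S ∈ T, S.Nonempty) : ∑ S ∈ T, fhat f S ^ 2 ≤ 1 - fhat f ∅ ^ 2 := by
  have hnot : (∅ : Finset (Fin n)) ∉ T := fun h => by simpa using hT ∅ h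
  have h1 : ∑ S ∈ insert ∅ T, fhat f S ^ 2 ≤ ∑ S : Finset (Fin n), fhat f S ^ 2 :=
    Finset.sum_le_univ_sum_of_nonneg (fun S => by positivity)
  rw [Finset.sum_insert hnot, parseval] at h1
  linarith

/-- The sum of the mutual informations between `f(X)` and any family of distinct nontrivial
parities of `Y` is at most `1 - h2 ε`. -/
theorem sum_parity_le (f : Cube n → ℤˣ) (ε : ℝ) (h0 : 0 ≤ ε) (h1 : ε ≤ 1 / 2)
    (T : Finset (Finset (Fin n))) (hT : ∀ S ∈ T, S.Nonempty) :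
    ∑ S ∈ T, mutualInfo (law n ε) (fun ω => f ω.1) (fun ω => ∏ i ∈ S, noisy ω i) ≤ 1 - h2 ε := by
  have hl2 : 0 < Real.log 2 := by positivity
  set μ := fhat f ∅ with hμ
  set W := ∑ S ∈ T, fhat f S ^ 2 with hW
  set ψ := psi2 (1 - 2 * ε) with hψ
  have hψ0 : 0 ≤ ψ := psi2_nonneg (by rw [abs_le]; constructor <;> linarith)
  have hW0 : 0 ≤ W := Finset.sum_nonneg (fun S _ => by positivity)
  have hWle : W ≤ 1 - μ ^ 2 := sum_fhat_sq_le f T hT
  have hμ1 : 0 ≤ 1 + μ ∧ 0 ≤ 1 - μ := by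
    have : μ ^ 2 ≤ 1 := by linarith
    have := abs_le_one_iff_mul_self_le_one.mpr (by nlinarith : μ * μ ≤ 1)
    rw [abs_le] at this
    constructor <;> linarith
  calc ∑ S ∈ T, mutualInfo (law n ε) (fun ω => f ω.1) (fun ω => ∏ i ∈ S, noisy ω i)
      ≤ ∑ S ∈ T, (fhat f S ^ 2 * ψ / (4 * (1 + μ)) + fhat f S ^ 2 * ψ / (4 * (1 - μ)))
          / Real.log 2 :=
        Finset.sum_le_sum (fun S hS => mutualInfo_parity_le f ε h0 h1 S (hT S hS))
    _ = (W * ψ / (4 * (1 + μ)) + W * ψ / (4 * (1 - μ))) / Real.log 2 := by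
        rw [← Finset.sum_div, Finset.sum_add_distrib, hW, Finset.sum_mul, Finset.sum_div,
          Finset.sum_div]
    _ ≤ ((1 - μ) * ψ / 4 + (1 + μ) * ψ / 4) / Real.log 2 := by
        have a1 : W * ψ / (4 * (1 + μ)) ≤ (1 - μ) * ψ / 4 := by
          apply div_le_of_le_mul₀ (by linarith [hμ1.1]) (by
            have := mul_nonneg hμ1.2 hψ0
            linarith)
          have : W * ψ ≤ (1 - μ ^ 2) * ψ := by gcongr
          nlinarith
        have a2 : W * ψ / (4 * (1 - μ)) ≤ (1 + μ) * ψ / 4 := by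
          apply div_le_of_le_mul₀ (by linarith [hμ1.2]) (by
            have := mul_nonneg hμ1.1 hψ0
            linarith)
          have : W * ψ ≤ (1 - μ ^ 2) * ψ := by gcongr
          nlinarith
        gcongr
    _ = 1 - h2 ε := by
        rw [one_sub_h2 ε h0 h1]
        field_simp
        ring

end Vale.Agent.P322
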