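import Mathlib
import Vale.Agent.P322.Defs
import Vale.Agent.P322.Analytic
import Vale.Agent.P322.Fourier
import Vale.Agent.P322.Parity

/-!
Tensorised strong data processing inequality for the entropy functional on the cube.
-/

namespace Vale.Agent.P322

open Finset

/-- `ell u = u log u`. -/
noncomputable def ell (u : ℝ) : ℝ := u * Real.log u

@[simp] theorem ell_zero : ell 0 = 0 := by simp [ell]
@[simp] theorem ell_one : ell 1 = 0 := by simp [ell]

theorem ell_mul {M u : ℝ} (hM : 0 < M) (hu : 0 ≤ u) : ell (M * u) = M * ell u + u * ell M := by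
  unfold ell
  rcases hu.eq_or_lt with h | h
  · rw [← h]; simp
  · rw [Real.log_mul hM.ne' h.ne']; ring

/-- two term log-sum inequality -/
theorem log_sum {a₁ a₂ s₁ s₂ : ℝ} (ha₁ : 0 ≤ a₁) (ha₂ : 0 ≤ a₂) (hs₁ : 0 < s₁) (hs₂ : 0 < s₂) :
    (a₁ + a₂) * Real.log ((a₁ + a₂) / (s₁ + s₂))
      ≤ a₁ * Real.log (a₁ / s₁) + a₂ * Real.log (a₂ / s₂) := by
  have hs : 0 < s₁ + s₂ := by positivity
  have hx : a₁ / s₁ ∈ Set.Ici (0 : ℝ) := by simp only [Set.mem_Ici]; positivity
  have hy : a₂ / s₂ ∈ Set.Ici (0 : ℝ) := by simp only [Set.mem_Ici]; positivity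
  have hwa : 0 ≤ s₁ / (s₁ + s₂) := by positivity
  have hwb : 0 ≤ s₂ / (s₁ + s₂) := by positivity
  have hwab : s₁ / (s₁ + s₂) + s₂ / (s₁ + s₂) = 1 := by field_simp
  have hconv := Real.convexOn_mul_log.2 hx hy hwa hwb hwab
  simp only [smul_eq_mul] at hconv
  have e1 : s₁ / (s₁ + s₂) * (a₁ / s₁) + s₂ / (s₁ + s₂) * (a₂ / s₂) = (a₁ + a₂) / (s₁ + s₂) := by
    field_simp
  rw [e1] at hconv
  have h2 := mul_le_mul_of_nonneg_left hconv hs.le
  have e2 : (s₁ + s₂) * ((a₁ + a₂) / (s₁ + s₂) * Real.log ((a₁ + a₂) / (s₁ + s₂)))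
      = (a₁ + a₂) * Real.log ((a₁ + a₂) / (s₁ + s₂)) := by
    field_simp
  have e3 : (s₁ + s₂) * (s₁ / (s₁ + s₂) * (a₁ / s₁ * Real.log (a₁ / s₁))
      + s₂ / (s₁ + s₂) * (a₂ / s₂ * Real.log (a₂ / s₂)))
      = a₁ * Real.log (a₁ / s₁) + a₂ * Real.log (a₂ / s₂) := by
    field_simp
  rw [e2, e3] at h2
  exact h2

/-- two point entropy -/
noncomputable def kap (a b : ℝ) : ℝ := ell a / 2 + ell b / 2 - ell ((a + b) / 2)

theorem kap_eq {M t : ℝ} (hM : 0 < M) (ht : |t| ≤ 1) :
    kap (M * (1 + t)) (M * (1 - t)) = M / 2 * psi2 t := by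
  have h1 : 0 ≤ 1 + t := by linarith [(abs_le.mp ht).1]
  have h2 : 0 ≤ 1 - t := by linarith [(abs_le.mp ht).2]
  unfold kap
  rw [ell_mul hM h1, ell_mul hM h2]
  have : (M * (1 + t) + M * (1 - t)) / 2 = M := by ring
  rw [this]
  unfold psi2 ell
  ring

/-- two point strong data processing inequality -/
theorem kap_noise {a b ε : ℝ} (ha : 0 ≤ a) (hb : 0 ≤ b) (h0 : 0 ≤ ε) (h1 : ε ≤ 1) :
    kap ((1 - ε) * a + ε * b) (ε * a + (1 - ε) * b) ≤ (1 - 2 * ε) ^ 2 * kap a b := by
  rcases (add_nonneg ha hb).eq_or_lt with h | h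
  · have ha0 : a = 0 := by linarith
    have hb0 : b = 0 := by linarith
    subst ha0; subst hb0
    simp [kap]
  · set M := (a + b) / 2 with hM
    have hMpos : 0 < M := by positivity
    set t := (a - b) / (a + b) with ht
    have htabs : |t| ≤ 1 := by
      rw [ht, abs_div, abs_of_pos h, div_le_one h, abs_le]
      constructor <;> linarith
    have ea : a = M * (1 + t) := by rw [hM, ht]; field_simp; ring
    have eb : b = M * (1 - t) := by rw [hM, ht]; field_simp; ring
    have hr : |1 - 2 * ε| ≤ 1 := by rw [abs_le]; constructor <;> linarith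
    have hrt : |(1 - 2 * ε) * t| ≤ 1 := by
      rw [abs_mul]
      calc |1 - 2 * ε| * |t| ≤ 1 * 1 := by gcongr
        _ = 1 := one_mul 1
    have e1 : (1 - ε) * a + ε * b = M * (1 + (1 - 2 * ε) * t) := by
      rw [ea, eb]; ring
    have e2 : ε * a + (1 - ε) * b = M * (1 - (1 - 2 * ε) * t) := by
      rw [ea, eb]; ring
    rw [e1, e2, kap_eq hMpos hrt]
    conv_rhs => rw [ea, eb, kap_eq hMpos htabs]
    have := psi2_mul_le hr htabs
    calc M / 2 * psi2 ((1 - 2 * ε) * t) ≤ M / 2 * ((1 - 2 * ε) ^ 2 * psi2 t) := by gcongr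
      _ = (1 - 2 * ε) ^ 2 * (M / 2 * psi2 t) := by ring

variable {n : ℕ}

/-- entropy functional of a nonnegative function on the cube -/
noncomputable def Ent (G : Cube n → ℝ) : ℝ := mean (fun x => ell (G x)) - ell (mean G)

theorem mean_eq_zero_imp {G : Cube n → ℝ} (hG : ∀ x, 0 ≤ G x) (h : mean G = 0) (x : Cube n) :
    G x = 0 := by
  unfold mean at h
  have h2 : ∑ x, G x = 0 := by
    rcases mul_eq_zero.mp h with h' | h'
    · exact absurd h' (by positivity)
    · exact h'
  exact (Finset.sum_eq_zero_iff_of_nonneg (fun x _ => hG x)).mp h2 x (Finset.mem_univ x)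

theorem mean_le_mean {G H : Cube n → ℝ} (h : ∀ x, G x ≤ H x) : mean G ≤ mean H := by
  unfold mean
  exact mul_le_mul_of_nonneg_left (Finset.sum_le_sum (fun x _ => h x)) (by positivity)

/-- `Ent G` as the mean of `G log (G / mean G)`. -/
theorem Ent_eq {G : Cube n → ℝ} (hG : ∀ x, 0 ≤ G x) :
    Ent G = mean (fun x => G x * Real.log (G x / mean G)) := by
  unfold Ent
  have hM : 0 ≤ mean G := mean_nonneg hG
  rcases hM.eq_or_lt with h | h
  · have hz := mean_eq_zero_imp hG h.symm
    simp [hz, ← h, mean_const]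
  · have e : (fun x => G x * Real.log (G x / mean G))
        = fun x => ell (G x) + (-Real.log (mean G)) * G x := by
      funext x
      rcases (hG x).eq_or_lt with h' | h'
      · rw [← h']; simp
      · rw [Real.log_div h'.ne' h.ne']; unfold ell; ring
    rw [e, mean_add, mean_mul_left]
    unfold ell
    ring

/-- convexity of the entropy functional -/
theorem Ent_convex {u v : Cube n → ℝ} (hu : ∀ x, 0 ≤ u x) (hv : ∀ x, 0 ≤ v x) {l : ℝ}
    (hl0 : 0 ≤ l) (hl1 : l ≤ 1) :
    Ent (fun x => l * u x + (1 - l) * v x) ≤ l * Ent u + (1 - l) * Ent v := by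
  have hl' : 0 ≤ 1 - l := by linarith
  rcases hl0.eq_or_lt with h | hlpos
  · rw [← h]; simp
  rcases hl'.eq_or_lt with h | hlpos'
  · have : l = 1 := by linarith
    rw [this]; simp
  have hMu : 0 ≤ mean u := mean_nonneg hu
  have hMv : 0 ≤ mean v := mean_nonneg hv
  rcases hMu.eq_or_lt with h | hMu'
  · -- u = 0
    have hz := mean_eq_zero_imp hu h.symm
    have e1 : (fun x => l * u x + (1 - l) * v x) = fun x => (1 - l) * v x := by
      funext x; rw [hz x]; ring
    have e2 : Ent u = 0 := by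
      unfold Ent; simp [hz, mean_const, ← h]
    rw [e1, e2]
    unfold Ent
    rw [mean_mul_left]
    have e3 : (fun x => ell ((1 - l) * v x)) = fun x => (1 - l) * ell (v x) + ell (1 - l) * v x := by
      funext x; rw [ell_mul hlpos' (hv x)]; ring
    rw [e3, mean_add, mean_mul_left, mean_mul_left, ell_mul hlpos' hMv]
    linarith
  rcases hMv.eq_or_lt with h | hMv'
  · have hz := mean_eq_zero_imp hv h.symm
    have e1 : (fun x => l * u x + (1 - l) * v x) = fun x => l * u x := by
      funext x; rw [hz x]; ring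
    have e2 : Ent v = 0 := by
      unfold Ent; simp [hz, mean_const, ← h]
    rw [e1, e2]
    unfold Ent
    rw [mean_mul_left]
    have e3 : (fun x => ell (l * u x)) = fun x => l * ell (u x) + ell l * u x := by
      funext x; rw [ell_mul hlpos (hu x)]; ring
    rw [e3, mean_add, mean_mul_left, mean_mul_left, ell_mul hlpos hMu]
    linarith
  have hG : ∀ x, 0 ≤ l * u x + (1 - l) * v x := fun x =>
    add_nonneg (mul_nonneg hl0 (hu x)) (mul_nonneg hl' (hv x))
  rw [Ent_eq hG, Ent_eq hu, Ent_eq hv, ← mean_mul_left, ← mean_mul_left, ← mean_add]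
  apply mean_le_mean
  intro x
  have hm : mean (fun x => l * u x + (1 - l) * v x) = l * mean u + (1 - l) * mean v := by
    rw [mean_add, mean_mul_left, mean_mul_left]
  rw [hm]
  have := log_sum (mul_nonneg hl0 (hu x)) (mul_nonneg hl' (hv x))
    (mul_pos hlpos hMu') (mul_pos hlpos' hMv')
  have c1 : l * u x / (l * mean u) = u x / mean u := by field_simp
  have c2 : (1 - l) * v x / ((1 - l) * mean v) = v x / mean v := by
    rw [mul_div_mul_left _ _ hlpos'.ne']
  rw [c1, c2] at this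
  linarith

end Vale.Agent.P322
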