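import Mathlib
import Vale.Agent.P322.SDPI

/-!
The noise operator on the cube and the tensorised strong data processing inequality.
-/

namespace Vale.Agent.P322

open Finset

/-- weight of one noise sign -/
noncomputable def wt (ε : ℝ) (c : ℤˣ) : ℝ := if c = -1 then ε else 1 - ε

@[simp] theorem wt_one (ε : ℝ) : wt ε 1 = 1 - ε := by
  unfold wt; rw [if_neg (by decide)]
@[simp] theorem wt_neg_one (ε : ℝ) : wt ε (-1) = ε := by
  unfold wt; rw [if_pos rfl]

/-- weight of a noise vector -/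
noncomputable def wn (n : ℕ) (ε : ℝ) (z : Cube n) : ℝ := ∏ i, wt ε (z i)

/-- the noise operator -/
noncomputable def Tn {n : ℕ} (ε : ℝ) (G : Cube n → ℝ) (y : Cube n) : ℝ :=
  ∑ z, wn n ε z * G (y * z)

variable {n : ℕ}

theorem sum_cons (F : Cube (n + 1) → ℝ) :
    ∑ z, F z = ∑ z' : Cube n, F (Fin.cons 1 z') + ∑ z' : Cube n, F (Fin.cons (-1) z') := by
  have h := (Fin.consEquiv (fun _ : Fin (n + 1) => ℤˣ)).sum_comp F
  rw [← h, Fintype.sum_prod_type, sum_units]
  rfl

theorem wn_cons (ε : ℝ) (c : ℤˣ) (z' : Cube n) :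
    wn (n + 1) ε (Fin.cons c z') = wt ε c * wn n ε z' := by
  unfold wn
  rw [Fin.prod_univ_succ]
  simp

theorem cons_mul_cons (b c : ℤˣ) (y' z' : Cube n) :
    (Fin.cons b y' : Cube (n + 1)) * (Fin.cons c z' : Cube (n + 1)) = Fin.cons (b * c) (y' * z') := by
  funext i
  refine Fin.cases ?_ (fun j => ?_) i
  · simp
  · simp

theorem mean_cons (F : Cube (n + 1) → ℝ) :
    mean F = (mean (fun x' : Cube n => F (Fin.cons 1 x'))
      + mean (fun x' : Cube n => F (Fin.cons (-1) x'))) / 2 := by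
  unfold mean
  rw [sum_cons, pow_succ]
  ring

theorem wn_total (ε : ℝ) : ∑ z : Cube n, wn n ε z = 1 := by
  have h := noise_total (n := n) ε
  unfold wn wt
  exact h

theorem wn_nonneg {ε : ℝ} (h0 : 0 ≤ ε) (h1 : ε ≤ 1) (z : Cube n) : 0 ≤ wn n ε z := by
  unfold wn
  apply Finset.prod_nonneg
  intro i _
  unfold wt
  split_ifs
  · exact h0
  · linarith

theorem Tn_nonneg {ε : ℝ} (h0 : 0 ≤ ε) (h1 : ε ≤ 1) {G : Cube n → ℝ} (hG : ∀ x, 0 ≤ G x)
    (y : Cube n) : 0 ≤ Tn ε G y := by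
  unfold Tn
  exact Finset.sum_nonneg (fun z _ => mul_nonneg (wn_nonneg h0 h1 z) (hG _))

theorem mean_Tn (ε : ℝ) (G : Cube n → ℝ) : mean (Tn ε G) = mean G := by
  unfold mean Tn
  congr 1
  rw [Finset.sum_comm]
  have : ∀ z : Cube n, ∑ y : Cube n, wn n ε z * G (y * z) = wn n ε z * ∑ y, G y := by
    intro z
    rw [← Finset.mul_sum]
    congr 1
    exact Equiv.sum_comp (Equiv.mulRight z) G
  rw [Finset.sum_congr rfl (fun z _ => this z), ← Finset.sum_mul, wn_total, one_mul]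

theorem Tn_add (ε : ℝ) (G H : Cube n → ℝ) :
    Tn ε (fun x => G x + H x) = fun y => Tn ε G y + Tn ε H y := by
  funext y
  unfold Tn
  rw [← Finset.sum_add_distrib]
  exact Finset.sum_congr rfl (fun z _ => by ring)

theorem Tn_mul_left (ε c : ℝ) (G : Cube n → ℝ) :
    Tn ε (fun x => c * G x) = fun y => c * Tn ε G y := by
  funext y
  unfold Tn
  rw [Finset.mul_sum]
  exact Finset.sum_congr rfl (fun z _ => by ring)

/-- slices of the noise operator -/
theorem Tn_cons (ε : ℝ) (G : Cube (n + 1) → ℝ) (b : ℤˣ) (y' : Cube n) :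
    Tn ε G (Fin.cons b y')
      = Tn ε (fun x' => (1 - ε) * G (Fin.cons b x') + ε * G (Fin.cons (-b) x')) y' := by
  rw [Tn_add, Tn_mul_left, Tn_mul_left]
  unfold Tn
  rw [sum_cons]
  simp only [wn_cons, cons_mul_cons, wt_one, wt_neg_one, mul_one, mul_neg, Finset.mul_sum]
  congr 1 <;> exact Finset.sum_congr rfl (fun z _ => by ring)

theorem Ent_cons (F : Cube (n + 1) → ℝ) :
    Ent F = (Ent (fun x' : Cube n => F (Fin.cons 1 x'))
        + Ent (fun x' : Cube n => F (Fin.cons (-1) x'))) / 2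
      + kap (mean (fun x' : Cube n => F (Fin.cons 1 x')))
          (mean (fun x' : Cube n => F (Fin.cons (-1) x'))) := by
  unfold Ent kap
  rw [mean_cons, mean_cons F]
  ring

theorem Ent_zero_dim (F : Cube 0 → ℝ) : Ent F = 0 := by
  unfold Ent mean
  simp

/-- Tensorised strong data processing inequality. -/
theorem sdpi {ε : ℝ} (h0 : 0 ≤ ε) (h1 : ε ≤ 1) :
    ∀ (n : ℕ) (G : Cube n → ℝ), (∀ x, 0 ≤ G x) → Ent (Tn ε G) ≤ (1 - 2 * ε) ^ 2 * Ent G := by
  intro n
  induction n with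
  | zero =>
    intro G _
    rw [Ent_zero_dim, Ent_zero_dim]
    simp
  | succ n ih =>
    intro G hG
    set Gp : Cube n → ℝ := fun x' => G (Fin.cons 1 x') with hGp
    set Gm : Cube n → ℝ := fun x' => G (Fin.cons (-1) x') with hGm
    have hGp0 : ∀ x, 0 ≤ Gp x := fun x => hG _
    have hGm0 : ∀ x, 0 ≤ Gm x := fun x => hG _
    set Hp : Cube n → ℝ := fun x' => (1 - ε) * Gp x' + ε * Gm x' with hHp
    set Hm : Cube n → ℝ := fun x' => (1 - ε) * Gm x' + ε * Gp x' with hHm
    have h1' : 0 ≤ 1 - ε := by linarith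
    have hHp0 : ∀ x, 0 ≤ Hp x := fun x =>
      add_nonneg (mul_nonneg h1' (hGp0 x)) (mul_nonneg h0 (hGm0 x))
    have hHm0 : ∀ x, 0 ≤ Hm x := fun x =>
      add_nonneg (mul_nonneg h1' (hGm0 x)) (mul_nonneg h0 (hGp0 x))
    have sp : (fun x' : Cube n => Tn ε G (Fin.cons 1 x')) = Tn ε Hp := by
      funext y'
      rw [Tn_cons]
    have sm : (fun x' : Cube n => Tn ε G (Fin.cons (-1) x')) = Tn ε Hm := by
      funext y'
      rw [Tn_cons]
      simp only [neg_neg]
      rfl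
    rw [Ent_cons (Tn ε G), sp, sm, mean_Tn, mean_Tn, Ent_cons G]
    have ip := ih Hp hHp0
    have im := ih Hm hHm0
    have cp : Ent Hp ≤ (1 - ε) * Ent Gp + ε * Ent Gm := by
      have := Ent_convex hGp0 hGm0 (l := 1 - ε) h1' (by linarith)
      simpa [hHp] using this
    have cm : Ent Hm ≤ (1 - ε) * Ent Gm + ε * Ent Gp := by
      have := Ent_convex hGm0 hGp0 (l := 1 - ε) h1' (by linarith)
      simpa [hHm] using this
    have mp : mean Hp = (1 - ε) * mean Gp + ε * mean Gm := by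
      rw [hHp, mean_add, mean_mul_left, mean_mul_left]
    have mm : mean Hm = ε * mean Gp + (1 - ε) * mean Gm := by
      rw [hHm, mean_add, mean_mul_left, mean_mul_left]; ring
    have hk := kap_noise (mean_nonneg hGp0) (mean_nonneg hGm0) h0 h1
    rw [mp, mm]
    have hr : 0 ≤ (1 - 2 * ε) ^ 2 := by positivity
    nlinarith [mul_le_mul_of_nonneg_left cp hr, mul_le_mul_of_nonneg_left cm hr]

end Vale.Agent.P322
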