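import Mathlib
import Vale.Agent.P322.SDPI2

/-!
The mutual information `I(f(X);Y)` in terms of the entropy functional, and the resulting bounds.
-/

namespace Vale.Agent.P322

open Finset

variable {n : ℕ}

/-- indicator of the level set `f = a` -/
noncomputable def ind (f : Cube n → ℤˣ) (a : ℤˣ) (x : Cube n) : ℝ := if f x = a then 1 else 0

theorem ind_nonneg (f : Cube n → ℤˣ) (a : ℤˣ) (x : Cube n) : 0 ≤ ind f a x := by
  unfold ind; split_ifs <;> norm_num

theorem mul_self_cube (z : Cube n) : z * z = 1 := by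
  funext i
  exact Int.units_mul_self (z i)

theorem noisy_eq_iff (x z y : Cube n) : noisy (x, z) = y ↔ x = y * z := by
  have h : noisy (x, z) = x * z := rfl
  rw [h]
  constructor
  · intro h'
    rw [← h', mul_assoc, mul_self_cube, mul_one]
  · intro h'
    rw [h', mul_assoc, mul_self_cube, mul_one]

theorem law_eq (ε : ℝ) (x z : Cube n) : law n ε (x, z) = (1 / 2) ^ n * wn n ε z := rfl

theorem prob_joint_full (f : Cube n → ℤˣ) (ε : ℝ) (a : ℤˣ) (y : Cube n) :
    prob (law n ε) (fun ω => f ω.1 = a ∧ noisy ω = y) = (1 / 2) ^ n * Tn ε (ind f a) y := by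
  unfold prob Tn
  rw [Fintype.sum_prod_type_right, Finset.mul_sum]
  refine Finset.sum_congr rfl (fun z _ => ?_)
  have h : ∀ x : Cube n, (if f (x, z).1 = a ∧ noisy (x, z) = y then law n ε (x, z) else 0)
      = if x = y * z then (1 / 2) ^ n * (wn n ε z * ind f a (y * z)) else 0 := by
    intro x
    rw [law_eq]
    by_cases hx : x = y * z
    · have hy : noisy (x, z) = y := (noisy_eq_iff x z y).mpr hx
      subst hx
      unfold ind
      by_cases hf : f (y * z) = a <;> simp [hf, hy]
    · have hy : ¬ noisy (x, z) = y := fun h => hx ((noisy_eq_iff x z y).mp h)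
      simp [hx, hy]
  rw [Finset.sum_congr rfl (fun x _ => h x), Finset.sum_ite_eq' Finset.univ (y * z)]
  simp

theorem prob_noisy (ε : ℝ) (y : Cube n) :
    prob (law n ε) (fun ω => noisy ω = y) = (1 / 2) ^ n := by
  unfold prob
  rw [Fintype.sum_prod_type_right]
  have h : ∀ z : Cube n, ∑ x : Cube n, (if noisy (x, z) = y then law n ε (x, z) else 0)
      = (1 / 2) ^ n * wn n ε z := by
    intro z
    have h' : ∀ x : Cube n, (if noisy (x, z) = y then law n ε (x, z) else 0)
        = if x = y * z then (1 / 2) ^ n * wn n ε z else 0 := by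
      intro x
      rw [law_eq]
      by_cases hx : x = y * z
      · have hy : noisy (x, z) = y := (noisy_eq_iff x z y).mpr hx
        rw [if_pos hy, if_pos hx]
      · have hy : ¬ noisy (x, z) = y := fun h => hx ((noisy_eq_iff x z y).mp h)
        simp [hx, hy]
    rw [Finset.sum_congr rfl (fun x _ => h' x), Finset.sum_ite_eq' Finset.univ (y * z)]
    simp
  rw [Finset.sum_congr rfl (fun z _ => h z), ← Finset.mul_sum, wn_total, mul_one]

theorem prob_f_ind (f : Cube n → ℤˣ) (ε : ℝ) (a : ℤˣ) :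
    prob (law n ε) (fun ω => f ω.1 = a) = mean (ind f a) := by
  rw [prob_eq_sum]
  exact law_sum' ε (ind f a)

/-- `I(f(X);Y)` is the sum of the entropies of the noisy level set indicators. -/
theorem mutualInfo_full (f : Cube n → ℤˣ) {ε : ℝ} (h0 : 0 ≤ ε) (h1 : ε ≤ 1) :
    mutualInfo (law n ε) (fun ω => f ω.1) (fun ω => noisy ω)
      = (Ent (Tn ε (ind f 1)) + Ent (Tn ε (ind f (-1)))) / Real.log 2 := by
  unfold mutualInfo
  simp only [prob_joint_full, prob_noisy, prob_f_ind]
  rw [sum_units]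
  have key : ∀ a : ℤˣ, ∑ y : Cube n, (1 / 2 : ℝ) ^ n * Tn ε (ind f a) y *
      Real.logb 2 ((1 / 2 : ℝ) ^ n * Tn ε (ind f a) y / (mean (ind f a) * (1 / 2 : ℝ) ^ n))
      = Ent (Tn ε (ind f a)) / Real.log 2 := by
    intro a
    rw [Ent_eq (Tn_nonneg h0 h1 (ind_nonneg f a)), mean_Tn]
    set q := mean (ind f a) with hq
    unfold mean
    rw [Finset.mul_sum, Finset.sum_div]
    refine Finset.sum_congr rfl (fun y _ => ?_)
    have hc : ((1 / 2 : ℝ) ^ n) ≠ 0 := by positivity
    have e : (1 / 2 : ℝ) ^ n * Tn ε (ind f a) y / (q * (1 / 2 : ℝ) ^ n)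
        = Tn ε (ind f a) y / q := by
      rw [mul_comm q, mul_div_mul_left _ _ hc]
    rw [e]
    unfold Real.logb
    ring
  rw [key 1, key (-1)]
  ring

end Vale.Agent.P322
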