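import Mathlib
import Vale.Agent.P322.Link

/-!
Consequences of the strong data processing inequality for `I(f(X);Y)`.
-/

namespace Vale.Agent.P322

open Finset

variable {n : ℕ}

theorem Ent_ind (f : Cube n → ℤˣ) (a : ℤˣ) : Ent (ind f a) = - ell (mean (ind f a)) := by
  unfold Ent
  have : (fun x => ell (ind f a x)) = fun _ => (0 : ℝ) := by
    funext x
    unfold ind
    split_ifs <;> simp
  rw [this, mean_const]
  ring

theorem mean_ind (f : Cube n → ℤˣ) (a : ℤˣ) : mean (ind f a) = (1 + sg a * fhat f ∅) / 2 := by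
  have h : ind f a = fun x => (1 / 2 : ℝ) + (sg a / 2) * sg (f x) := by
    funext x
    unfold ind
    rw [ind_eq]
    ring
  rw [h, mean_add, mean_const, mean_mul_left, fhat_empty]
  ring

theorem mean_ind_card (f : Cube n → ℤˣ) (a : ℤˣ) :
    mean (ind f a) = ((Finset.univ.filter (fun x => f x = a)).card : ℝ) / 2 ^ n := by
  unfold mean ind
  rw [Finset.sum_boole]
  rw [one_div, inv_pow]
  ring

theorem fhat_empty_abs_le (f : Cube n → ℤˣ) : |fhat f ∅| ≤ 1 := by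
  have h := sum_fhat_sq_le f ∅ (by simp)
  simp at h
  exact h

/-- the strong data processing bound, in nats, in terms of the mean of `f`. -/
theorem mutualInfo_le_mu (f : Cube n → ℤˣ) {ε : ℝ} (h0 : 0 ≤ ε) (h1 : ε ≤ 1) :
    mutualInfo (law n ε) (fun ω => f ω.1) (fun ω => noisy ω)
      ≤ (1 - 2 * ε) ^ 2 * (Real.log 2 - psi2 (fhat f ∅) / 2) / Real.log 2 := by
  have hl2 : 0 < Real.log 2 := by positivity
  rw [mutualInfo_full f h0 h1]
  have s1 := sdpi h0 h1 n (ind f 1) (ind_nonneg f 1)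
  have s2 := sdpi h0 h1 n (ind f (-1)) (ind_nonneg f (-1))
  rw [Ent_ind, mean_ind] at s1 s2
  have hμ := abs_le.mp (fhat_empty_abs_le f)
  set μ := fhat f ∅ with hμdef
  have e1 : ell ((1 + sg 1 * μ) / 2) = (1 / 2) * ell (1 + μ) + (1 + μ) * ell (1 / 2) := by
    rw [← ell_mul (by norm_num) (by linarith)]
    congr 1
    simp
    ring
  have e2 : ell ((1 + sg (-1) * μ) / 2) = (1 / 2) * ell (1 - μ) + (1 - μ) * ell (1 / 2) := by
    rw [← ell_mul (by norm_num) (by linarith)]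
    congr 1
    simp
    ring
  have e3 : ell (1 / 2) = -(Real.log 2) / 2 := by
    unfold ell
    rw [one_div, Real.log_inv]
    ring
  have e4 : psi2 μ = ell (1 + μ) + ell (1 - μ) := rfl
  rw [e1, e3] at s1
  rw [e2, e3] at s2
  gcongr
  rw [e4]
  nlinarith

theorem h2_eq_ell (p : ℝ) : h2 p = (- ell p - ell (1 - p)) / Real.log 2 := by
  unfold h2 ell Real.logb
  ring

/-- the strong data processing bound `I(f(X);Y) ≤ (1-2ε)^2 h2(P(f=1))`. -/
theorem mutualInfo_le_sdpi (f : Cube n → ℤˣ) {ε : ℝ} (h0 : 0 ≤ ε) (h1 : ε ≤ 1) :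
    mutualInfo (law n ε) (fun ω => f ω.1) (fun ω => noisy ω)
      ≤ (1 - 2 * ε) ^ 2 * h2 (((Finset.univ.filter (fun x => f x = 1)).card : ℝ) / 2 ^ n) := by
  have hl2 : 0 < Real.log 2 := by positivity
  rw [mutualInfo_full f h0 h1, ← mean_ind_card, h2_eq_ell]
  have s1 := sdpi h0 h1 n (ind f 1) (ind_nonneg f 1)
  have s2 := sdpi h0 h1 n (ind f (-1)) (ind_nonneg f (-1))
  rw [Ent_ind] at s1 s2
  have hsum : mean (ind f (-1)) = 1 - mean (ind f 1) := by
    rw [mean_ind, mean_ind]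
    simp
    ring
  rw [hsum] at s2
  rw [← mul_div_assoc]
  gcongr
  nlinarith

theorem psi2_lower3_aux {t : ℝ} (ht : |t| < 1) : t ^ 2 + t ^ 4 / 6 + t ^ 6 / 15 ≤ psi2 t := by
  have h := sum_le_hasSum (Finset.range 3) (fun k _ => by positivity) (psi2_hasSum ht)
  simp only [Finset.sum_range_succ, Finset.sum_range_zero] at h
  norm_num at h
  nlinarith [h]

theorem psi2_lower3 {t : ℝ} (ht : |t| ≤ 1) : t ^ 2 + t ^ 4 / 6 + t ^ 6 / 15 ≤ psi2 t := by
  have key : ∀ s ∈ Set.Ioo (-1 : ℝ) 1, s ^ 2 + s ^ 4 / 6 + s ^ 6 / 15 ≤ psi2 s := by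
    intro s hs
    exact psi2_lower3_aux (abs_lt.mpr ⟨hs.1, hs.2⟩)
  have hcl : t ∈ closure (Set.Ioo (-1 : ℝ) 1) := by
    rw [closure_Ioo (by norm_num)]
    exact ⟨(abs_le.mp ht).1, (abs_le.mp ht).2⟩
  refine le_on_closure key ?_ psi2_continuous.continuousOn hcl
  exact (by fun_prop : Continuous fun s : ℝ => s ^ 2 + s ^ 4 / 6 + s ^ 6 / 15).continuousOn

/-- The Courtade-Kumar inequality for biased functions. -/
theorem ck_biased (f : Cube n → ℤˣ) {ε : ℝ} (h0 : 0 ≤ ε) (h1 : ε ≤ 1 / 2)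
    (hb : (602 / 1000 : ℝ) ≤ |fhat f ∅|) :
    mutualInfo (law n ε) (fun ω => f ω.1) (fun ω => noisy ω) ≤ 1 - h2 ε := by
  have hl2 : 0 < Real.log 2 := by positivity
  refine le_trans (mutualInfo_le_mu f h0 (by linarith)) ?_
  rw [one_sub_h2 ε h0 h1]
  have hμ := fhat_empty_abs_le f
  set μ := fhat f ∅ with hμdef
  set r := 1 - 2 * ε with hr
  have hrabs : |r| ≤ 1 := by rw [abs_le]; constructor <;> linarith
  have l1 := psi2_lower3 hμ
  have l2 := psi2_lower3 hrabs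
  have hs : (602 / 1000 : ℝ) ^ 2 ≤ μ ^ 2 := by
    rw [← sq_abs μ]
    gcongr
  have hlog : Real.log 2 < 0.6931471808 := Real.log_two_lt_d9
  have hpsi : 2 * Real.log 2 - 1 ≤ psi2 μ := by
    have h4 : ((602 / 1000 : ℝ) ^ 2) ^ 2 ≤ μ ^ 4 := by
      have : μ ^ 4 = (μ ^ 2) ^ 2 := by ring
      rw [this]; gcongr
    have h6 : ((602 / 1000 : ℝ) ^ 2) ^ 3 ≤ μ ^ 6 := by
      have : μ ^ 6 = (μ ^ 2) ^ 3 := by ring
      rw [this]; gcongr
    norm_num at hs h4 h6 hlog ⊢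
    linarith
  have hr2 : r ^ 2 ≤ psi2 r := by
    have : 0 ≤ r ^ 4 / 6 + r ^ 6 / 15 := by positivity
    linarith
  rw [div_le_div_iff₀ hl2 (by positivity)]
  have hr0 : 0 ≤ r ^ 2 := by positivity
  have : r ^ 2 * (Real.log 2 - psi2 μ / 2) ≤ psi2 r / 2 := by nlinarith
  nlinarith

end Vale.Agent.P322
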