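import Vale.Agent.P322.BMScalar
import Vale.Agent.P322.BMIdent
import Vale.Agent.P322.BMEnt
import Vale.Agent.P322.BMLower
import Vale.Agent.P322.Biased

/-!
The one-step (single-letter) inequality of the potential-function induction.
-/

namespace Vale.Agent.P322

open Real

variable {n : ℕ}

theorem psi2_le_sq {t : ℝ} (ht : |t| ≤ 1) : psi2 t ≤ t ^ 2 * psi2 1 := by
  have := psi2_mul_le (x := t) (r := 1) ht (by simp)
  simpa using this

theorem psi2_le_one {t : ℝ} (ht : |t| ≤ 1) : psi2 t ≤ psi2 1 := by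
  have h := psi2_le_sq ht
  have h2 : t ^ 2 ≤ 1 := by
    have := pow_le_one₀ (abs_nonneg t) ht (n := 2)
    rwa [sq_abs] at this
  nlinarith [psi2_one_pos]

theorem sq_le_psi2 {t : ℝ} (ht : |t| ≤ 1) : t ^ 2 ≤ psi2 t := by
  have := psi2_lower3 ht
  have h4 : 0 ≤ t ^ 4 := by positivity
  have h6 : 0 ≤ t ^ 6 := by positivity
  linarith

theorem abs_le_c {P D : ℝ} (h : |P| + |D| ≤ 1) : |D| ≤ 1 - P ^ 2 := by
  have h0 := abs_nonneg P
  have h1 := abs_nonneg D
  have : P ^ 2 = |P| ^ 2 := (sq_abs P).symm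
  rw [this]
  nlinarith

theorem K2_noise_le' {P D r : ℝ} (h : |P| + |D| ≤ 1) (hr : |r| ≤ 1) :
    K2 P (r * D) ≤ psi2 r * (D ^ 2 / (1 - P ^ 2)) := by
  by_cases hP : |P| < 1
  · exact K2_noise_le hP (by linarith) hr
  · have hD : D = 0 := by
      have : |D| ≤ 0 := by linarith [not_lt.mp hP]
      exact abs_eq_zero.mp (le_antisymm this (abs_nonneg D))
    subst hD
    simp [K2_zero]

theorem K2_lower' {P D : ℝ} (h : |P| + |D| ≤ 1) :
    (1 - P ^ 2) * psi2 (D / (1 - P ^ 2)) ≤ K2 P D := by
  by_cases hP : |P| < 1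
  · exact K2_lower hP (by linarith)
  · have hD : D = 0 := by
      have : |D| ≤ 0 := by linarith [not_lt.mp hP]
      exact abs_eq_zero.mp (le_antisymm this (abs_nonneg D))
    subst hD
    simp [K2_zero, psi2_zero]

theorem abs_mean_le {G : Cube n → ℝ} (h : ∀ x, |G x| ≤ 1) : |mean G| ≤ 1 := by
  rw [abs_le]
  constructor
  · have := mean_le_mean (G := fun _ : Cube n => (-1 : ℝ)) (H := G) (fun x => (abs_le.mp (h x)).1)
    rwa [mean_const] at this
  · have := mean_le_mean (G := G) (H := fun _ : Cube n => (1 : ℝ)) (fun x => (abs_le.mp (h x)).2)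
    rwa [mean_const] at this

theorem mean_sub (G H : Cube n → ℝ) : mean (fun x => G x - H x) = mean G - mean H := by
  have : (fun x => G x - H x) = fun x => G x + (-1) * H x := by
    funext x
    ring
  rw [this, mean_add, mean_mul_left]
  ring

/-- mean of a quadratic expression -/
theorem mean_quad (P : Cube n → ℝ) (α β γ : ℝ) :
    mean (fun x => α + β * P x + γ * (P x) ^ 2)
      = α + β * mean P + γ * mean (fun x => (P x) ^ 2) := by
  rw [mean_add, mean_add, mean_const, mean_mul_left, mean_mul_left]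

end Vale.Agent.P322
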