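import Vale.Agent.P322.DCDefs

/-!
Elementary facts on `ll`, `dcA`, `dcB`.
-/

namespace Vale.Agent.P322

open Real

theorem hh_neg (t : ℝ) : hh (-t) = hh t := by
  unfold hh
  rw [psi2_neg]

theorem hh_zero : hh 0 = psi2 1 := by
  unfold hh
  rw [psi2_zero, sub_zero]

theorem hh_one : hh 1 = 0 := by
  unfold hh
  ring

theorem hh_nonneg {t : ℝ} (ht : |t| ≤ 1) : 0 ≤ hh t := by
  unfold hh
  linarith [psi2_le_one ht]

/-- `hh P ≥ psi2 1 * (1 - P^2)` -/
theorem hh_lower {t : ℝ} (ht : |t| ≤ 1) : psi2 1 * (1 - t ^ 2) ≤ hh t := by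
  unfold hh
  linarith [psi2_le_sq ht]

/-- `ll x = hh x + x * dpsi x` -/
theorem ll_eq {x : ℝ} (hx : |x| < 1) : ll x = hh x + x * dpsi x := by
  obtain ⟨h1, h2⟩ := abs_lt.1 hx
  have ha : (1 + x) ≠ 0 := by linarith
  have hb : (1 - x) ≠ 0 := by linarith
  have e : 1 - x ^ 2 = (1 + x) * (1 - x) := by ring
  unfold ll hh dpsi psi2
  rw [e, Real.log_mul ha hb]
  ring

theorem ll_ge {x : ℝ} (hx : |x| < 1) : psi2 1 ≤ ll x := by
  have h2 : x ^ 2 < 1 := (sq_lt_one_iff_abs_lt_one x).2 hx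
  have h3 : Real.log (1 - x ^ 2) ≤ 0 :=
    Real.log_nonpos (by linarith) (by linarith [sq_nonneg x])
  unfold ll
  linarith

theorem ll_pos {x : ℝ} (hx : |x| < 1) : 0 < ll x :=
  lt_of_lt_of_le psi2_one_pos (ll_ge hx)

theorem ll_mono {x y : ℝ} (hx : 0 ≤ x) (hxy : x ≤ y) (hy : y < 1) : ll x ≤ ll y := by
  have h1 : y ^ 2 < 1 := by nlinarith
  have h2 : x ^ 2 ≤ y ^ 2 := by nlinarith
  have h3 : Real.log (1 - y ^ 2) ≤ Real.log (1 - x ^ 2) :=
    Real.log_le_log (by linarith) (by linarith)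
  unfold ll
  linarith

/-- `psi2` is monotone on `[0,1]` -/
theorem psi2_mono {x y : ℝ} (hx : 0 ≤ x) (hxy : x ≤ y) (hy : y ≤ 1) : psi2 x ≤ psi2 y := by
  rcases (le_trans hx hxy).eq_or_lt with h | hpos
  · have hx0 : x = 0 := le_antisymm (by rw [h]; exact hxy) hx
    rw [hx0, ← h]
  · have hq0 : 0 ≤ x / y := div_nonneg hx hpos.le
    have hq1 : x / y ≤ 1 := (div_le_one hpos).2 hxy
    have h1 := psi2_mul_le (x := x / y) (r := y) (by rw [abs_of_nonneg hq0]; exact hq1)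
      (by rw [abs_of_pos hpos]; exact hy)
    rw [div_mul_cancel₀ x hpos.ne'] at h1
    have h2 : 0 ≤ psi2 y := psi2_nonneg (by rw [abs_of_pos hpos]; exact hy)
    have h3 : (x / y) ^ 2 ≤ 1 := pow_le_one₀ hq0 hq1
    nlinarith

theorem dcA_pos {r s : ℝ} (hr0 : 0 < r) (hr1 : r < 1) (hs0 : 0 < s) (hs1 : s < 1) :
    0 < dcA r s := by
  have hrs0 : 0 < r * s := mul_pos hr0 hs0
  have hrs1 : r * s < 1 := by nlinarith
  unfold dcA
  exact div_pos (ll_pos (by rw [abs_of_pos hrs0]; exact hrs1)) (ll_pos (by rw [abs_of_pos hs0]; exact hs1))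

theorem dcA_le_one {r s : ℝ} (hr0 : 0 < r) (hr1 : r < 1) (hs0 : 0 < s) (hs1 : s < 1) :
    dcA r s ≤ 1 := by
  have hrs0 : 0 < r * s := mul_pos hr0 hs0
  have hrs : r * s ≤ s := by nlinarith
  unfold dcA
  rw [div_le_one (ll_pos (by rw [abs_of_pos hs0]; exact hs1))]
  exact ll_mono hrs0.le hrs hs1

/-- tangency at `x = s` (value) -/
theorem dcB_mul {r s : ℝ} (hr0 : 0 < r) (hr1 : r < 1) (hs0 : 0 < s) (hs1 : s < 1) :
    dcB r s * s = hh (r * s) - dcA r s * hh s := by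
  have hrs0 : 0 < r * s := mul_pos hr0 hs0
  have hrs1 : r * s < 1 := by nlinarith
  have habs : |s| < 1 := by rw [abs_of_pos hs0]; exact hs1
  have habrs : |r * s| < 1 := by rw [abs_of_pos hrs0]; exact hrs1
  have e1 := ll_eq habs
  have e2 := ll_eq habrs
  have e3 : dcA r s * ll s = ll (r * s) := by
    unfold dcA
    exact div_mul_cancel₀ _ (ll_pos habs).ne'
  have e4 : dcB r s * s = dcA r s * (s * dpsi s) - r * s * dpsi (r * s) := by
    unfold dcB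
    ring
  have e5 : s * dpsi s = ll s - hh s := by linarith
  have e6 : r * s * dpsi (r * s) = ll (r * s) - hh (r * s) := by linarith
  rw [e4, e5, e6, mul_sub, e3]
  ring

theorem dcB_nonneg {r s : ℝ} (hr0 : 0 < r) (hr1 : r < 1) (hs0 : 0 < s) (hs1 : s < 1) :
    0 ≤ dcB r s := by
  have hrs0 : 0 < r * s := mul_pos hr0 hs0
  have hrs : r * s ≤ s := by nlinarith
  have h1 := dcB_mul hr0 hr1 hs0 hs1
  have h2 := dcA_le_one hr0 hr1 hs0 hs1
  have h3 : 0 ≤ hh s := hh_nonneg (by rw [abs_of_pos hs0]; exact hs1.le)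
  have h4 : psi2 (r * s) ≤ psi2 s := psi2_mono hrs0.le hrs hs1.le
  have h5 : hh s ≤ hh (r * s) := by
    unfold hh
    linarith
  have h6 : dcA r s * hh s ≤ 1 * hh s := mul_le_mul_of_nonneg_right h2 h3
  have h7 : 0 ≤ dcB r s * s := by
    rw [h1]
    linarith
  exact nonneg_of_mul_nonneg_left h7 hs0

/-- concavity of the logarithm: `r^2 log (1 - z) ≤ log (1 - r^2 z)` -/
theorem log_one_sub_mul {R z : ℝ} (hR0 : 0 ≤ R) (hR1 : R ≤ 1) (hz0 : 0 ≤ z) (hz1 : z < 1) :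
    R * Real.log (1 - z) ≤ Real.log (1 - R * z) := by
  have hc : ConcaveOn ℝ (Set.Ioi (0 : ℝ)) Real.log := strictConcaveOn_log_Ioi.concaveOn
  have h := hc.2 (x := 1 - z) (y := 1) (by simp only [Set.mem_Ioi]; linarith)
    (by simp only [Set.mem_Ioi]; norm_num) hR0 (by linarith : (0 : ℝ) ≤ 1 - R) (by ring)
  simp only [smul_eq_mul, Real.log_one, mul_zero, add_zero, mul_one] at h
  have e : R * (1 - z) + (1 - R) = 1 - R * z := by ring
  rw [e] at h
  exact h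

/-- sign of the quadratic coefficient.  Proof: with `La1 = -log (1 - r^2 s^2)`,
`La2 = -log (1 - s^2)`, `L = psi2 1`: `La1 ≤ r^2 La2` (`log_one_sub_mul`), `s^2 ≤ La2`, and the claim
is `(L + La1) (L + s^2) ≤ (L + r^2 s^2) (L + La2)`. -/
theorem dc_e2 {r s : ℝ} (hr0 : 0 < r) (hr1 : r < 1) (hs0 : 0 < s) (hs1 : s < 1) :
    (dcA r s - r ^ 2) * s ^ 2 ≤ (1 - dcA r s) * psi2 1 := by
  have hrs0 : 0 < r * s := mul_pos hr0 hs0
  have habs : |s| < 1 := by rw [abs_of_pos hs0]; exact hs1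
  have hs2 : s ^ 2 < 1 := (sq_lt_one_iff_abs_lt_one s).2 habs
  have hr2 : r ^ 2 ≤ 1 := by nlinarith
  have hL := psi2_one_pos
  have hll := ll_pos habs
  have k1 := log_one_sub_mul (R := r ^ 2) (z := s ^ 2) (sq_nonneg r) hr2 (sq_nonneg s) hs2
  have k2 : Real.log (1 - s ^ 2) ≤ 1 - s ^ 2 - 1 := Real.log_le_sub_one_of_pos (by linarith)
  have e1 : ll (r * s) = psi2 1 - Real.log (1 - r ^ 2 * s ^ 2) := by
    unfold ll
    rw [mul_pow]
  have e2 : ll s = psi2 1 - Real.log (1 - s ^ 2) := rfl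
  have e3 : dcA r s * ll s = ll (r * s) := by
    unfold dcA
    exact div_mul_cancel₀ _ hll.ne'
  set La1 := -Real.log (1 - r ^ 2 * s ^ 2) with hLa1
  set La2 := -Real.log (1 - s ^ 2) with hLa2
  set L := psi2 1 with hLdef
  have f1 : La1 ≤ r ^ 2 * La2 := by
    rw [hLa1, hLa2]
    linarith
  have f2 : s ^ 2 ≤ La2 := by
    rw [hLa2]
    linarith
  have g1 : ll (r * s) = L + La1 := by rw [e1, hLa1]; ring
  have g2 : ll s = L + La2 := by rw [e2, hLa2]; ring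
  have main : (L + La1) * (L + s ^ 2) ≤ (L + r ^ 2 * s ^ 2) * (L + La2) := by
    have t1 : La1 * s ^ 2 ≤ r ^ 2 * La2 * s ^ 2 := mul_le_mul_of_nonneg_right f1 (sq_nonneg s)
    have t2 : (1 - r ^ 2) * s ^ 2 ≤ (1 - r ^ 2) * La2 :=
      mul_le_mul_of_nonneg_left f2 (by linarith)
    have t3 : s ^ 2 + La1 ≤ La2 + r ^ 2 * s ^ 2 := by linarith
    have t4 : L * (s ^ 2 + La1) ≤ L * (La2 + r ^ 2 * s ^ 2) := mul_le_mul_of_nonneg_left t3 hL.le
    nlinarith
  have hpos : 0 < L + La2 := by rw [← g2]; exact hll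
  have e4 : dcA r s * (L + La2) = L + La1 := by rw [← g1, ← g2]; exact e3
  have fin : ((dcA r s - r ^ 2) * s ^ 2) * (L + La2) ≤ ((1 - dcA r s) * L) * (L + La2) := by
    have l1 : ((dcA r s - r ^ 2) * s ^ 2) * (L + La2)
        = (dcA r s * (L + La2)) * s ^ 2 - r ^ 2 * s ^ 2 * (L + La2) := by ring
    have l2 : ((1 - dcA r s) * L) * (L + La2) = L * (L + La2) - (dcA r s * (L + La2)) * L := by ring
    rw [l1, l2, e4]
    linarith
  exact le_of_mul_le_mul_right fin hpos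

end Vale.Agent.P322
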