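import Vale.Agent.P322.DCDefs

/-!
Chord lemma for the exponential function and the choice of the comparison line
(used in the two-sign-change argument for (DC1)).
-/

namespace Vale.Agent.P322

open Real

/-- between the two nodes the exponential lies below its chord -/
theorem exp_chord_le {c y1 y2 y : ℝ} (h12 : y1 < y2) (h1 : y1 ≤ y) (h2 : y ≤ y2) :
    Real.exp (c * y) ≤ Real.exp (c * y1)
      + (Real.exp (c * y2) - Real.exp (c * y1)) / (y2 - y1) * (y - y1) := by
  have hd : 0 < y2 - y1 := sub_pos.mpr h12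
  have ha : 0 ≤ (y2 - y) / (y2 - y1) := div_nonneg (sub_nonneg.mpr h2) hd.le
  have hb : 0 ≤ (y - y1) / (y2 - y1) := div_nonneg (sub_nonneg.mpr h1) hd.le
  have hab : (y2 - y) / (y2 - y1) + (y - y1) / (y2 - y1) = 1 := by
    field_simp
    ring
  have h := convexOn_exp.2 (Set.mem_univ (c * y1)) (Set.mem_univ (c * y2)) ha hb hab
  simp only [smul_eq_mul] at h
  have e1 : (y2 - y) / (y2 - y1) * (c * y1) + (y - y1) / (y2 - y1) * (c * y2) = c * y := by
    field_simp
    ring
  rw [e1] at h
  have e2 : (y2 - y) / (y2 - y1) * Real.exp (c * y1) + (y - y1) / (y2 - y1) * Real.exp (c * y2)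
      = Real.exp (c * y1)
      + (Real.exp (c * y2) - Real.exp (c * y1)) / (y2 - y1) * (y - y1) := by
    field_simp
    ring
  rw [e2] at h
  exact h

/-- to the right of the two nodes the exponential lies above its chord -/
theorem exp_chord_ge {c y1 y2 y : ℝ} (h12 : y1 < y2) (h2 : y2 ≤ y) :
    Real.exp (c * y1)
      + (Real.exp (c * y2) - Real.exp (c * y1)) / (y2 - y1) * (y - y1) ≤ Real.exp (c * y) := by
  have hd : 0 < y2 - y1 := sub_pos.mpr h12
  have hd' : 0 < y - y1 := by linarith
  have h := exp_chord_le (c := c) (y1 := y1) (y2 := y) (y := y2) (by linarith) h12.le h2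
  -- exp(c y2) - exp(c y1) <= (exp(c y) - exp(c y1)) / (y - y1) * (y2 - y1)
  have h3 : (Real.exp (c * y2) - Real.exp (c * y1)) / (y2 - y1)
      ≤ (Real.exp (c * y) - Real.exp (c * y1)) / (y - y1) := by
    rw [div_le_iff₀ hd]
    linarith
  have h4 : (Real.exp (c * y2) - Real.exp (c * y1)) / (y2 - y1) * (y - y1)
      ≤ (Real.exp (c * y) - Real.exp (c * y1)) / (y - y1) * (y - y1) :=
    mul_le_mul_of_nonneg_right h3 hd'.le
  rw [div_mul_cancel₀ _ hd'.ne'] at h4
  linarith

/-- The comparison line.  Proof: `c = log (t^2)`, nodes `y1 = 1/2` and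
`y2 = max 1 (log A / log R)`, line = chord of `y ↦ exp (c y) = (t^2)^y` through the nodes.
For a natural `y = k+1 ≥ 2`: `y ≥ y2` gives `R^y ≤ A` and value above the chord, `y < y2` gives
`y < log A / log R`, so `A < R^y`, and value below the chord. -/
theorem exists_line {t R A : ℝ} (ht : 0 < t) (hR0 : 0 < R) (hR1 : R < 1) (hA : 0 < A) :
    ∃ lam mu : ℝ, t = lam + mu / 2 ∧ t ^ 2 ≤ lam + mu ∧
      ∀ k : ℕ, 1 ≤ k →
        0 ≤ (A - R ^ (k + 1)) * ((t ^ 2) ^ (k + 1) - lam - mu * ((k : ℝ) + 1)) := by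
  set c : ℝ := Real.log (t ^ 2) with hc
  set y2 : ℝ := max 1 (Real.log A / Real.log R) with hy2
  have hy21 : (1:ℝ) ≤ y2 := le_max_left _ _
  have h12 : (1/2 : ℝ) < y2 := by linarith
  have ht2 : 0 < t ^ 2 := by positivity
  have hE1 : Real.exp (c * (1/2)) = t := by
    rw [hc, Real.log_pow]
    have : ((2:ℕ):ℝ) * Real.log t * (1/2) = Real.log t := by push_cast; ring
    rw [this, Real.exp_log ht]
  have hEn : ∀ m : ℕ, Real.exp (c * (m : ℝ)) = (t ^ 2) ^ m := by
    intro m
    rw [mul_comm, Real.exp_nat_mul, hc, Real.exp_log ht2]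
  set m : ℝ := (Real.exp (c * y2) - Real.exp (c * (1/2))) / (y2 - 1/2) with hm
  have hlogR : Real.log R < 0 := Real.log_neg hR0 hR1
  refine ⟨t - m / 2, m, by ring, ?_, ?_⟩
  · have h := exp_chord_le (c := c) h12 (by norm_num : (1/2:ℝ) ≤ 1) hy21
    rw [← hm, hE1] at h
    have h1 := hEn 1
    simp only [Nat.cast_one, pow_one] at h1
    rw [h1] at h
    linarith
  · intro k hk
    have hk' : (1:ℝ) ≤ (k:ℝ) := by exact_mod_cast hk
    have hEk : Real.exp (c * ((k:ℝ) + 1)) = (t ^ 2) ^ (k + 1) := by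
      have := hEn (k + 1)
      push_cast at this
      exact this
    have hRk : R ^ (k + 1) = Real.exp (((k:ℝ) + 1) * Real.log R) := by
      have : ((k:ℝ) + 1) = ((k + 1 : ℕ) : ℝ) := by push_cast; ring
      rw [this, Real.exp_nat_mul, Real.exp_log hR0]
    have hAe : A = Real.exp (Real.log A) := (Real.exp_log hA).symm
    rcases le_or_gt y2 ((k:ℝ) + 1) with hcase | hcase
    · -- right of the nodes
      have h := exp_chord_ge (c := c) h12 hcase
      rw [← hm, hE1, hEk] at h
      have hq : Real.log A / Real.log R ≤ (k:ℝ) + 1 := le_trans (le_max_right _ _) hcase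
      have hq2 : ((k:ℝ) + 1) * Real.log R ≤ Real.log A := by
        rw [div_le_iff_of_neg hlogR] at hq
        exact hq
      have hRA : R ^ (k + 1) ≤ A := by
        rw [hRk, hAe]
        exact Real.exp_le_exp.mpr hq2
      apply mul_nonneg (sub_nonneg.mpr hRA)
      linarith
    · -- between the nodes
      have h := exp_chord_le (c := c) h12 (by linarith : (1/2:ℝ) ≤ (k:ℝ) + 1) hcase.le
      rw [← hm, hE1, hEk] at h
      have hq : (k:ℝ) + 1 < Real.log A / Real.log R := by
        rcases lt_max_iff.mp hcase with h1 | h1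
        · linarith
        · exact h1
      have hq2 : Real.log A < ((k:ℝ) + 1) * Real.log R := by
        rw [lt_div_iff_of_neg hlogR] at hq
        exact hq
      have hRA : A ≤ R ^ (k + 1) := by
        rw [hRk, hAe]
        exact Real.exp_le_exp.mpr hq2.le
      apply mul_nonneg_of_nonpos_of_nonpos (sub_nonpos.mpr hRA)
      linarith

end Vale.Agent.P322
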