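import Vale.Agent.P322.BMStep

/-!
Definitions for the cone bound (DC) of the potential-function induction (see POTENTIAL.md, sections 1 and 6).
Everything is in doubled nats: `psi2 = 2 ln 2 * psi`, `hh = 2 ln 2 * h`.
-/

namespace Vale.Agent.P322

open Real

/-- doubled binary entropy (nats) of a sign with mean `t` -/
noncomputable def hh (t : ℝ) : ℝ := psi2 1 - psi2 t

/-- derivative of `psi2` -/
noncomputable def dpsi (t : ℝ) : ℝ := Real.log (1 + t) - Real.log (1 - t)

/-- `ll x = hh x + x * dpsi x = psi2 1 - log (1 - x^2)` -/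
noncomputable def ll (x : ℝ) : ℝ := psi2 1 - Real.log (1 - x ^ 2)

/-- slope of the tangent plane of the cone at the ray `s` -/
noncomputable def dcA (r s : ℝ) : ℝ := ll (r * s) / ll s

/-- second coefficient of the tangent plane of the cone at the ray `s` -/
noncomputable def dcB (r s : ℝ) : ℝ := dcA r s * dpsi s - r * dpsi (r * s)

/-- `(Ac, Bc)` is a DC-pair at noise `r`. -/
def IsDC (r Ac Bc : ℝ) : Prop :=
  ∀ P D : ℝ, |P| + |D| ≤ 1 →
    Ac * ((hh (P + D) + hh (P - D)) / 2) + Bc * |D| ≤ (hh (P + r * D) + hh (P - r * D)) / 2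

end Vale.Agent.P322
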