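import Vale.Agent.P322.DCOne

/-!
The cone bound (DC), its strengthening (DC+), and the two trivial DC-pairs.
-/

namespace Vale.Agent.P322

open Real

/-- `(hh (P + y) + hh (P - y)) / 2 = hh P - K2 P y` -/
theorem hbar_eq (P y : ℝ) : (hh (P + y) + hh (P - y)) / 2 = hh P - K2 P y := by
  unfold hh K2
  ring

/-- (DC+) for `D ≥ 0`.  Proof: `K2_eq` for `D` and `r * D`, `x1 = D/(1+P)`, `x2 = D/(1-P)` in `[0,1]`,
weights `(1+P)/2`, `(1-P)/2`, `dc1` at `x1`, `x2`. -/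
theorem dc_plus_nonneg {r s P D : ℝ} (hr0 : 0 < r) (hr1 : r < 1) (hs0 : 0 < s) (hs1 : s < 1)
    (hP : |P| < 1) (hD0 : 0 ≤ D) (hD : D ≤ 1 - |P|) :
    dcA r s * ((hh (P + D) + hh (P - D)) / 2) + dcB r s * D
      + (1 - dcA r s) * (hh P - 2 * psi2 1 * D / s + psi2 1 * D ^ 2 / (s ^ 2 * (1 - P ^ 2)))
      ≤ (hh (P + r * D) + hh (P - r * D)) / 2 := by
  have hP' := abs_lt.mp hP
  have hx1 : 0 < 1 + P := by linarith
  have hx2 : 0 < 1 - P := by linarith
  have hD1 : D ≤ 1 + P := by linarith [neg_abs_le P]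
  have hD2 : D ≤ 1 - P := by linarith [le_abs_self P]
  have habsD : |D| ≤ 1 - |P| := by rwa [abs_of_nonneg hD0]
  have hrD : |r * D| ≤ 1 - |P| := by
    rw [abs_of_nonneg (mul_nonneg hr0.le hD0)]
    nlinarith
  rw [hbar_eq, hbar_eq, K2_eq hP habsD, K2_eq hP hrD]
  have a1 := dc1 hr0 hr1 hs0 hs1 (div_nonneg hD0 hx1.le) ((div_le_one hx1).mpr hD1)
  have a2 := dc1 hr0 hr1 hs0 hs1 (div_nonneg hD0 hx2.le) ((div_le_one hx2).mpr hD2)
  have e1 : r * D / (1 + P) = r * (D / (1 + P)) := by ring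
  have e2 : r * D / (1 - P) = r * (D / (1 - P)) := by ring
  rw [e1, e2]
  have b1 := mul_le_mul_of_nonneg_left a1 (by linarith : (0 : ℝ) ≤ (1 + P) / 2)
  have b2 := mul_le_mul_of_nonneg_left a2 (by linarith : (0 : ℝ) ≤ (1 - P) / 2)
  unfold hh at b1 b2 ⊢
  generalize psi2 (r * (D / (1 + P))) = u1 at b1 b2 ⊢
  generalize psi2 (r * (D / (1 - P))) = u2 at b1 b2 ⊢
  generalize psi2 (D / (1 + P)) = v1 at b1 b2 ⊢
  generalize psi2 (D / (1 - P)) = v2 at b1 b2 ⊢
  generalize psi2 P = pP at b1 b2 ⊢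
  generalize psi2 1 = L at b1 b2 ⊢
  generalize dcA r s = A at b1 b2 ⊢
  generalize dcB r s = B at b1 b2 ⊢
  have c1 : (1 + P) / 2 * ((1 - A) * L * (1 - D / (1 + P) / s) ^ 2)
      + (1 - P) / 2 * ((1 - A) * L * (1 - D / (1 - P) / s) ^ 2)
      = (1 - A) * (L - 2 * L * D / s + L * D ^ 2 / (s ^ 2 * (1 - P ^ 2))) := by
    have h3 : (1 - P ^ 2) = (1 + P) * (1 - P) := by ring
    rw [h3]
    field_simp
    ring
  have c2 : (1 + P) / 2 * (L - u1 - A * (L - v1) - B * (D / (1 + P)))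
      + (1 - P) / 2 * (L - u2 - A * (L - v2) - B * (D / (1 - P)))
      = L - ((1 + P) / 2 * u1 + (1 - P) / 2 * u2) - A * L
        + A * ((1 + P) / 2 * v1 + (1 - P) / 2 * v2) - B * D := by
    field_simp
    ring
  have c3 := add_le_add b1 b2
  rw [c1, c2] at c3
  linarith

/-- (DC+) -/
theorem dc_plus {r s P D : ℝ} (hr0 : 0 < r) (hr1 : r < 1) (hs0 : 0 < s) (hs1 : s < 1)
    (hP : |P| < 1) (hD : |D| ≤ 1 - |P|) :
    dcA r s * ((hh (P + D) + hh (P - D)) / 2) + dcB r s * |D|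
      + (1 - dcA r s) * (hh P - 2 * psi2 1 * |D| / s + psi2 1 * D ^ 2 / (s ^ 2 * (1 - P ^ 2)))
      ≤ (hh (P + r * D) + hh (P - r * D)) / 2 := by
  rcases le_total 0 D with h | h
  · rw [abs_of_nonneg h] at hD ⊢
    exact dc_plus_nonneg hr0 hr1 hs0 hs1 hP h hD
  · rw [abs_of_nonpos h] at hD ⊢
    have k := dc_plus_nonneg hr0 hr1 hs0 hs1 hP (by linarith : (0 : ℝ) ≤ -D) hD
    have e1 : P + -D = P - D := by ring
    have e2 : P - -D = P + D := by ring
    have e3 : P + r * -D = P - r * D := by ring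
    have e4 : P - r * -D = P + r * D := by ring
    have e5 : (-D) ^ 2 = D ^ 2 := by ring
    rw [e1, e2, e3, e4, e5] at k
    linarith

/-- the extra term of (DC+) is nonnegative (perfect square after `hh_lower`) -/
theorem dc_extra_nonneg {s P D : ℝ} (hs0 : 0 < s) (hP : |P| < 1) :
    0 ≤ hh P - 2 * psi2 1 * |D| / s + psi2 1 * D ^ 2 / (s ^ 2 * (1 - P ^ 2)) := by
  have hP' := abs_lt.mp hP
  have hc : 0 < 1 - P ^ 2 := by nlinarith
  have hl := hh_lower hP.le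
  have hL := psi2_one_pos
  have e : psi2 1 * (1 - P ^ 2) - 2 * psi2 1 * |D| / s + psi2 1 * D ^ 2 / (s ^ 2 * (1 - P ^ 2))
      = psi2 1 / (1 - P ^ 2) * ((1 - P ^ 2) - |D| / s) ^ 2 := by
    have : D ^ 2 = |D| ^ 2 := (sq_abs D).symm
    rw [this]
    field_simp
    ring
  have h2 : 0 ≤ psi2 1 / (1 - P ^ 2) * ((1 - P ^ 2) - |D| / s) ^ 2 := by positivity
  linarith

theorem hh_of_abs_ge {P : ℝ} (h1 : |P| ≤ 1) (h2 : ¬ |P| < 1) : hh P = 0 := by
  have h : |P| = 1 := le_antisymm h1 (not_lt.mp h2)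
  rcases abs_eq (by norm_num : (0 : ℝ) ≤ 1) |>.mp h with h | h
  · rw [h, hh_one]
  · rw [h, hh_neg, hh_one]

theorem D_zero_of {P D : ℝ} (h : |P| + |D| ≤ 1) (h2 : ¬ |P| < 1) : D = 0 := by
  have : |D| ≤ 0 := by linarith [not_lt.mp h2]
  exact abs_eq_zero.mp (le_antisymm this (abs_nonneg D))

/-- (DC): the tangent planes of the cone are DC-pairs. -/
theorem isDC_cone {r s : ℝ} (hr0 : 0 < r) (hr1 : r < 1) (hs0 : 0 < s) (hs1 : s < 1) :
    IsDC r (dcA r s) (dcB r s) := by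
  intro P D h
  by_cases hP : |P| < 1
  · have k := dc_plus hr0 hr1 hs0 hs1 hP (by linarith : |D| ≤ 1 - |P|)
    have k2 := dc_extra_nonneg (D := D) hs0 hP
    have k3 := dcA_le_one hr0 hr1 hs0 hs1
    have k4 := mul_nonneg (by linarith : (0 : ℝ) ≤ 1 - dcA r s) k2
    linarith
  · have hD := D_zero_of h hP
    have hP1 : |P| ≤ 1 := by linarith [abs_nonneg D]
    have h0 := hh_of_abs_ge hP1 hP
    subst hD
    simp [h0]

/-- trivial pair `(1, 0)` (noise increases entropy) -/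
theorem isDC_one_zero {r : ℝ} (hr0 : 0 ≤ r) (hr1 : r ≤ 1) : IsDC r 1 0 := by
  intro P D h
  by_cases hP : |P| < 1
  · have hP' := abs_lt.mp hP
    have hx1 : 0 < 1 + P := by linarith
    have hx2 : 0 < 1 - P := by linarith
    have hD : |D| ≤ 1 - |P| := by linarith
    have hs1 : |D| ≤ 1 + P := by linarith [neg_abs_le P]
    have hs2 : |D| ≤ 1 - P := by linarith [le_abs_self P]
    have hrabs : |r| ≤ 1 := by rwa [abs_of_nonneg hr0]
    have hrD : |r * D| ≤ 1 - |P| := by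
      rw [abs_mul]
      calc |r| * |D| ≤ 1 * |D| := by gcongr
        _ ≤ 1 - |P| := by linarith
    rw [hbar_eq, hbar_eq, K2_eq hP hD, K2_eq hP hrD]
    have t1 : |D / (1 + P)| ≤ 1 := by
      rw [abs_div, abs_of_pos hx1]
      exact (div_le_one hx1).mpr hs1
    have t2 : |D / (1 - P)| ≤ 1 := by
      rw [abs_div, abs_of_pos hx2]
      exact (div_le_one hx2).mpr hs2
    have m1 := psi2_mul_le hrabs t1
    have m2 := psi2_mul_le hrabs t2
    have n1 := psi2_nonneg t1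
    have n2 := psi2_nonneg t2
    have e1 : r * D / (1 + P) = r * (D / (1 + P)) := by ring
    have e2 : r * D / (1 - P) = r * (D / (1 - P)) := by ring
    rw [e1, e2]
    have hr2 : r ^ 2 ≤ 1 := pow_le_one₀ hr0 hr1
    have q1 : psi2 (r * (D / (1 + P))) ≤ psi2 (D / (1 + P)) := by nlinarith
    have q2 : psi2 (r * (D / (1 - P))) ≤ psi2 (D / (1 - P)) := by nlinarith
    have g1 := mul_le_mul_of_nonneg_left q1 (by linarith : (0 : ℝ) ≤ (1 + P) / 2)
    have g2 := mul_le_mul_of_nonneg_left q2 (by linarith : (0 : ℝ) ≤ (1 - P) / 2)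
    linarith
  · have hD := D_zero_of h hP
    subst hD
    simp

/-- pair `(0, hh r)` -/
theorem isDC_zero_hh {r : ℝ} (hr0 : 0 ≤ r) (hr1 : r ≤ 1) : IsDC r 0 (hh r) := by
  intro P D h
  have hrabs : |r| ≤ 1 := by rwa [abs_of_nonneg hr0]
  have hP1 : |P| ≤ 1 := by linarith [abs_nonneg D]
  by_cases hP : |P| < 1
  · have hP' := abs_lt.mp hP
    have hc : 0 < 1 - P ^ 2 := by nlinarith
    have k1 := K2_noise_le' h hrabs
    have k2 := hh_lower hP1
    have k3 := abs_le_c h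
    have k4 := psi2_nonneg hrabs
    have hL := psi2_one_pos
    have hd0 := abs_nonneg D
    rw [hbar_eq, hbar_eq]
    have e : D ^ 2 = |D| ^ 2 := (sq_abs D).symm
    rw [e] at k1
    unfold hh at k2 ⊢
    generalize psi2 r = q at k1 k4 ⊢
    generalize psi2 1 = L at k2 hL ⊢
    generalize |D| = d at k1 k3 hd0 ⊢
    generalize 1 - P ^ 2 = c at hc k1 k2 k3 ⊢
    have m : q * (d ^ 2 / c) ≤ q * d := by
      apply mul_le_mul_of_nonneg_left _ k4
      rw [div_le_iff₀ hc]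
      nlinarith
    have m2 : L * d ≤ L * c := mul_le_mul_of_nonneg_left k3 hL.le
    nlinarith
  · have hD := D_zero_of h hP
    have h0 := hh_of_abs_ge hP1 hP
    subst hD
    simp [h0]

end Vale.Agent.P322
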