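import Vale.Agent.P322.DCBasic
import Vale.Agent.P322.DCChord

/-!
The one-variable inequality (DC1).
-/

namespace Vale.Agent.P322

open Real

theorem hasSum_of_eq {f g : ℕ → ℝ} {a : ℝ} (h : HasSum g a) (hfg : ∀ k, f k = g k) :
    HasSum f a := by
  have : f = g := funext hfg
  rw [this]
  exact h

/-- series of `x * dpsi x` -/
theorem dpsi_hasSum {t : ℝ} (ht : |t| < 1) :
    HasSum (fun k : ℕ => 2 * ((k : ℝ) + 1) * ((t ^ 2) ^ (k + 1) / ((2 * (k : ℝ) + 1) * ((k : ℝ) + 1))))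
      (t * dpsi t) := by
  have h := (Real.hasSum_log_sub_log_of_abs_lt_one ht).mul_left t
  unfold dpsi
  refine hasSum_of_eq h (fun k => ?_)
  have h1 : (2 * (k : ℝ) + 1) ≠ 0 := by positivity
  have h2 : ((k : ℝ) + 1) ≠ 0 := by positivity
  field_simp
  ring

theorem dc1_lt {r s x : ℝ} (hr0 : 0 < r) (hr1 : r < 1) (hs0 : 0 < s) (hs1 : s < 1)
    (hx0 : 0 < x) (hx1 : x < 1) :
    (1 - dcA r s) * psi2 1 * (1 - x / s) ^ 2 ≤ hh (r * x) - dcA r s * hh x - dcB r s * x := by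
  obtain ⟨t, ht0, rfl⟩ : ∃ t : ℝ, 0 < t ∧ x = t * s :=
    ⟨x / s, div_pos hx0 hs0, by field_simp⟩
  have hA := dcA_pos hr0 hr1 hs0 hs1
  have hR0 : 0 < r ^ 2 := by positivity
  have hR1 : r ^ 2 < 1 := by nlinarith
  obtain ⟨lam, mu, hl1, hl2, hl3⟩ := exists_line ht0 hR0 hR1 hA
  set A := dcA r s with hAdef
  set B := dcB r s with hBdef
  have hrs0 : 0 < r * s := mul_pos hr0 hs0
  have hrs1 : r * s < 1 := by nlinarith
  have hrx0 : 0 < r * (t * s) := mul_pos hr0 hx0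
  have hrx1 : r * (t * s) < 1 := by nlinarith
  have a1 : |t * s| < 1 := abs_lt.mpr ⟨by linarith, hx1⟩
  have a2 : |r * (t * s)| < 1 := abs_lt.mpr ⟨by linarith, hrx1⟩
  have a3 : |s| < 1 := abs_lt.mpr ⟨by linarith, hs1⟩
  have a4 : |r * s| < 1 := abs_lt.mpr ⟨by linarith, hrs1⟩
  have h1 := psi2_hasSum a1
  have h2 := psi2_hasSum a2
  have h3 := psi2_hasSum a3
  have h4 := psi2_hasSum a4
  have h5 := dpsi_hasSum a3
  have h6 := dpsi_hasSum a4
  have hS := (((h1.mul_left A).sub h2).sub (((h3.mul_left A).sub h4).mul_left lam)).sub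
    (((h5.mul_left A).sub h6).mul_left (mu / 2))
  set S := A * psi2 (t * s) - psi2 (r * (t * s)) - lam * (A * psi2 s - psi2 (r * s))
    - mu / 2 * (A * (s * dpsi s) - r * s * dpsi (r * s)) with hSdef
  have hf : HasSum (fun k : ℕ => (A - (r ^ 2) ^ (k + 1)) * ((t ^ 2) ^ (k + 1) - lam - mu * ((k : ℝ) + 1))
      * ((s ^ 2) ^ (k + 1) / ((2 * (k : ℝ) + 1) * ((k : ℝ) + 1)))) S := by
    refine hasSum_of_eq hS (fun k => ?_)
    have e1 : (2 * (k : ℝ) + 1) ≠ 0 := by positivity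
    have e2 : ((k : ℝ) + 1) ≠ 0 := by positivity
    field_simp
    ring
  have hshift := (hasSum_nat_add_iff' 1).mpr hf
  have hnn : 0 ≤ S - ∑ i ∈ Finset.range 1, (A - (r ^ 2) ^ (i + 1))
      * ((t ^ 2) ^ (i + 1) - lam - mu * ((i : ℝ) + 1))
      * ((s ^ 2) ^ (i + 1) / ((2 * (i : ℝ) + 1) * ((i : ℝ) + 1))) := by
    refine hshift.nonneg ?_
    intro k
    have := hl3 (k + 1) (by omega)
    have hw : 0 ≤ (s ^ 2) ^ (k + 1 + 1) / ((2 * ((k + 1 : ℕ) : ℝ) + 1) * (((k + 1 : ℕ) : ℝ) + 1)) := by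
      positivity
    exact mul_nonneg this hw
  simp only [Finset.sum_range_one, Nat.cast_zero, zero_add, pow_one, mul_zero, mul_one, div_one]
    at hnn
  have hI := dcB_mul hr0 hr1 hs0 hs1
  rw [← hAdef, ← hBdef] at hI
  have hII : B * s = A * (s * dpsi s) - r * s * dpsi (r * s) := by
    rw [hBdef, dcB, ← hAdef]
    ring
  have he2 := dc_e2 hr0 hr1 hs0 hs1
  rw [← hAdef] at he2
  have hprod : 0 ≤ ((A - r ^ 2) * s ^ 2 - (1 - A) * psi2 1) * (t ^ 2 - lam - mu) :=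
    mul_nonneg_of_nonpos_of_nonpos (by linarith) (by linarith)
  have hts : t * s / s = t := by field_simp
  rw [hts]
  unfold hh at hI ⊢
  have hmu : mu = 2 * (t - lam) := by linarith
  rw [← hII] at hSdef
  have hpsi : A * psi2 s - psi2 (r * s) = B * s - (1 - A) * psi2 1 := by linarith
  rw [hpsi] at hSdef
  subst hmu
  nlinarith [hnn, hprod, hSdef]

/-- (DC1) -/
theorem dc1 {r s x : ℝ} (hr0 : 0 < r) (hr1 : r < 1) (hs0 : 0 < s) (hs1 : s < 1)
    (hx0 : 0 ≤ x) (hx1 : x ≤ 1) :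
    (1 - dcA r s) * psi2 1 * (1 - x / s) ^ 2 ≤ hh (r * x) - dcA r s * hh x - dcB r s * x := by
  have key : ∀ y ∈ Set.Ioo (0 : ℝ) 1,
      (1 - dcA r s) * psi2 1 * (1 - y / s) ^ 2 ≤ hh (r * y) - dcA r s * hh y - dcB r s * y := by
    intro y hy
    exact dc1_lt hr0 hr1 hs0 hs1 hy.1 hy.2
  have hcl : x ∈ closure (Set.Ioo (0 : ℝ) 1) := by
    rw [closure_Ioo (by norm_num)]
    exact ⟨hx0, hx1⟩
  have hc : Continuous hh := by
    unfold hh
    exact continuous_const.sub psi2_continuous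
  refine le_on_closure key ?_ ?_ hcl
  · exact (continuous_const.mul ((continuous_const.sub (continuous_id.div_const s)).pow 2)).continuousOn
  · exact (((hc.comp (continuous_const.mul continuous_id)).sub (continuous_const.mul hc)).sub
      (continuous_const.mul continuous_id)).continuousOn

end Vale.Agent.P322
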