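import Vale.Agent.P322.DCBasic
import Vale.Agent.P322.BMLink

/-!
The abstract induction theorem for families of lines (POTENTIAL.md, section 6), and the reduction of
the Courtade-Kumar inequality to the existence of a closed family of lines.

A line is a pair `(g, A)`; it is valid when `g (mean G) + A * mean (hh ∘ G) ≤ mean (hh ∘ Tn ε G)`
for all `n` and all `G : Cube n → [-1,1]`.  Everything is in doubled nats (`hh = 2 ln 2 * h`).
-/

namespace Vale.Agent.P322

open Real

variable {n : ℕ}

theorem hh_sg (u : ℤˣ) : hh (sg u) = 0 := by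
  rcases sg_cases u with h | h <;> rw [h]
  · simp [hh_one]
  · rw [sg_neg_one, hh_neg, hh_one]

theorem abs_mean_le_mean_abs (D : Cube n → ℝ) : |mean D| ≤ mean (fun x => |D x|) := by
  rw [abs_le]
  constructor
  · have h : mean (fun x => (-1) * |D x|) ≤ mean D :=
      mean_le_mean (fun x => by linarith [neg_abs_le (D x)])
    rw [mean_mul_left] at h
    linarith
  · exact mean_le_mean (fun x => le_abs_self _)

theorem mean_zero_dim (F : Cube 0 → ℝ) : mean F = F default := by
  unfold mean
  simp
  congr 1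
  exact Subsingleton.elim _ _

theorem Tn_zero_dim (ε : ℝ) (F : Cube 0 → ℝ) (y : Cube 0) : Tn ε F y = F default := by
  unfold Tn wn
  simp
  congr 1
  exact Subsingleton.elim _ _

/-- The abstract induction theorem.  `g i`, `A i` (`i : ι`) is a family of lines, closed in the
sense of (LL): every line, at every `(m, d)` in the diamond, has a child line `j` and a DC-pair
`(Ac, Bc)` with `A i ≤ A j * Ac` and
`g i m ≤ (g j (m + r d) + g j (m - r d)) / 2 + A j * Bc * |d|`.  Then every line is valid. -/
theorem ll_induction {ι : Type} (g : ι → ℝ → ℝ) (A : ι → ℝ) {ε : ℝ} (h0 : 0 ≤ ε) (h1 : ε ≤ 1)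
    (hA : ∀ i, 0 ≤ A i)
    (hbase : ∀ i m, |m| ≤ 1 → g i m + A i * hh m ≤ hh m)
    (hLL : ∀ i m d, |m| + |d| ≤ 1 → ∃ j Ac Bc, IsDC (1 - 2 * ε) Ac Bc ∧ 0 ≤ Bc ∧
      A i ≤ A j * Ac ∧
      g i m ≤ (g j (m + (1 - 2 * ε) * d) + g j (m - (1 - 2 * ε) * d)) / 2 + A j * Bc * |d|) :
    ∀ (n : ℕ) (G : Cube n → ℝ), (∀ x, |G x| ≤ 1) → ∀ i,
      g i (mean G) + A i * mean (fun x => hh (G x)) ≤ mean (fun x => hh (Tn ε G x)) := by
  intro n
  have hr : |1 - 2 * ε| ≤ 1 := by
    rw [abs_le]
    constructor <;> linarith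
  induction n with
  | zero =>
    intro G hG i
    rw [mean_zero_dim, mean_zero_dim, mean_zero_dim, Tn_zero_dim]
    exact hbase i _ (hG _)
  | succ n ih =>
    intro G hG i
    set U : Cube n → ℝ := fun x' => G (Fin.cons 1 x') with hU
    set V : Cube n → ℝ := fun x' => G (Fin.cons (-1) x') with hV
    set P : Cube n → ℝ := fun x' => (U x' + V x') / 2 with hP
    set D : Cube n → ℝ := fun x' => (U x' - V x') / 2 with hD
    set r := 1 - 2 * ε with hrdef
    have hU1 : ∀ x, |U x| ≤ 1 := fun x => hG _
    have hV1 : ∀ x, |V x| ≤ 1 := fun x => hG _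
    have a1 : ∀ x, P x + D x = U x := fun x => by simp only [hP, hD]; ring
    have a2 : ∀ x, P x - D x = V x := fun x => by simp only [hP, hD]; ring
    have hPD : ∀ x, |P x| + |D x| ≤ 1 := by
      intro x
      apply abs_add_abs_le
      · rw [a1]; exact hU1 x
      · rw [a2]; exact hV1 x
    set Hp : Cube n → ℝ := fun x' => P x' + r * D x' with hHp
    set Hm : Cube n → ℝ := fun x' => P x' - r * D x' with hHm
    have hrD : ∀ x, |r * D x| ≤ |D x| := by
      intro x
      rw [abs_mul]
      calc |r| * |D x| ≤ 1 * |D x| := by gcongr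
        _ = |D x| := one_mul _
    have hHp1 : ∀ x, |Hp x| ≤ 1 := fun x =>
      le_trans (abs_add_le _ _) (by linarith [hPD x, hrD x])
    have hHm1 : ∀ x, |Hm x| ≤ 1 := fun x =>
      le_trans (abs_sub _ _) (by linarith [hPD x, hrD x])
    have sp : (fun x' : Cube n => Tn ε G (Fin.cons 1 x')) = Tn ε Hp := by
      funext y'
      rw [Tn_cons]
      congr 1
      funext x'
      simp only [hHp, hP, hD, hU, hV, hrdef]
      ring
    have sm : (fun x' : Cube n => Tn ε G (Fin.cons (-1) x')) = Tn ε Hm := by
      funext y'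
      rw [Tn_cons]
      congr 1
      funext x'
      simp only [hHm, hP, hD, hU, hV, hrdef, neg_neg]
      ring
    have mHp : mean Hp = mean P + r * mean D := by
      rw [hHp, mean_add, mean_mul_left]
    have mHm : mean Hm = mean P - r * mean D := by
      rw [hHm, mean_sub, mean_mul_left]
    have hmd : |mean P| + |mean D| ≤ 1 := by
      apply abs_add_abs_le
      · rw [← mean_add]
        exact abs_mean_le (fun x => le_trans (abs_add_le _ _) (hPD x))
      · rw [← mean_sub]
        exact abs_mean_le (fun x => le_trans (abs_sub _ _) (hPD x))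
    obtain ⟨j, Ac, Bc, hDC, hBc, hAA, hg⟩ := hLL i (mean P) (mean D) hmd
    have ip := ih Hp hHp1 j
    have im := ih Hm hHm1 j
    rw [mHp] at ip
    rw [mHm] at im
    -- the left side
    have hleft : mean (fun x => hh (Tn ε G x))
        = (mean (fun x => hh (Tn ε Hp x)) + mean (fun x => hh (Tn ε Hm x))) / 2 := by
      rw [mean_cons (fun x => hh (Tn ε G x))]
      have e1 : (fun x' : Cube n => hh (Tn ε G (Fin.cons 1 x'))) = fun x' => hh (Tn ε Hp x') := by
        funext x'
        rw [← sp]
      have e2 : (fun x' : Cube n => hh (Tn ε G (Fin.cons (-1) x')))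
          = fun x' => hh (Tn ε Hm x') := by
        funext x'
        rw [← sm]
      rw [e1, e2]
    have hmG : mean G = mean P := by
      rw [mean_cons G]
      have : P = fun x => (1 / 2) * (U x + V x) := by
        funext x
        simp only [hP]
        ring
      rw [this, mean_mul_left, mean_add]
      ring
    have halpha : mean (fun x => hh (G x))
        = mean (fun x => (hh (P x + D x) + hh (P x - D x)) / 2) := by
      rw [mean_cons (fun x => hh (G x))]
      have : (fun x => (hh (P x + D x) + hh (P x - D x)) / 2)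
          = fun x => (1 / 2) * (hh (U x) + hh (V x)) := by
        funext x
        rw [a1, a2]
        ring
      rw [this, mean_mul_left, mean_add]
      ring
    have hbeta : (mean (fun x => hh (Hp x)) + mean (fun x => hh (Hm x))) / 2
        = mean (fun x => (hh (P x + r * D x) + hh (P x - r * D x)) / 2) := by
      have : (fun x => (hh (P x + r * D x) + hh (P x - r * D x)) / 2)
          = fun x => (1 / 2) * (hh (Hp x) + hh (Hm x)) := by
        funext x
        simp only [hHp, hHm]
        ring
      rw [this, mean_mul_left, mean_add]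
      ring
    have hdc : Ac * mean (fun x => (hh (P x + D x) + hh (P x - D x)) / 2)
        + Bc * mean (fun x => |D x|)
        ≤ mean (fun x => (hh (P x + r * D x) + hh (P x - r * D x)) / 2) := by
      rw [← mean_mul_left, ← mean_mul_left, ← mean_add]
      exact mean_le_mean (fun x => hDC (P x) (D x) (hPD x))
    have halpha0 : 0 ≤ mean (fun x => hh (G x)) := mean_nonneg (fun x => hh_nonneg (hG x))
    have hD0 := abs_mean_le_mean_abs D
    rw [hleft, hmG]
    rw [← halpha] at hdc
    set α := mean (fun x => hh (G x)) with hα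
    set β := mean (fun x => (hh (P x + r * D x) + hh (P x - r * D x)) / 2) with hβ
    set δ := mean (fun x => |D x|) with hδ
    have hAj := hA j
    have t1 : A j * (Ac * α + Bc * δ) ≤ A j * β := mul_le_mul_of_nonneg_left hdc hAj
    have t2 : A i * α ≤ A j * Ac * α := mul_le_mul_of_nonneg_right hAA halpha0
    have t3 : A j * Bc * |mean D| ≤ A j * Bc * δ :=
      mul_le_mul_of_nonneg_left hD0 (mul_nonneg hAj hBc)
    have t4 : A j * β = (A j * mean (fun x => hh (Hp x)) + A j * mean (fun x => hh (Hm x))) / 2 := by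
      rw [← hbeta]
      ring
    nlinarith

/-- Reduction of the Courtade-Kumar inequality at noise `ε` to a closed family of lines which
contains a line with `hh m - psi2 (1 - 2 ε) ≤ g m`. -/
theorem ck_of_lines {ι : Type} (g : ι → ℝ → ℝ) (A : ι → ℝ) {ε : ℝ} (h0 : 0 ≤ ε) (h1 : ε ≤ 1 / 2)
    (hA : ∀ i, 0 ≤ A i)
    (hbase : ∀ i m, |m| ≤ 1 → g i m + A i * hh m ≤ hh m)
    (hLL : ∀ i m d, |m| + |d| ≤ 1 → ∃ j Ac Bc, IsDC (1 - 2 * ε) Ac Bc ∧ 0 ≤ Bc ∧
      A i ≤ A j * Ac ∧
      g i m ≤ (g j (m + (1 - 2 * ε) * d) + g j (m - (1 - 2 * ε) * d)) / 2 + A j * Bc * |d|)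
    (i₀ : ι) (hfinal : ∀ m, |m| ≤ 1 → hh m - psi2 (1 - 2 * ε) ≤ g i₀ m)
    (f : Cube n → ℤˣ) :
    mutualInfo (law n ε) (fun ω => f ω.1) (fun ω => noisy ω) ≤ 1 - h2 ε := by
  have hl2 : 0 < Real.log 2 := by positivity
  rw [mutualInfo_eq_E2 f h0 (by linarith), one_sub_h2 ε h0 h1]
  have h := ll_induction g A h0 (by linarith) hA hbase hLL n (fun x => sg (f x))
    (fun x => le_of_eq (sg_abs _)) i₀
  have hz : mean (fun x => hh (sg (f x))) = 0 := by
    have : (fun x => hh (sg (f x))) = fun _ => (0 : ℝ) := by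
      funext x
      exact hh_sg _
    rw [this, mean_const]
  rw [hz] at h
  have hm : |mean (fun x => sg (f x))| ≤ 1 := abs_mean_le (fun x => le_of_eq (sg_abs _))
  have hf := hfinal _ hm
  have hE : E2 (Tn ε (fun x => sg (f x)))
      = hh (mean (fun x => sg (f x))) - mean (fun x => hh (Tn ε (fun x => sg (f x)) x)) := by
    unfold E2 hh
    rw [mean_sub, mean_const, mean_Tn]
    ring
  gcongr
  rw [hE]
  linarith

end Vale.Agent.P322
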