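import Vale.Agent.P322.MLCore

/-!
Monotone lines lemma (helper22): a normalised line `A * hh z + β * hh r * z ≤ hh (r z)` that is valid
at noise `r0` stays valid for every `r` in `[r0, 1]`.
Proof: minimise over the rectangle; at an interior critical point the value is
`2 ((1 - A) n z + ((1 - β) n r - eps))`, which is nonnegative by `ml_core`.
-/

namespace Vale.Agent.P322

open Real

/-- the inequality at an interior critical point -/
theorem ml_crit {r z A β : ℝ} (hr0 : 0 < r) (hr1 : r < 1) (hz0 : 0 < z) (hz1 : z < 1) (hA : A ≤ 1)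
    (e1 : dpsi (r * z) = β * dpsi r)
    (e2 : A * dpsi z = r * dpsi (r * z) + β * hh r) :
    0 ≤ hh (r * z) - A * hh z - β * hh r * z := by
  have hrz0 : 0 < r * z := mul_pos hr0 hz0
  have hrz1 : r * z < 1 := by nlinarith
  set L := Real.log 2 with hL
  set nr := L - Real.log (1 + r) with hnr
  set nz := L - Real.log (1 + z) with hnz
  set nrz := L - Real.log (1 + r * z) with hnrz
  have hval : hh (r * z) - A * hh z - β * hh r * z = 2 * (nrz - A * nz - β * nr) := by
    have e2' := e2
    rw [hh_eq_nn r] at e2'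
    rw [hh_eq_nn (r * z), hh_eq_nn z, hh_eq_nn r]
    linear_combination (1 - r) * e1 - (1 - z) * e2'
  rw [hval]
  -- nonnegativity of nz
  have hnz0 : 0 ≤ nz := by
    have : Real.log (1 + z) ≤ Real.log 2 := Real.log_le_log (by linarith) (by linarith)
    linarith
  -- the variables of the core lemma
  have h1r : 0 < 1 + r := by linarith
  have h1r' : 0 < 1 - r := by linarith
  have h1z : 0 < 1 + z := by linarith
  have h1z' : 0 < 1 - z := by linarith
  have h1rz : 0 < 1 + r * z := by linarith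
  have h1rz' : 0 < 1 - r * z := by linarith
  set ν := (1 - r) / (1 + r) with hν
  set c := (1 - z) / (1 + z) with hc
  have hν0 : 0 < ν := div_pos h1r' h1r
  have hν1 : ν ≤ 1 := by rw [hν, div_le_one h1r]; linarith
  have hc0 : 0 ≤ c := (div_pos h1z' h1z).le
  have hc1 : c ≤ 1 := by rw [hc, div_le_one h1z]; linarith
  have hcore := ml_core hν0 hν1 hc0 hc1
  have f1 : Real.log (1 + ν) = nr := by
    have : 1 + ν = 2 / (1 + r) := by rw [hν]; field_simp; ring
    rw [this, Real.log_div (by norm_num) h1r.ne']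
  have f2 : Real.log (1 + c * ν) = nr + nz - nrz := by
    have : 1 + c * ν = 2 * (1 + r * z) / ((1 + r) * (1 + z)) := by
      rw [hν, hc]; field_simp; ring
    rw [this, Real.log_div (by positivity) (by positivity), Real.log_mul (by norm_num) h1rz.ne',
      Real.log_mul h1r.ne' h1z.ne']
    ring
  have f3 : Real.log (1 + 1 / ν) = L - Real.log (1 - r) := by
    have : 1 + 1 / ν = 2 / (1 - r) := by rw [hν]; field_simp; ring
    rw [this, Real.log_div (by norm_num) h1r'.ne']
  have f4 : Real.log (1 + c / ν) = L + Real.log (1 - r * z) - Real.log (1 + z) - Real.log (1 - r) := by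
    have : 1 + c / ν = 2 * (1 - r * z) / ((1 + z) * (1 - r)) := by
      rw [hν, hc]; field_simp; ring
    rw [this, Real.log_div (by positivity) (by positivity), Real.log_mul (by norm_num) h1rz'.ne',
      Real.log_mul h1z.ne' h1r'.ne']
    ring
  rw [f1, f2, f3, f4] at hcore
  -- a = dpsi r > 0
  have ha : 0 < dpsi r := by
    unfold dpsi
    have : Real.log (1 - r) < Real.log (1 + r) := Real.log_lt_log h1r' (by linarith)
    linarith
  have hda : dpsi r = Real.log (1 + r) - Real.log (1 - r) := rfl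
  have hdb : dpsi (r * z) = Real.log (1 + r * z) - Real.log (1 - r * z) := rfl
  -- eps * a ≤ (a - b) * nr
  have hk : (nr + nz - nrz) * dpsi r ≤ (dpsi r - dpsi (r * z)) * nr := by
    rw [hda, hdb]
    nlinarith [hcore]
  rw [e1] at hk
  have hk2 : (nr + nz - nrz) * dpsi r ≤ ((1 - β) * nr) * dpsi r := by
    calc (nr + nz - nrz) * dpsi r ≤ (dpsi r - β * dpsi r) * nr := hk
      _ = ((1 - β) * nr) * dpsi r := by ring
  have hk3 : nr + nz - nrz ≤ (1 - β) * nr := le_of_mul_le_mul_right hk2 ha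
  have hAz : 0 ≤ (1 - A) * nz := mul_nonneg (by linarith) hnz0
  nlinarith [hk3, hAz]

/-- Monotone lines lemma. -/
theorem ml_lines {r0 A β : ℝ} (hr0 : 0 < r0) (hr1 : r0 < 1)
    (h0 : ∀ z, 0 ≤ z → z ≤ 1 → A * hh z + β * hh r0 * z ≤ hh (r0 * z)) :
    ∀ r z, r0 ≤ r → r ≤ 1 → 0 ≤ z → z ≤ 1 → A * hh z + β * hh r * z ≤ hh (r * z) := by
  have hA : A ≤ 1 := by
    have h := h0 0 le_rfl zero_le_one
    simp only [mul_zero, add_zero, hh_zero] at h
    have hp := psi2_one_pos
    nlinarith
  have hH0 : 0 < hh r0 := hh_pos (by rw [abs_of_pos hr0]; exact hr1)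
  have hβ : β ≤ 1 := by
    have h := h0 1 zero_le_one le_rfl
    simp only [mul_one, hh_one, mul_zero, zero_add] at h
    nlinarith
  set F : ℝ × ℝ → ℝ := fun p => hh (p.1 * p.2) - A * hh p.2 - β * hh p.1 * p.2 with hF
  have hFc : Continuous F := by
    have c1 : Continuous fun p : ℝ × ℝ => hh (p.1 * p.2) :=
      hh_continuous.comp (continuous_fst.mul continuous_snd)
    have c2 : Continuous fun p : ℝ × ℝ => hh p.2 := hh_continuous.comp continuous_snd
    have c3 : Continuous fun p : ℝ × ℝ => hh p.1 := hh_continuous.comp continuous_fst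
    exact (c1.sub (continuous_const.mul c2)).sub ((continuous_const.mul c3).mul continuous_snd)
  set K : Set (ℝ × ℝ) := Set.Icc r0 1 ×ˢ Set.Icc 0 1 with hK
  have hKc : IsCompact K := isCompact_Icc.prod isCompact_Icc
  have hKne : K.Nonempty := ⟨(r0, 0), ⟨⟨le_rfl, hr1.le⟩, ⟨le_rfl, zero_le_one⟩⟩⟩
  obtain ⟨p, hpK, hmin⟩ := hKc.exists_isMinOn hKne hFc.continuousOn
  obtain ⟨⟨hp1a, hp1b⟩, ⟨hp2a, hp2b⟩⟩ := hpK
  have hmin' : ∀ x y, r0 ≤ x → x ≤ 1 → 0 ≤ y → y ≤ 1 → F p ≤ F (x, y) := by
    intro x y hx0 hx1 hy0 hy1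
    exact hmin (show (x, y) ∈ K from ⟨⟨hx0, hx1⟩, ⟨hy0, hy1⟩⟩)
  have hFp : 0 ≤ F p := by
    rcases eq_or_lt_of_le hp1a with h1 | h1
    · -- r = r0
      have h := h0 p.2 hp2a hp2b
      simp only [hF, ← h1]
      linarith
    rcases eq_or_lt_of_le hp1b with h2 | h2
    · -- r = 1
      simp only [hF, h2, one_mul, hh_one, mul_zero, zero_mul, sub_zero]
      have := hh_nonneg (t := p.2) (by rw [abs_of_nonneg hp2a]; exact hp2b)
      nlinarith
    rcases eq_or_lt_of_le hp2a with h3 | h3
    · -- z = 0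
      simp only [hF, ← h3, mul_zero, hh_zero, sub_zero]
      have hp := psi2_one_pos
      nlinarith
    rcases eq_or_lt_of_le hp2b with h4 | h4
    · -- z = 1
      simp only [hF, h4, mul_one, hh_one, mul_zero, sub_zero]
      have := hh_nonneg (t := p.1) (by rw [abs_of_nonneg (by linarith)]; exact hp1b)
      nlinarith
    -- interior
    have hr0' : 0 < p.1 := by linarith
    have hrz0 : 0 < p.1 * p.2 := mul_pos hr0' h3
    have hrz1 : p.1 * p.2 < 1 := by nlinarith
    -- section in r
    have hloc1 : IsLocalMin (fun x => F (x, p.2)) p.1 := by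
      have hnh : Set.Ioo r0 1 ∈ nhds p.1 := Ioo_mem_nhds h1 h2
      filter_upwards [hnh] with x hx
      exact hmin' x p.2 hx.1.le hx.2.le hp2a hp2b
    have hd1 : HasDerivAt (fun x => F (x, p.2))
        (-(dpsi (p.1 * p.2)) * p.2 - β * (-(dpsi p.1)) * p.2) p.1 := by
      have a1 : HasDerivAt (fun x : ℝ => x * p.2) p.2 p.1 := by
        simpa using (hasDerivAt_id p.1).mul_const p.2
      have b0 : HasDerivAt hh (-(dpsi (p.1 * p.2))) (p.1 * p.2) :=
        ml_hasDerivAt_hh (by linarith) (by linarith)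
      have a2 : HasDerivAt (fun x : ℝ => hh (x * p.2)) (-(dpsi (p.1 * p.2)) * p.2) p.1 :=
        HasDerivAt.comp (h₂ := hh) (h := fun x : ℝ => x * p.2) p.1 b0 a1
      have a3 : HasDerivAt (fun x : ℝ => β * hh x * p.2) (β * (-(dpsi p.1)) * p.2) p.1 :=
        ((ml_hasDerivAt_hh (s := p.1) (by linarith) (by linarith)).const_mul β).mul_const p.2
      exact (a2.sub_const (A * hh p.2)).sub a3
    have e1' := hloc1.hasDerivAt_eq_zero hd1
    have e1 : dpsi (p.1 * p.2) = β * dpsi p.1 := by
      have : p.2 * (β * dpsi p.1 - dpsi (p.1 * p.2)) = 0 := by linarith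
      rcases mul_eq_zero.mp this with h | h
      · exact absurd h h3.ne'
      · linarith
    -- section in z
    have hloc2 : IsLocalMin (fun y => F (p.1, y)) p.2 := by
      have hnh : Set.Ioo (0 : ℝ) 1 ∈ nhds p.2 := Ioo_mem_nhds h3 h4
      filter_upwards [hnh] with y hy
      exact hmin' p.1 y hp1a hp1b hy.1.le hy.2.le
    have hd2 : HasDerivAt (fun y => F (p.1, y))
        (-(dpsi (p.1 * p.2)) * p.1 - A * (-(dpsi p.2)) - β * hh p.1) p.2 := by
      have a1 : HasDerivAt (fun y : ℝ => p.1 * y) p.1 p.2 := by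
        simpa using (hasDerivAt_id p.2).const_mul p.1
      have b0 : HasDerivAt hh (-(dpsi (p.1 * p.2))) (p.1 * p.2) :=
        ml_hasDerivAt_hh (by linarith) (by linarith)
      have a2 : HasDerivAt (fun y : ℝ => hh (p.1 * y)) (-(dpsi (p.1 * p.2)) * p.1) p.2 :=
        HasDerivAt.comp (h₂ := hh) (h := fun y : ℝ => p.1 * y) p.2 b0 a1
      have a3 : HasDerivAt (fun y : ℝ => A * hh y) (A * (-(dpsi p.2))) p.2 :=
        (ml_hasDerivAt_hh (s := p.2) (by linarith) (by linarith)).const_mul A
      have a4 : HasDerivAt (fun y : ℝ => β * hh p.1 * y) (β * hh p.1) p.2 := by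
        simpa using (hasDerivAt_id p.2).const_mul (β * hh p.1)
      exact (a2.sub a3).sub a4
    have e2' := hloc2.hasDerivAt_eq_zero hd2
    have e2 : A * dpsi p.2 = p.1 * dpsi (p.1 * p.2) + β * hh p.1 := by linarith
    exact ml_crit hr0' h2 h3 h4 hA e1 e2
  intro r z hr hr' hz hz'
  have h := hmin' r z hr hr' hz hz'
  have h2 : 0 ≤ F (r, z) := le_trans hFp h
  simp only [hF] at h2
  linarith

end Vale.Agent.P322
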