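import Vale.Agent.P322.SCQuad

/-!
Monotone lines lemma (helper22), part 1: the core inequality (CL) and the derivative of `hh`.
-/

namespace Vale.Agent.P322

open Real

/-- (CL): `log (1 + c ν) * log (1 + 1/ν) ≤ log (1 + c/ν) * log (1 + ν)`; concavity of `x ^ τ`. -/
theorem ml_core {ν c : ℝ} (hν0 : 0 < ν) (hν1 : ν ≤ 1) (hc0 : 0 ≤ c) (hc1 : c ≤ 1) :
    Real.log (1 + c * ν) * Real.log (1 + 1 / ν) ≤ Real.log (1 + c / ν) * Real.log (1 + ν) := by
  have hinv : 1 ≤ 1 / ν := by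
    rw [le_div_iff₀ hν0]; linarith
  have hu1 : 0 < Real.log (1 + ν) := Real.log_pos (by linarith)
  have hu2 : 0 < Real.log (1 + 1 / ν) := Real.log_pos (by linarith)
  have hu12 : Real.log (1 + ν) ≤ Real.log (1 + 1 / ν) :=
    Real.log_le_log (by linarith) (by linarith)
  set τ : ℝ := Real.log (1 + ν) / Real.log (1 + 1 / ν) with hτ
  have hτ0 : 0 ≤ τ := by positivity
  have hτ1 : τ ≤ 1 := by
    rw [hτ, div_le_one hu2]; exact hu12
  have hpow : (1 + 1 / ν) ^ τ = 1 + ν := by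
    rw [Real.rpow_def_of_pos (by linarith), hτ, mul_div_cancel₀ _ hu2.ne', Real.exp_log (by linarith)]
  have hx1 : (1 : ℝ) ∈ Set.Ici (0 : ℝ) := by simp
  have hx2 : (1 + 1 / ν) ∈ Set.Ici (0 : ℝ) := by
    simp only [Set.mem_Ici]; linarith
  have hc1' : 0 ≤ 1 - c := by linarith
  have hsum : (1 - c) + c = 1 := by ring
  have hconc := (Real.concaveOn_rpow hτ0 hτ1).2 hx1 hx2 hc1' hc0 hsum
  simp only [smul_eq_mul, Real.one_rpow, hpow] at hconc
  have e1 : (1 - c) * 1 + c * (1 + ν) = 1 + c * ν := by ring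
  have e2 : (1 - c) * 1 + c * (1 + 1 / ν) = 1 + c / ν := by ring
  rw [e1, e2] at hconc
  have hpos1 : 0 < 1 + c * ν := by positivity
  have hpos2 : 0 < 1 + c / ν := by positivity
  have hlog := Real.log_le_log hpos1 hconc
  rw [Real.log_rpow hpos2] at hlog
  calc Real.log (1 + c * ν) * Real.log (1 + 1 / ν)
      ≤ (τ * Real.log (1 + c / ν)) * Real.log (1 + 1 / ν) :=
        mul_le_mul_of_nonneg_right hlog hu2.le
    _ = Real.log (1 + c / ν) * Real.log (1 + ν) := by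
        rw [hτ, div_mul_eq_mul_div, div_mul_cancel₀ _ hu2.ne']; ring

theorem ml_hasDerivAt_psi2 {s : ℝ} (hA : 0 < 1 + s) (hB : 0 < 1 - s) :
    HasDerivAt psi2 (dpsi s) s := by
  have h1 : HasDerivAt (fun t : ℝ => 1 + t) 1 s := (hasDerivAt_id s).const_add 1
  have h2 : HasDerivAt (fun t : ℝ => 1 - t) (-1) s := (hasDerivAt_id s).const_sub 1
  have l1 := h1.log hA.ne'
  have l2 := h2.log hB.ne'
  have h := (h1.fun_mul l1).fun_add (h2.fun_mul l2)
  have e : (1 * Real.log (1 + s) + (1 + s) * (1 / (1 + s)))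
      + (-1 * Real.log (1 - s) + (1 - s) * (-1 / (1 - s))) = dpsi s := by
    unfold dpsi
    field_simp
    ring
  rw [e] at h
  exact h

theorem ml_hasDerivAt_hh {s : ℝ} (hA : 0 < 1 + s) (hB : 0 < 1 - s) :
    HasDerivAt hh (-(dpsi s)) s := by
  have h := (ml_hasDerivAt_psi2 hA hB).const_sub (psi2 1)
  exact h

/-- `hh x = 2 (log 2 - log (1 + x)) + (1 - x) dpsi x` -/
theorem hh_eq_nn (x : ℝ) :
    hh x = 2 * (Real.log 2 - Real.log (1 + x)) + (1 - x) * dpsi x := by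
  unfold hh dpsi
  rw [psi2_one]
  unfold psi2
  ring

end Vale.Agent.P322
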