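import Vale.Agent.P322.SCQuad
import Vale.Agent.P322.BMLink2

/-!
Scheme C with the quartic potential `Lam m = hh r * (1 - m^2) * (1 + m^2 / 6)` (helper76, helper97).
The step follows from the cone bound (DC), a polynomial inequality and the two-parameter
inequality `QF r`.
-/

namespace Vale.Agent.P322

open Real

variable {n : ℕ}

/-- The two-parameter inequality (QF). -/
def QF (r : ℝ) : Prop :=
  ∀ s : ℝ, 0 < s → s < 1 →
    9 * ((hh r) ^ 2 * s ^ 2) ≤ 10 * ((hh (r * s) - hh s) * hh (r * s))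

/-- The two-parameter inequality with the side condition `hh s ≥ (16/25) hh (r s)`. -/
def QFS (r : ℝ) : Prop :=
  ∀ s : ℝ, 0 < s → s < 1 → 16 * hh (r * s) ≤ 25 * hh s →
    9 * ((hh r) ^ 2 * s ^ 2) ≤ 10 * ((hh (r * s) - hh s) * hh (r * s))

theorem QF.toQFS {r : ℝ} (h : QF r) : QFS r := fun s h0 h1 _ => h s h0 h1

/-- the shape of the potential -/
noncomputable def GG (m : ℝ) : ℝ := (1 - m ^ 2) * (1 + m ^ 2 / 6)

/-- (POLY) -/
theorem quart_poly {m e : ℝ} (hm : m ^ 2 ≤ 1) (h3 : 3 * e ^ 2 ≤ 1 - m ^ 2) :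
    GG m * ((5 + 6 * m ^ 2 + e ^ 2) / 6) ≤ 9 / 10 := by
  unfold GG
  set q := m ^ 2 with hq
  have hq0 : 0 ≤ q := sq_nonneg m
  have h1 : (5 + 6 * q + e ^ 2) / 6 ≤ (16 + 17 * q) / 18 := by linarith
  have h2 : 0 ≤ (1 - q) * (1 + q / 6) := mul_nonneg (by linarith) (by linarith)
  calc (1 - q) * (1 + q / 6) * ((5 + 6 * q + e ^ 2) / 6)
      ≤ (1 - q) * (1 + q / 6) * ((16 + 17 * q) / 18) := mul_le_mul_of_nonneg_left h1 h2
    _ ≤ 9 / 10 := by nlinarith [sq_nonneg (q - 11 / 101), mul_nonneg hq0 (sq_nonneg q)]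

/-- (P1): the relative loss is at most `9/25` -/
theorem quart_p1 {m e : ℝ} (he : 0 ≤ e) (hme : |m| + e ≤ 1) (h3 : 3 * e ^ 2 ≤ 1 - m ^ 2) :
    e ^ 2 * ((5 + 6 * m ^ 2 + e ^ 2) / 6) ≤ 9 / 25 * GG m := by
  unfold GG
  set μ := |m| with hμ
  have hq : m ^ 2 = μ ^ 2 := (sq_abs m).symm
  have hμ0 : 0 ≤ μ := abs_nonneg m
  have hμ1 : μ ≤ 1 := by linarith
  rw [hq] at h3 ⊢
  rcases le_total μ (1 / 2) with h | h
  · have hq4 : μ ^ 2 ≤ 1 / 4 := by nlinarith
    have h1 : (5 + 6 * μ ^ 2 + e ^ 2) / 6 ≤ (16 + 17 * μ ^ 2) / 18 := by linarith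
    have h2 : e ^ 2 ≤ (1 - μ ^ 2) / 3 := by linarith
    have h4 : 0 ≤ (16 + 17 * μ ^ 2) / 18 := by positivity
    calc e ^ 2 * ((5 + 6 * μ ^ 2 + e ^ 2) / 6) ≤ e ^ 2 * ((16 + 17 * μ ^ 2) / 18) :=
          mul_le_mul_of_nonneg_left h1 (sq_nonneg e)
      _ ≤ (1 - μ ^ 2) / 3 * ((16 + 17 * μ ^ 2) / 18) := mul_le_mul_of_nonneg_right h2 h4
      _ ≤ 9 / 25 * ((1 - μ ^ 2) * (1 + μ ^ 2 / 6)) := by
          have h5 : 0 ≤ 1 - μ ^ 2 := by nlinarith
          have h6 : (16 + 17 * μ ^ 2) / 54 ≤ 9 / 25 * (1 + μ ^ 2 / 6) := by linarith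
          calc (1 - μ ^ 2) / 3 * ((16 + 17 * μ ^ 2) / 18)
              = (1 - μ ^ 2) * ((16 + 17 * μ ^ 2) / 54) := by ring
            _ ≤ (1 - μ ^ 2) * (9 / 25 * (1 + μ ^ 2 / 6)) := mul_le_mul_of_nonneg_left h6 h5
            _ = 9 / 25 * ((1 - μ ^ 2) * (1 + μ ^ 2 / 6)) := by ring
  · have he1 : e ≤ 1 - μ := by linarith
    have h1μ : 0 ≤ 1 - μ := by linarith
    have he2 : e ^ 2 ≤ (1 - μ) ^ 2 := by nlinarith
    have h4 : 0 ≤ (5 + 6 * μ ^ 2 + (1 - μ) ^ 2) / 6 := by positivity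
    calc e ^ 2 * ((5 + 6 * μ ^ 2 + e ^ 2) / 6)
        ≤ e ^ 2 * ((5 + 6 * μ ^ 2 + (1 - μ) ^ 2) / 6) := by
          apply mul_le_mul_of_nonneg_left _ (sq_nonneg e)
          linarith
      _ ≤ (1 - μ) ^ 2 * ((5 + 6 * μ ^ 2 + (1 - μ) ^ 2) / 6) := mul_le_mul_of_nonneg_right he2 h4
      _ ≤ 9 / 25 * ((1 - μ ^ 2) * (1 + μ ^ 2 / 6)) := by
          have h7 : 0 ≤ (μ - 1 / 2) * (184 * μ ^ 2 - 124 * μ + 192) := by
            apply mul_nonneg (by linarith)
            nlinarith [sq_nonneg (μ - 31 / 92)]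
          have h8 : 9 / 25 * ((1 - μ ^ 2) * (1 + μ ^ 2 / 6))
              - (1 - μ) ^ 2 * ((5 + 6 * μ ^ 2 + (1 - μ) ^ 2) / 6)
              = (1 - μ) * ((μ - 1 / 2) * (184 * μ ^ 2 - 124 * μ + 192)) / 150 := by ring
          have h9 : 0 ≤ (1 - μ) * ((μ - 1 / 2) * (184 * μ ^ 2 - 124 * μ + 192)) / 150 := by
            apply div_nonneg (mul_nonneg h1μ h7) (by norm_num)
          linarith

theorem GG_avg (m d : ℝ) :
    (GG (m + d) + GG (m - d)) / 2 = GG m - d ^ 2 * ((5 + 6 * m ^ 2 + d ^ 2) / 6) := by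
  unfold GG
  ring

/-- algebra of the tangent plane, general loss `l` -/
theorem quart_alg {H G l e s g y A B : ℝ} (hH : 0 < H) (hs : 0 < s) (hg : 0 < g)
    (hrel : s * (H * G) = e * g) (hA : 0 ≤ A) (hBm : B * s = g - A * y)
    (key : G * y ≤ g * (G - l)) : H * G ≤ A * (H * (G - l)) + B * e := by
  have e1 : s * g * (A * (H * (G - l)) + B * e - H * G)
      = A * H * s * (g * (G - l) - G * y) := by
    linear_combination (g * e) * hBm - (g - A * y) * hrel
  have e2 : 0 ≤ A * H * s * (g * (G - l) - G * y) := by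
    apply mul_nonneg (mul_nonneg (mul_nonneg hA hH.le) hs.le)
    linarith
  rw [← e1] at e2
  have e3 : 0 ≤ A * (H * (G - l)) + B * e - H * G := by
    by_contra hc
    have hc' : A * (H * (G - l)) + B * e - H * G < 0 := not_le.mp hc
    have := mul_neg_of_pos_of_neg (mul_pos hs hg) hc'
    linarith
  linarith

/-- the key inequality from (QF) and (POLY) -/
theorem quart_key {H G w e s g y : ℝ} (hG : 0 < G) (hg : 0 < g)
    (hrel : s * (H * G) = e * g) (hw : G * w ≤ 9 / 10) (hp1 : e ^ 2 * w ≤ 9 / 25 * G)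
    (hq' : 16 * g ≤ 25 * y → 9 * (H ^ 2 * s ^ 2) ≤ 10 * ((g - y) * g)) :
    G * y ≤ g * (G - e ^ 2 * w) := by
  by_cases hc : 16 * g ≤ 25 * y
  swap
  · have hc' : 25 * y < 16 * g := not_le.mp hc
    have t1 : G * (25 * y) ≤ G * (16 * g) := mul_le_mul_of_nonneg_left hc'.le hG.le
    have t2 : g * (e ^ 2 * w) ≤ g * (9 / 25 * G) := mul_le_mul_of_nonneg_left hp1 hg.le
    have t3 : g * (G - e ^ 2 * w) = g * G - g * (e ^ 2 * w) := by ring
    rw [t3]
    linarith
  have hq := hq' hc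
  -- g^2 e^2 w = s^2 H^2 G^2 w ≤ (9/10) s^2 H^2 G ≤ (g - y) g G
  have q1 : e ^ 2 * g ^ 2 = (H ^ 2 * s ^ 2) * G ^ 2 := by
    have : (e * g) ^ 2 = (s * (H * G)) ^ 2 := by rw [hrel]
    linear_combination this
  have q0 : 0 ≤ H ^ 2 * s ^ 2 := by positivity
  have q2 : (e ^ 2 * w) * g ^ 2 ≤ ((g - y) * g) * G := by
    calc (e ^ 2 * w) * g ^ 2 = (e ^ 2 * g ^ 2) * w := by ring
      _ = (H ^ 2 * s ^ 2) * G * (G * w) := by rw [q1]; ring
      _ ≤ (H ^ 2 * s ^ 2) * G * (9 / 10) :=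
          mul_le_mul_of_nonneg_left hw (mul_nonneg q0 hG.le)
      _ = (9 * (H ^ 2 * s ^ 2)) / 10 * G := by ring
      _ ≤ (10 * ((g - y) * g)) / 10 * G := by
          apply mul_le_mul_of_nonneg_right _ hG.le
          linarith
      _ = ((g - y) * g) * G := by ring
  have q3 : (e ^ 2 * w) * g ≤ (g - y) * G := by
    have : ((e ^ 2 * w) * g) * g ≤ ((g - y) * G) * g := by
      calc ((e ^ 2 * w) * g) * g = (e ^ 2 * w) * g ^ 2 := by ring
        _ ≤ ((g - y) * g) * G := q2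
        _ = ((g - y) * G) * g := by ring
    exact le_of_mul_le_mul_right this hg
  have q4 : g * (G - e ^ 2 * w) = g * G - (e ^ 2 * w) * g := by ring
  have q5 : (g - y) * G = g * G - G * y := by ring
  rw [q4]
  linarith

/-- The step of scheme C for the quartic potential. -/
theorem quart_step {r : ℝ} (hr0 : 0 < r) (hr1 : r < 1) (hQ : QFS r) (m d : ℝ)
    (hmd : |m| + |d| ≤ 1) (hd3 : 3 * d ^ 2 ≤ 1 - m ^ 2) :
    SCStep r (fun m => hh r * GG m) m d := by
  left
  set H := hh r with hH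
  have hHpos : 0 < H := hh_pos (by rw [abs_of_pos hr0]; exact hr1)
  set v := 1 - m ^ 2 with hv
  have hx : (H * GG (m + d) + H * GG (m - d)) / 2
      = H * (GG m - d ^ 2 * ((5 + 6 * m ^ 2 + d ^ 2) / 6)) := by
    rw [← GG_avg]; ring
  have hdv : |d| ≤ v := abs_le_c hmd
  have hv1 : v ≤ 1 := by rw [hv]; nlinarith [sq_nonneg m]
  have hm2 : m ^ 2 ≤ 1 := by
    have : 0 ≤ v := le_trans (abs_nonneg d) hdv
    rw [hv] at this
    linarith
  have hvG : v ≤ GG m := by
    unfold GG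
    rw [← hv]
    have : 0 ≤ v := le_trans (abs_nonneg d) hdv
    nlinarith [sq_nonneg m]
  rcases (abs_nonneg d).eq_or_lt with hd0 | hdpos
  · have hd : d = 0 := abs_eq_zero.mp hd0.symm
    refine ⟨1, 0, isDC_one_zero hr0.le hr1.le, by norm_num, le_refl _, ?_⟩
    simp only [hx]
    rw [hd]
    simp
  · set e := |d| with he
    have he2 : e ^ 2 = d ^ 2 := sq_abs d
    have hvpos : 0 < v := lt_of_lt_of_le hdpos hdv
    have hGpos : 0 < GG m := lt_of_lt_of_le hvpos hvG
    have hev : e < v := by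
      rcases hdv.eq_or_lt with h | h
      · exfalso
        have h3 : 3 * v ^ 2 ≤ v := by
          have : 3 * e ^ 2 ≤ v := by rw [he2]; exact hd3
          rwa [h] at this
        have h4 : v ≤ 1 / 3 := by nlinarith
        have h5 : v ≤ 1 - |m| := by rw [← h]; linarith
        have h6 : m ^ 2 = |m| ^ 2 := (sq_abs m).symm
        have h7 : 0 ≤ |m| := abs_nonneg m
        have h8 : |m| ≤ 1 := by linarith
        have h9 : |m| * (1 - |m|) ≤ 0 := by
          have : 1 - |m| ^ 2 ≤ 1 - |m| := by rw [← h6]; exact h5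
          nlinarith
        have h10 : |m| = 0 ∨ |m| = 1 := by
          rcases h7.eq_or_lt with h0 | h0
          · left; exact h0.symm
          · right
            have : 1 - |m| ≤ 0 := by
              by_contra hc
              have hc' : 0 < 1 - |m| := not_le.mp hc
              nlinarith [mul_pos h0 hc']
            linarith
        rcases h10 with h0 | h0
        · have : v = 1 := by rw [hv, h6, h0]; norm_num
          linarith
        · have : v = 0 := by rw [hv, h6, h0]; norm_num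
          linarith
      · exact h
    have heG : e < GG m := lt_of_lt_of_le hev hvG
    have hcont : ContinuousOn (fun s : ℝ => s * (H * GG m) - e * hh (r * s)) (Set.Icc 0 1) := by
      apply Continuous.continuousOn
      exact (continuous_id.mul continuous_const).sub
        (continuous_const.mul (hh_continuous.comp (continuous_const.mul continuous_id)))
    have hz : (0 : ℝ) ∈ Set.Icc ((fun s : ℝ => s * (H * GG m) - e * hh (r * s)) 0)
        ((fun s : ℝ => s * (H * GG m) - e * hh (r * s)) 1) := by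
      constructor
      · simp only [zero_mul, mul_zero, zero_sub]
        rw [hh_zero]
        have := mul_pos hdpos psi2_one_pos
        linarith
      · simp only [one_mul, mul_one]
        rw [← hH]
        nlinarith
    obtain ⟨s, hs, hs0⟩ := intermediate_value_Icc (by norm_num : (0 : ℝ) ≤ 1) hcont hz
    simp only at hs0
    have hspos : 0 < s := by
      rcases hs.1.eq_or_lt with h | h
      · exfalso
        rw [← h] at hs0
        simp only [zero_mul, mul_zero, zero_sub] at hs0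
        rw [hh_zero] at hs0
        have := mul_pos hdpos psi2_one_pos
        linarith
      · exact h
    have hslt : s < 1 := by
      rcases hs.2.eq_or_lt with h | h
      · exfalso
        rw [h] at hs0
        simp only [one_mul, mul_one] at hs0
        rw [← hH] at hs0
        nlinarith
      · exact h
    have hrs0 : 0 < r * s := mul_pos hr0 hspos
    have hrs1 : r * s < 1 := by nlinarith
    set g := hh (r * s) with hg
    have hgpos : 0 < g := hh_pos (by rw [abs_of_pos hrs0]; exact hrs1)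
    have hrel : s * (H * GG m) = e * g := by linarith
    have hA := dcA_pos hr0 hr1 hspos hslt
    have hB := dcB_nonneg hr0 hr1 hspos hslt
    have hBm := dcB_mul hr0 hr1 hspos hslt
    rw [← hg] at hBm
    refine ⟨dcA r s, dcB r s, isDC_cone hr0 hr1 hspos hslt, hA.le, hB, ?_⟩
    simp only [hx]
    rw [← he2]
    have h3 : 3 * e ^ 2 ≤ 1 - m ^ 2 := by rw [he2]; exact hd3
    have hw := quart_poly hm2 h3
    have hp1 := quart_p1 hdpos.le hmd h3
    have q := hQ s hspos hslt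
    rw [← hg, ← hH] at q
    have key : GG m * hh s ≤ g * (GG m - e ^ 2 * ((5 + 6 * m ^ 2 + e ^ 2) / 6)) :=
      quart_key hGpos hgpos hrel hw hp1 q
    exact quart_alg hHpos hspos hgpos hrel hA.le hBm key

/-- `hh r ≤ 1` for `r ≥ 2/3`. -/
theorem hh_le_one_of {r : ℝ} (h0 : 2 / 3 ≤ r) (h1 : r ≤ 1) : hh r ≤ 1 := by
  have h := sq_le_psi2 (t := r) (by rw [abs_of_nonneg (by linarith)]; exact h1)
  have hlog : Real.log 2 < 0.6931471808 := Real.log_two_lt_d9
  unfold hh
  rw [psi2_one]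
  nlinarith

/-- The Courtade-Kumar inequality at noise `ε` from `QF (1 - 2 ε)`. -/
theorem ck_of_QF {ε : ℝ} (h0 : 0 < ε) (h1 : ε ≤ 1 / 6) (hQ : QFS (1 - 2 * ε)) (f : Cube n → ℤˣ) :
    mutualInfo (law n ε) (fun ω => f ω.1) (fun ω => noisy ω) ≤ 1 - h2 ε := by
  have hr0 : 0 < 1 - 2 * ε := by linarith
  have hr1 : 1 - 2 * ε < 1 := by linarith
  have hHpos : 0 ≤ hh (1 - 2 * ε) := hh_nonneg (by rw [abs_of_pos hr0]; exact hr1.le)
  have hH : hh (1 - 2 * ε) ≤ 1 := hh_le_one_of (by linarith) hr1.le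
  apply ck_of_potential (fun m => hh (1 - 2 * ε) * GG m) h0.le (by linarith)
  · unfold GG; norm_num
  · unfold GG; norm_num
  · unfold GG; norm_num
  · exact quart_step hr0 hr1 hQ
  · intro m hm
    have h2 := sq_le_psi2 hm
    have hm2 : m ^ 2 ≤ 1 := by
      have := (sq_le_one_iff_abs_le_one m).2 hm
      exact this
    have h3 : 1 - GG m ≤ m ^ 2 := by
      unfold GG
      nlinarith [sq_nonneg m]
    have h4 : hh (1 - 2 * ε) * (1 - GG m) ≤ 1 * m ^ 2 := by
      calc hh (1 - 2 * ε) * (1 - GG m) ≤ hh (1 - 2 * ε) * m ^ 2 :=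
            mul_le_mul_of_nonneg_left h3 hHpos
        _ ≤ 1 * m ^ 2 := mul_le_mul_of_nonneg_right hH (sq_nonneg m)
    have h5 : hh m - psi2 (1 - 2 * ε) = hh (1 - 2 * ε) - psi2 m := by
      unfold hh; ring
    rw [h5]
    have h6 : hh (1 - 2 * ε) * GG m = hh (1 - 2 * ε) - hh (1 - 2 * ε) * (1 - GG m) := by ring
    rw [h6]
    linarith

/-- noiseless case -/
theorem ck_zero (f : Cube n → ℤˣ) :
    mutualInfo (law n 0) (fun ω => f ω.1) (fun ω => noisy ω) ≤ 1 - h2 0 := by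
  apply ck_of_potential (fun _ => 0) (le_refl 0) (by norm_num)
  · exact le_refl _
  · exact le_refl _
  · norm_num
    rw [hh_one]
  · intro m d _ _
    left
    refine ⟨1, 0, ?_, by norm_num, le_refl _, by norm_num⟩
    have := isDC_one_zero (r := 1 - 2 * 0) (by norm_num) (by norm_num)
    exact this
  · intro m hm
    have := psi2_nonneg hm
    unfold hh
    norm_num
    linarith

/-- The full Courtade-Kumar inequality, from (QFS) on `[2/3, 1)`. -/
theorem ck_full_of_QF (hQ : ∀ r : ℝ, 2 / 3 ≤ r → r < 1 → QFS r) (f : Cube n → ℤˣ) {ε : ℝ}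
    (h0 : 0 ≤ ε) (h1 : ε ≤ 1 / 2) :
    mutualInfo (law n ε) (fun ω => f ω.1) (fun ω => noisy ω) ≤ 1 - h2 ε := by
  rcases le_total (1 / 6) ε with h | h
  · exact ck_sixth f h h1
  · rcases h0.eq_or_lt with h' | h'
    · rw [← h']
      exact ck_zero f
    · exact ck_of_QF h' h (hQ _ (by linarith) (by linarith)) f

end Vale.Agent.P322
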