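import Vale.Agent.P322.ML
import Vale.Agent.P322.SCQuart

/-!
Glue (helper22): by the monotone lines lemma, the two-parameter inequality `QFS r` for all `r` in
`[r0, 1)` follows from `QFS r0`.
-/

namespace Vale.Agent.P322

open Real

variable {n : ℕ}

theorem qfs_mono {r0 r : ℝ} (hr0 : 0 < r0) (h01 : r0 ≤ r) (hr1 : r < 1) (hQ : QFS r0) : QFS r := by
  intro s hs0 hs1 hside
  have hr01 : r0 < 1 := lt_of_le_of_lt h01 hr1
  have hrpos : 0 < r := lt_of_lt_of_le hr0 h01
  have hH : 0 < hh r := hh_pos (by rw [abs_of_pos hrpos]; exact hr1)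
  have hH0 : 0 < hh r0 := hh_pos (by rw [abs_of_pos hr0]; exact hr01)
  have hb : 0 < hh s := hh_pos (by rw [abs_of_pos hs0]; exact hs1)
  -- intermediate value theorem for s0
  have hcont : ContinuousOn (fun x : ℝ => hh s * hh r0 * x - hh x * (hh r * s)) (Set.Icc 0 1) := by
    apply Continuous.continuousOn
    exact (continuous_const.mul continuous_id).sub (hh_continuous.mul continuous_const)
  have hz : (0 : ℝ) ∈ Set.Icc ((fun x : ℝ => hh s * hh r0 * x - hh x * (hh r * s)) 0)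
      ((fun x : ℝ => hh s * hh r0 * x - hh x * (hh r * s)) 1) := by
    constructor
    · simp only [mul_zero, zero_sub, hh_zero]
      have := mul_pos psi2_one_pos (mul_pos hH hs0)
      linarith
    · simp only [mul_one, hh_one, zero_mul, sub_zero]
      exact (mul_pos hb hH0).le
  obtain ⟨s0, hs0m, hs0e⟩ := intermediate_value_Icc (by norm_num : (0 : ℝ) ≤ 1) hcont hz
  simp only at hs0e
  have hs0pos : 0 < s0 := by
    rcases hs0m.1.eq_or_lt with h | h
    · exfalso
      rw [← h] at hs0e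
      simp only [mul_zero, zero_sub, hh_zero] at hs0e
      have := mul_pos psi2_one_pos (mul_pos hH hs0)
      linarith
    · exact h
  have hs0lt : s0 < 1 := by
    rcases hs0m.2.eq_or_lt with h | h
    · exfalso
      rw [h] at hs0e
      simp only [mul_one, hh_one, zero_mul, sub_zero] at hs0e
      have := mul_pos hb hH0
      linarith
    · exact h
  -- the tangent line at (r0, s0)
  set A0 := dcA r0 s0 with hA0
  set B0 := dcB r0 s0 with hB0
  have hBm : B0 * s0 = hh (r0 * s0) - A0 * hh s0 := dcB_mul hr0 hr01 hs0pos hs0lt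
  have hDC : IsDC r0 A0 B0 := isDC_cone hr0 hr01 hs0pos hs0lt
  have hline : ∀ z, 0 ≤ z → z ≤ 1 → A0 * hh z + B0 / hh r0 * hh r0 * z ≤ hh (r0 * z) := by
    intro z hz0 hz1
    have h := hDC 0 z (by rw [abs_zero, abs_of_nonneg hz0]; linarith)
    rw [div_mul_cancel₀ _ hH0.ne']
    simp only [zero_add, zero_sub] at h
    rw [hh_neg, hh_neg, abs_of_nonneg hz0] at h
    linarith
  have hml := ml_lines hr0 hr01 hline r s h01 hr1.le hs0.le hs1.le
  -- bookkeeping
  set u := hh r * s with hu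
  set u0 := hh r0 * s0 with hu0
  have hupos : 0 < u := mul_pos hH hs0
  have hu0pos : 0 < u0 := mul_pos hH0 hs0pos
  set g := hh (r * s) with hg
  set g0 := hh (r0 * s0) with hg0
  set b := hh s with hbdef
  set b0 := hh s0 with hb0def
  have hb0 : 0 < b0 := hh_pos (by rw [abs_of_pos hs0pos]; exact hs0lt)
  have hrel : b0 * u = b * u0 := by
    rw [hu0]; linarith
  -- X = g u0 ≥ Y = u g0
  have hXY : u * g0 ≤ g * u0 := by
    have e : (A0 * b + B0 / hh r0 * hh r * s) * u0 = u * g0 := by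
      have e1 : B0 / hh r0 * hh r * s * u0 = B0 * s0 * u := by
        rw [hu0, hu]; field_simp
      have e2 : A0 * b * u0 = A0 * (b0 * u) := by rw [hrel]; ring
      calc (A0 * b + B0 / hh r0 * hh r * s) * u0
          = A0 * b * u0 + B0 / hh r0 * hh r * s * u0 := by ring
        _ = A0 * (b0 * u) + B0 * s0 * u := by rw [e1, e2]
        _ = u * g0 := by rw [hBm]; ring
    rw [← e]
    exact mul_le_mul_of_nonneg_right hml hu0pos.le
  -- g0 ≥ b0
  have hg0b0 : b0 ≤ g0 := by
    have hrs0 : 0 < r0 * s0 := mul_pos hr0 hs0pos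
    have hrs : r0 * s0 ≤ s0 := by nlinarith
    have h4 : psi2 (r0 * s0) ≤ psi2 s0 := psi2_mono hrs0.le hrs hs0lt.le
    rw [hb0def, hg0]
    unfold hh
    linarith
  -- side condition at (r0, s0)
  have hside0 : 16 * g0 ≤ 25 * b0 := by
    have h1 : 16 * (u * g0) ≤ 25 * (b0 * u) := by
      calc 16 * (u * g0) ≤ 16 * (g * u0) := by linarith
        _ ≤ 25 * b * u0 := by nlinarith
        _ = 25 * (b0 * u) := by rw [hrel]; ring
    have h2 : (16 * g0) * u ≤ (25 * b0) * u := by linarith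
    exact le_of_mul_le_mul_right h2 hupos
  have hq := hQ s0 hs0pos hs0lt hside0
  -- final algebra
  have hq' : 9 * u0 ^ 2 ≤ 10 * ((g0 - b0) * g0) := by
    have : 9 * ((hh r0) ^ 2 * s0 ^ 2) = 9 * u0 ^ 2 := by rw [hu0]; ring
    rw [← this]; exact hq
  have hY : 9 * u0 ^ 2 * u ^ 2 ≤ 10 * ((u * g0 - b0 * u) * (u * g0)) := by
    have : 10 * ((u * g0 - b0 * u) * (u * g0)) = 10 * ((g0 - b0) * g0) * u ^ 2 := by ring
    rw [this]
    exact mul_le_mul_of_nonneg_right hq' (sq_nonneg u)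
  have hZ : 0 ≤ b0 * u := (mul_pos hb0 hupos).le
  have hYZ : b0 * u ≤ u * g0 := by nlinarith
  have hmono : (u * g0 - b0 * u) * (u * g0) ≤ (g * u0 - b0 * u) * (g * u0) := by nlinarith
  have hfin : 9 * u ^ 2 * u0 ^ 2 ≤ 10 * ((g - b) * g) * u0 ^ 2 := by
    have : 10 * ((g - b) * g) * u0 ^ 2 = 10 * ((g * u0 - b * u0) * (g * u0)) := by ring
    rw [this, ← hrel]
    nlinarith
  have hfin2 : 9 * u ^ 2 ≤ 10 * ((g - b) * g) :=
    le_of_mul_le_mul_right hfin (by positivity)
  have : 9 * ((hh r) ^ 2 * s ^ 2) = 9 * u ^ 2 := by rw [hu]; ring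
  rw [this]
  exact hfin2

/-- The full Courtade-Kumar inequality from the one-variable inequality `QFS (2/3)`. -/
theorem ck_full_of_QFS_two_thirds (hQ : QFS (2 / 3)) (f : Cube n → ℤˣ) {ε : ℝ}
    (h0 : 0 ≤ ε) (h1 : ε ≤ 1 / 2) :
    mutualInfo (law n ε) (fun ω => f ω.1) (fun ω => noisy ω) ≤ 1 - h2 ε :=
  ck_full_of_QF (fun r hr hr1 => qfs_mono (by norm_num) hr hr1 hQ) f h0 h1

end Vale.Agent.P322
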