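import Vale.Agent.P322.SCQuad

/-!
Monotone-lines lemma (helper22): normalised DC lines stay valid when the noise parameter grows.
Independent formalisation (lead).
-/

namespace Vale.Agent.P322

open Real Set

/-- (CL) -/
theorem mll_CL {c v : ℝ} (hc0 : 0 ≤ c) (hc1 : c ≤ 1) (hv0 : 0 < v) (hv1 : v ≤ 1) :
    Real.log (1 + c * v) * Real.log (1 + 1 / v) ≤ Real.log (1 + c / v) * Real.log (1 + v) := by
  have hiv : 0 < 1 / v := by positivity
  have hTpos : 0 < Real.log (1 + 1 / v) := Real.log_pos (by linarith)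
  obtain ⟨T, hT⟩ : ∃ T, T = Real.log (1 + 1 / v) := ⟨_, rfl⟩
  rw [← hT] at hTpos ⊢
  obtain ⟨τ, hτ⟩ : ∃ τ, τ = Real.log (1 + v) / T := ⟨_, rfl⟩
  have hτ0 : 0 ≤ τ := by
    rw [hτ]; exact div_nonneg (Real.log_nonneg (by linarith)) hTpos.le
  have hτ1 : τ ≤ 1 := by
    rw [hτ, div_le_one hTpos, hT]
    apply Real.log_le_log (by linarith)
    have : v ≤ 1 / v := by rw [le_div_iff₀ hv0]; nlinarith
    linarith
  have hconc := Real.concaveOn_rpow hτ0 hτ1
  have h1 : (1:ℝ) ∈ Set.Ici (0:ℝ) := by simp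
  have h2 : (1 + 1 / v) ∈ Set.Ici (0:ℝ) := by
    simp only [Set.mem_Ici]; linarith
  have h3 := hconc.2 h1 h2 (sub_nonneg.2 hc1) hc0 (by ring)
  have hpow : (1 + 1 / v) ^ τ = 1 + v := by
    rw [Real.rpow_def_of_pos (by linarith), ← hT, hτ, mul_div_cancel₀ _ hTpos.ne']
    exact Real.exp_log (by linarith)
  simp only [smul_eq_mul, Real.one_rpow, hpow] at h3
  have h4 : (1 - c) * 1 + c * (1 + 1 / v) = 1 + c / v := by ring
  rw [h4] at h3
  have h5 : 1 + c * v ≤ (1 + c / v) ^ τ := by linarith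
  have hcv : 0 ≤ c / v := by positivity
  have h6 : Real.log (1 + c * v) ≤ τ * Real.log (1 + c / v) := by
    rw [← Real.log_rpow (by linarith)]
    exact Real.log_le_log (by nlinarith) h5
  have h7 : τ * T = Real.log (1 + v) := by
    rw [hτ]; field_simp
  calc Real.log (1 + c * v) * T ≤ τ * Real.log (1 + c / v) * T :=
        mul_le_mul_of_nonneg_right h6 hTpos.le
    _ = Real.log (1 + c / v) * (τ * T) := by ring
    _ = Real.log (1 + c / v) * Real.log (1 + v) := by rw [h7]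

theorem mll_hasDerivAt_psi2 {s : ℝ} (hA : 0 < 1 + s) (hB : 0 < 1 - s) :
    HasDerivAt psi2 (dpsi s) s := by
  have h1 : HasDerivAt (fun t : ℝ => 1 + t) 1 s := (hasDerivAt_id s).const_add 1
  have h2 : HasDerivAt (fun t : ℝ => 1 - t) (-1) s := (hasDerivAt_id s).const_sub 1
  have h3 := h1.fun_mul (h1.log hA.ne')
  have h4 := h2.fun_mul (h2.log hB.ne')
  have h := h3.fun_add h4
  refine h.congr_deriv ?_
  unfold dpsi
  field_simp
  ring

theorem mll_hasDerivAt_hh {s : ℝ} (hA : 0 < 1 + s) (hB : 0 < 1 - s) :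
    HasDerivAt hh (-dpsi s) s := by
  have := (mll_hasDerivAt_psi2 hA hB).const_sub (psi2 1)
  exact this

/-- `nn x = 2 log 2 - 2 log (1+x)` -/
noncomputable def mllN (x : ℝ) : ℝ := psi2 1 - 2 * Real.log (1 + x)

theorem mll_hh_eq (x : ℝ) : hh x = mllN x + (1 - x) * dpsi x := by
  unfold hh mllN dpsi psi2
  ring

theorem mll_psi2_one : psi2 1 = 2 * Real.log 2 := by
  unfold psi2; norm_num


theorem mll_N_nonneg {z : ℝ} (hz0 : 0 ≤ z) (hz1 : z ≤ 1) : 0 ≤ mllN z := by
  unfold mllN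
  rw [mll_psi2_one]
  have : Real.log (1 + z) ≤ Real.log 2 := Real.log_le_log (by linarith) (by linarith)
  linarith

theorem mll_dpsi_pos {r : ℝ} (hr0 : 0 < r) (hr1 : r < 1) : 0 < dpsi r := by
  unfold dpsi
  have : Real.log (1 - r) < Real.log (1 + r) := Real.log_lt_log (by linarith) (by linarith)
  linarith

/-- the key inequality in terms of logarithms -/
theorem mll_logs {r z : ℝ} (hr0 : 0 < r) (hr1 : r < 1) (hz0 : 0 < z) (hz1 : z < 1) :
    0 ≤ dpsi r * (mllN (r * z) - mllN z) - dpsi (r * z) * mllN r := by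
  have hrz0 : 0 < r * z := mul_pos hr0 hz0
  have hrz1 : r * z < 1 := by nlinarith
  have p1 : 0 < 1 + r := by linarith
  have p2 : 0 < 1 - r := by linarith
  have p3 : 0 < 1 + z := by linarith
  have p4 : 0 < 1 - z := by linarith
  have p5 : 0 < 1 + r * z := by linarith
  have p6 : 0 < 1 - r * z := by linarith
  have hc0 : 0 ≤ (1 - z) / (1 + z) := by positivity
  have hc1 : (1 - z) / (1 + z) ≤ 1 := by rw [div_le_one p3]; linarith
  have hv0 : 0 < (1 - r) / (1 + r) := by positivity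
  have hv1 : (1 - r) / (1 + r) ≤ 1 := by rw [div_le_one p1]; linarith
  have hCL := mll_CL hc0 hc1 hv0 hv1
  have e1 : 1 + (1 - z) / (1 + z) * ((1 - r) / (1 + r)) = 2 * (1 + r * z) / ((1 + r) * (1 + z)) := by
    field_simp; ring
  have e2 : 1 + 1 / ((1 - r) / (1 + r)) = 2 / (1 - r) := by
    field_simp; ring
  have e3 : 1 + (1 - z) / (1 + z) / ((1 - r) / (1 + r)) = 2 * (1 - r * z) / ((1 + z) * (1 - r)) := by
    field_simp; ring
  have e4 : 1 + (1 - r) / (1 + r) = 2 / (1 + r) := by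
    field_simp; ring
  rw [e1, e2, e3, e4] at hCL
  rw [Real.log_div (by positivity) (by positivity), Real.log_mul (by norm_num) p5.ne',
    Real.log_mul p1.ne' p3.ne', Real.log_div (by norm_num) p2.ne',
    Real.log_div (by positivity) (by positivity), Real.log_mul (by norm_num) p6.ne',
    Real.log_mul p3.ne' p2.ne', Real.log_div (by norm_num) p1.ne'] at hCL
  unfold dpsi mllN
  rw [mll_psi2_one]
  nlinarith [hCL]

theorem mll_interior {A β r z : ℝ} (hA : A ≤ 1) (hr0 : 0 < r) (hr1 : r < 1) (hz0 : 0 < z)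
    (hz1 : z < 1) (e1 : dpsi (r * z) = β * dpsi r)
    (e2 : A * dpsi z = r * dpsi (r * z) + β * hh r) :
    0 ≤ hh (r * z) - A * hh z - β * z * hh r := by
  have hval : hh (r * z) - A * hh z - β * z * hh r = mllN (r * z) - A * mllN z - β * mllN r := by
    rw [mll_hh_eq r] at e2
    rw [mll_hh_eq (r * z), mll_hh_eq z, mll_hh_eq r]
    linear_combination (-(1 - z)) * e2 + (1 - r) * e1
  rw [hval]
  have hD := mll_dpsi_pos hr0 hr1
  have hNz := mll_N_nonneg hz0.le hz1.le
  have hl := mll_logs hr0 hr1 hz0 hz1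
  rw [e1] at hl
  have h3 : 0 ≤ dpsi r * (mllN (r * z) - mllN z - β * mllN r) := by
    have : dpsi r * (mllN (r * z) - mllN z - β * mllN r)
        = dpsi r * (mllN (r * z) - mllN z) - β * dpsi r * mllN r := by ring
    rw [this]; exact hl
  have h4 : 0 ≤ mllN (r * z) - mllN z - β * mllN r := by
    by_contra hneg
    have := mul_neg_of_pos_of_neg hD (not_le.1 hneg)
    linarith
  nlinarith [mul_nonneg (sub_nonneg.2 hA) hNz]

theorem mll_ML {r0 A B0 : ℝ} (h0 : 0 < r0) (h1 : r0 < 1)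
    (hyp : ∀ z, 0 ≤ z → z ≤ 1 → A * hh z + B0 * z ≤ hh (r0 * z)) :
    ∀ r z, r0 ≤ r → r ≤ 1 → 0 ≤ z → z ≤ 1 →
      A * hh z + B0 / hh r0 * hh r * z ≤ hh (r * z) := by
  have hH0 : 0 < hh r0 := hh_pos (by rw [abs_lt]; constructor <;> linarith)
  have hc0 : 0 < psi2 1 := psi2_one_pos
  have hA : A ≤ 1 := by
    have := hyp 0 le_rfl zero_le_one
    simp only [mul_zero, add_zero, hh_zero] at this
    by_contra hneg
    have hneg2 := not_le.1 hneg
    nlinarith
  obtain ⟨β, hβ⟩ : ∃ β, β = B0 / hh r0 := ⟨_, rfl⟩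
  have hB : β ≤ 1 := by
    have := hyp 1 zero_le_one le_rfl
    simp only [mul_one, hh_one, mul_zero, zero_add] at this
    rw [hβ, div_le_one hH0]; exact this
  rw [← hβ]
  obtain ⟨F, hF⟩ : ∃ F : ℝ × ℝ → ℝ, F = fun p => hh (p.1 * p.2) - A * hh p.2 - β * p.2 * hh p.1 :=
    ⟨_, rfl⟩
  have hFc : Continuous F := by
    rw [hF]
    exact ((hh_continuous.comp (continuous_fst.mul continuous_snd)).sub
      (continuous_const.mul (hh_continuous.comp continuous_snd))).sub
      ((continuous_const.mul continuous_snd).mul (hh_continuous.comp continuous_fst))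
  have hK : IsCompact (Set.Icc r0 1 ×ˢ Set.Icc (0:ℝ) 1) := isCompact_Icc.prod isCompact_Icc
  have hne : (Set.Icc r0 1 ×ˢ Set.Icc (0:ℝ) 1).Nonempty :=
    ⟨(r0, 0), ⟨⟨le_rfl, h1.le⟩, ⟨le_rfl, zero_le_one⟩⟩⟩
  obtain ⟨p, hpK, hmin⟩ := hK.exists_isMinOn hne hFc.continuousOn
  obtain ⟨⟨hp1a, hp1b⟩, ⟨hp2a, hp2b⟩⟩ := hpK
  have hminv : ∀ r z, r0 ≤ r → r ≤ 1 → 0 ≤ z → z ≤ 1 → F p ≤ F (r, z) := by
    intro r z a b c d
    exact hmin (show (r, z) ∈ Set.Icc r0 1 ×ˢ Set.Icc (0:ℝ) 1 from ⟨⟨a, b⟩, ⟨c, d⟩⟩)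
  have hFp : 0 ≤ F p := by
    have hFpe : F p = hh (p.1 * p.2) - A * hh p.2 - β * p.2 * hh p.1 := by rw [hF]
    rcases eq_or_lt_of_le hp1a with hr | hr
    · -- r = r0
      rw [hFpe, ← hr]
      have := hyp p.2 hp2a hp2b
      have e : β * p.2 * hh r0 = B0 * p.2 := by rw [hβ]; field_simp
      rw [e]; linarith
    rcases eq_or_lt_of_le hp1b with hr' | hr'
    · rw [hFpe, hr', hh_one, one_mul]
      have := hh_nonneg (t := p.2) (by rw [abs_le]; constructor <;> linarith)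
      nlinarith [mul_nonneg (sub_nonneg.2 hA) this]
    rcases eq_or_lt_of_le hp2a with hz | hz
    · rw [hFpe, ← hz]
      simp only [mul_zero, hh_zero, zero_mul, sub_zero]
      nlinarith
    rcases eq_or_lt_of_le hp2b with hz' | hz'
    · rw [hFpe, hz', hh_one]
      simp only [mul_one, mul_zero, sub_zero]
      have := hh_nonneg (t := p.1) (by rw [abs_le]; constructor <;> linarith)
      nlinarith [mul_nonneg (sub_nonneg.2 hB) this]
    -- interior
    have hr0' : 0 < p.1 := lt_trans h0 hr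
    have hrz0 : 0 < p.1 * p.2 := mul_pos hr0' hz
    have hrz1 : p.1 * p.2 < 1 := by nlinarith
    have hd1 : HasDerivAt (fun r => F (r, p.2))
        (-dpsi (p.1 * p.2) * (1 * p.2) - β * p.2 * (-dpsi p.1)) p.1 := by
      rw [hF]
      have b1 : HasDerivAt hh (-dpsi (p.1 * p.2)) (p.1 * p.2) :=
        mll_hasDerivAt_hh (by linarith) (by linarith)
      have b2 : HasDerivAt (fun r : ℝ => r * p.2) (1 * p.2) p.1 :=
        (hasDerivAt_id p.1).mul_const p.2
      have a1 : HasDerivAt (fun r : ℝ => hh (r * p.2)) (-dpsi (p.1 * p.2) * (1 * p.2)) p.1 :=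
        HasDerivAt.comp (h₂ := hh) (h := fun r : ℝ => r * p.2) p.1 b1 b2
      have a2 : HasDerivAt (fun r : ℝ => β * p.2 * hh r) (β * p.2 * (-dpsi p.1)) p.1 :=
        (mll_hasDerivAt_hh (by linarith) (by linarith)).const_mul _
      exact (a1.sub_const (A * hh p.2)).fun_sub a2
    have hd2 : HasDerivAt (fun z => F (p.1, z))
        (-dpsi (p.1 * p.2) * (p.1 * 1) - A * (-dpsi p.2) - β * 1 * hh p.1) p.2 := by
      rw [hF]
      have b1 : HasDerivAt hh (-dpsi (p.1 * p.2)) (p.1 * p.2) :=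
        mll_hasDerivAt_hh (by linarith) (by linarith)
      have b2 : HasDerivAt (fun z : ℝ => p.1 * z) (p.1 * 1) p.2 :=
        (hasDerivAt_id p.2).const_mul p.1
      have a1 : HasDerivAt (fun z : ℝ => hh (p.1 * z)) (-dpsi (p.1 * p.2) * (p.1 * 1)) p.2 :=
        HasDerivAt.comp (h₂ := hh) (h := fun z : ℝ => p.1 * z) p.2 b1 b2
      have a2 : HasDerivAt (fun z : ℝ => A * hh z) (A * (-dpsi p.2)) p.2 :=
        (mll_hasDerivAt_hh (by linarith) (by linarith)).const_mul _
      have a3 : HasDerivAt (fun z : ℝ => β * z * hh p.1) (β * 1 * hh p.1) p.2 :=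
        ((hasDerivAt_id p.2).const_mul β).mul_const _
      exact (a1.fun_sub a2).fun_sub a3
    have hm1 : IsLocalMin (fun r => F (r, p.2)) p.1 := by
      have : IsMinOn (fun r => F (r, p.2)) (Set.Icc r0 1) p.1 := by
        intro r hr2
        exact hminv r p.2 hr2.1 hr2.2 hp2a hp2b
      exact this.isLocalMin (Icc_mem_nhds hr hr')
    have hm2 : IsLocalMin (fun z => F (p.1, z)) p.2 := by
      have : IsMinOn (fun z => F (p.1, z)) (Set.Icc 0 1) p.2 := by
        intro z hz2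
        exact hminv p.1 z hp1a hp1b hz2.1 hz2.2
      exact this.isLocalMin (Icc_mem_nhds hz hz')
    have q1 := hm1.hasDerivAt_eq_zero hd1
    have q2 := hm2.hasDerivAt_eq_zero hd2
    rw [hFpe]
    refine mll_interior hA hr0' hr' hz hz' ?_ ?_
    · have : p.2 * (dpsi (p.1 * p.2) - β * dpsi p.1) = 0 := by linarith
      rcases mul_eq_zero.1 this with h | h
      · exact absurd h hz.ne'
      · linarith
    · linarith
  intro r z a b c d
  have := hminv r z a b c d
  have e : F (r, z) = hh (r * z) - A * hh z - β * z * hh r := by rw [hF]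
  rw [e] at this
  nlinarith

end Vale.Agent.P322
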