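import Vale.Agent.P322.SCQuart

/-!
The one-variable inequality `QFS (2/3)`: eleven boxes in `x = s^2` on `(0, 0.65]`, and on
`[0.65, 1)` the side condition of `QFS` is violated.  All bounds come from the power series of
`psi2` (partial sums below, partial sums plus a geometric tail above) and `log 2`.
-/

namespace Vale.Agent.P322

open Real Finset

/-- partial sums of the power series of `psi2` in the variable `y = t^2` -/
noncomputable def SJ (J : ℕ) (y : ℝ) : ℝ :=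
  ∑ k ∈ range J, y ^ (k + 1) / ((2 * (k : ℝ) + 1) * ((k : ℝ) + 1))

/-- partial sums of the series of `(psi2 s - psi2 (2 s / 3)) / s^2` in the variable `x = s^2` -/
noncomputable def DJ (J : ℕ) (x : ℝ) : ℝ :=
  ∑ k ∈ range J, (1 - (4 / 9 : ℝ) ^ (k + 1)) * x ^ k / ((2 * (k : ℝ) + 1) * ((k : ℝ) + 1))

/-- polynomial upper bound of `psi2 t` for `y = t^2 ≤ 4/9` -/
noncomputable def PU (y : ℝ) : ℝ := SJ 6 y + 9 / 5 * (y ^ 7 / 91)

theorem SJ_le_psi2 {t : ℝ} (ht : |t| < 1) (J : ℕ) : SJ J (t ^ 2) ≤ psi2 t := by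
  unfold SJ
  exact sum_le_hasSum _ (fun k _ => by positivity) (psi2_hasSum ht)

theorem psi2_le_SJ {t : ℝ} (ht : |t| < 1) (J : ℕ) :
    psi2 t ≤ SJ J (t ^ 2)
      + (t ^ 2) ^ (J + 1) / ((2 * (J : ℝ) + 1) * ((J : ℝ) + 1)) * (1 - t ^ 2)⁻¹ := by
  have h := psi2_hasSum ht
  have h2 := (hasSum_nat_add_iff' J).mpr h
  have ht2 : t ^ 2 < 1 := by
    rw [← sq_abs]
    exact pow_lt_one₀ (abs_nonneg t) ht (by norm_num)
  have ht0 : 0 ≤ t ^ 2 := by positivity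
  have hg := (hasSum_geometric_of_lt_one ht0 ht2).mul_left
    ((t ^ 2) ^ (J + 1) / ((2 * (J : ℝ) + 1) * ((J : ℝ) + 1)))
  have hle := hasSum_le (fun k => ?_) h2 hg
  · unfold SJ
    linarith
  · have e : (t ^ 2) ^ (k + J + 1) = (t ^ 2) ^ (J + 1) * (t ^ 2) ^ k := by ring
    rw [e]
    have hk : (2 * (J : ℝ) + 1) * ((J : ℝ) + 1)
        ≤ (2 * ((k + J : ℕ) : ℝ) + 1) * (((k + J : ℕ) : ℝ) + 1) := by
      push_cast
      have h0 : (0 : ℝ) ≤ k := Nat.cast_nonneg k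
      have h1 : (0 : ℝ) ≤ J := Nat.cast_nonneg J
      nlinarith [mul_nonneg h0 h1, mul_nonneg h0 h0]
    have hJ : 0 < (2 * (J : ℝ) + 1) * ((J : ℝ) + 1) := by positivity
    have hpos : 0 ≤ (t ^ 2) ^ (J + 1) * (t ^ 2) ^ k := by positivity
    calc (t ^ 2) ^ (J + 1) * (t ^ 2) ^ k
          / ((2 * ((k + J : ℕ) : ℝ) + 1) * (((k + J : ℕ) : ℝ) + 1))
        ≤ (t ^ 2) ^ (J + 1) * (t ^ 2) ^ k / ((2 * (J : ℝ) + 1) * ((J : ℝ) + 1)) :=
          div_le_div_of_nonneg_left hpos hJ hk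
      _ = (t ^ 2) ^ (J + 1) / ((2 * (J : ℝ) + 1) * ((J : ℝ) + 1)) * (t ^ 2) ^ k := by ring

theorem SJ_mono {y z : ℝ} (hy : 0 ≤ y) (hyz : y ≤ z) (J : ℕ) : SJ J y ≤ SJ J z := by
  unfold SJ
  apply Finset.sum_le_sum
  intro k _
  have : y ^ (k + 1) ≤ z ^ (k + 1) := pow_le_pow_left₀ hy hyz _
  gcongr

theorem DJ_mono {y z : ℝ} (hy : 0 ≤ y) (hyz : y ≤ z) (J : ℕ) : DJ J y ≤ DJ J z := by
  unfold DJ
  apply Finset.sum_le_sum
  intro k _
  have h1 : y ^ k ≤ z ^ k := pow_le_pow_left₀ hy hyz _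
  have h2 : (0 : ℝ) ≤ 1 - (4 / 9 : ℝ) ^ (k + 1) := by
    have : (4 / 9 : ℝ) ^ (k + 1) ≤ 1 := pow_le_one₀ (by norm_num) (by norm_num)
    linarith
  gcongr

theorem DJ_nonneg {y : ℝ} (hy : 0 ≤ y) (J : ℕ) : 0 ≤ DJ J y := by
  unfold DJ
  apply Finset.sum_nonneg
  intro k _
  have h2 : (0 : ℝ) ≤ 1 - (4 / 9 : ℝ) ^ (k + 1) := by
    have : (4 / 9 : ℝ) ^ (k + 1) ≤ 1 := pow_le_one₀ (by norm_num) (by norm_num)
    linarith
  positivity

theorem PU_mono {y z : ℝ} (hy : 0 ≤ y) (hyz : y ≤ z) : PU y ≤ PU z := by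
  unfold PU
  have h1 := SJ_mono hy hyz 6
  have h2 : y ^ 7 ≤ z ^ 7 := pow_le_pow_left₀ hy hyz _
  linarith

theorem mul_DJ (J : ℕ) (x : ℝ) : x * DJ J x = SJ J x - SJ J (4 / 9 * x) := by
  unfold DJ SJ
  rw [Finset.mul_sum, ← Finset.sum_sub_distrib]
  apply Finset.sum_congr rfl
  intro k _
  rw [mul_pow]
  ring

theorem abs_lt_one_of {s : ℝ} (hs0 : 0 < s) (hs1 : s < 1) : |s| < 1 := by
  rw [abs_lt]
  constructor <;> linarith

theorem abs_lt_one_of' {s : ℝ} (hs0 : 0 < s) (hs1 : s < 1) : |2 / 3 * s| < 1 := by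
  rw [abs_lt]
  constructor <;> linarith

/-- lower bound of the difference -/
theorem diff_lower {s : ℝ} (hs0 : 0 < s) (hs1 : s < 1) (J : ℕ) :
    s ^ 2 * DJ J (s ^ 2) ≤ psi2 s - psi2 (2 / 3 * s) := by
  rw [mul_DJ]
  have h1 := psi2_hasSum (abs_lt_one_of hs0 hs1)
  have h2 := psi2_hasSum (abs_lt_one_of' hs0 hs1)
  have h3 := h1.sub h2
  have e : (2 / 3 * s) ^ 2 = 4 / 9 * s ^ 2 := by ring
  rw [e] at h3
  have h4 := sum_le_hasSum (range J) (fun k _ => ?_) h3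
  · unfold SJ
    rw [← Finset.sum_sub_distrib]
    exact h4
  · have hx : 0 ≤ s ^ 2 := by positivity
    have : (4 / 9 * s ^ 2) ^ (k + 1) ≤ (s ^ 2) ^ (k + 1) :=
      pow_le_pow_left₀ (by positivity) (by linarith) _
    have hc : 0 < (2 * (k : ℝ) + 1) * ((k : ℝ) + 1) := by positivity
    rw [← sub_div]
    apply div_nonneg _ hc.le
    linarith

/-- upper bound of `psi2 (2 s / 3)` -/
theorem psi2_le_PU {s : ℝ} (hs0 : 0 < s) (hs1 : s < 1) : psi2 (2 / 3 * s) ≤ PU (4 / 9 * s ^ 2) := by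
  have h := psi2_le_SJ (abs_lt_one_of' hs0 hs1) 6
  have e : (2 / 3 * s) ^ 2 = 4 / 9 * s ^ 2 := by ring
  rw [e] at h
  have hx1 : s ^ 2 < 1 := by nlinarith
  have hx0 : 0 ≤ s ^ 2 := by positivity
  have hy : 4 / 9 * s ^ 2 ≤ 4 / 9 := by linarith
  have hinv : (1 - 4 / 9 * s ^ 2)⁻¹ ≤ 9 / 5 := by
    rw [inv_le_comm₀ (by linarith) (by norm_num)]
    norm_num
    linarith
  have hp : 0 ≤ (4 / 9 * s ^ 2) ^ (6 + 1) / ((2 * ((6 : ℕ) : ℝ) + 1) * (((6 : ℕ) : ℝ) + 1)) := by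
    positivity
  have h5 := mul_le_mul_of_nonneg_left hinv hp
  unfold PU
  have e2 : (4 / 9 * s ^ 2) ^ (6 + 1) / ((2 * ((6 : ℕ) : ℝ) + 1) * (((6 : ℕ) : ℝ) + 1)) * (9 / 5)
      = 9 / 5 * ((4 / 9 * s ^ 2) ^ 7 / 91) := by
    norm_num
    ring
  linarith

theorem hh_two_thirds_le : hh (2 / 3) ≤ 9011226 / 10000000 := by
  have h := SJ_le_psi2 (t := 2 / 3) (by rw [abs_lt]; constructor <;> norm_num) 12
  have hl : Real.log 2 < 0.6931471808 := Real.log_two_lt_d9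
  unfold hh
  rw [psi2_one]
  have hn : (2 * 0.6931471808 - 9011226 / 10000000 : ℝ) ≤ SJ 12 ((2 / 3) ^ 2) := by
    unfold SJ
    simp only [Finset.sum_range_succ, Finset.sum_range_zero]
    norm_num
  linarith

theorem hh_two_thirds_nonneg : 0 ≤ hh (2 / 3) :=
  hh_nonneg (by rw [abs_le]; constructor <;> norm_num)

/-- one box of the inequality -/
theorem qf_box {s lo hi : ℝ} (hs0 : 0 < s) (hs1 : s < 1) (hlo0 : 0 ≤ lo) (hlo : lo ≤ s ^ 2)
    (hhi : s ^ 2 ≤ hi) (hal : 0 ≤ 2 * 0.6931471803 - PU (4 / 9 * hi))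
    (hnum : 9 * (9011226 / 10000000 : ℝ) ^ 2
      ≤ 10 * (DJ 14 lo * (2 * 0.6931471803 - PU (4 / 9 * hi)))) :
    9 * ((hh (2 / 3)) ^ 2 * s ^ 2) ≤ 10 * ((hh (2 / 3 * s) - hh s) * hh (2 / 3 * s)) := by
  have hx0 : 0 ≤ s ^ 2 := by positivity
  have hl : (0.6931471803 : ℝ) < Real.log 2 := Real.log_two_gt_d9
  have hH := hh_two_thirds_le
  have hH0 := hh_two_thirds_nonneg
  have hH2 : (hh (2 / 3)) ^ 2 ≤ (9011226 / 10000000 : ℝ) ^ 2 := pow_le_pow_left₀ hH0 hH 2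
  -- the difference
  have hd : s ^ 2 * DJ 14 lo ≤ hh (2 / 3 * s) - hh s := by
    have h1 := diff_lower hs0 hs1 14
    have h2 := DJ_mono hlo0 hlo 14
    have h3 := mul_le_mul_of_nonneg_left h2 hx0
    unfold hh
    linarith
  -- the value
  have ha : 2 * 0.6931471803 - PU (4 / 9 * hi) ≤ hh (2 / 3 * s) := by
    have h1 := psi2_le_PU hs0 hs1
    have h2 : PU (4 / 9 * s ^ 2) ≤ PU (4 / 9 * hi) := PU_mono (by positivity) (by linarith)
    unfold hh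
    rw [psi2_one]
    linarith
  have hD0 : 0 ≤ s ^ 2 * DJ 14 lo := mul_nonneg hx0 (DJ_nonneg hlo0 14)
  have hprod : s ^ 2 * DJ 14 lo * (2 * 0.6931471803 - PU (4 / 9 * hi))
      ≤ (hh (2 / 3 * s) - hh s) * hh (2 / 3 * s) :=
    mul_le_mul hd ha hal (le_trans hD0 hd)
  have h6 : 9 * ((hh (2 / 3)) ^ 2 * s ^ 2) ≤ 9 * ((9011226 / 10000000 : ℝ) ^ 2 * s ^ 2) := by
    have := mul_le_mul_of_nonneg_right hH2 hx0
    linarith
  have h7 : 9 * ((9011226 / 10000000 : ℝ) ^ 2 * s ^ 2)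
      ≤ 10 * (s ^ 2 * DJ 14 lo * (2 * 0.6931471803 - PU (4 / 9 * hi))) := by
    have := mul_le_mul_of_nonneg_right hnum hx0
    linarith
  linarith

/-- one box where the side condition fails -/
theorem side_box {s lo hi : ℝ} (hs0 : 0 < s) (hs1 : s < 1) (hlo0 : 0 ≤ lo) (hlo : lo ≤ s ^ 2)
    (hhi : s ^ 2 ≤ hi)
    (hnum : 25 * (2 * 0.6931471808 - SJ 14 lo) < 16 * (2 * 0.6931471803 - PU (4 / 9 * hi))) :
    25 * hh s < 16 * hh (2 / 3 * s) := by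
  have hl : (0.6931471803 : ℝ) < Real.log 2 := Real.log_two_gt_d9
  have hl' : Real.log 2 < 0.6931471808 := Real.log_two_lt_d9
  have ha : 2 * 0.6931471803 - PU (4 / 9 * hi) ≤ hh (2 / 3 * s) := by
    have h1 := psi2_le_PU hs0 hs1
    have h2 : PU (4 / 9 * s ^ 2) ≤ PU (4 / 9 * hi) := PU_mono (by positivity) (by linarith)
    unfold hh
    rw [psi2_one]
    linarith
  have hb : hh s ≤ 2 * 0.6931471808 - SJ 14 lo := by
    have h1 := SJ_le_psi2 (abs_lt_one_of hs0 hs1) 14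
    have h2 := SJ_mono hlo0 hlo 14
    unfold hh
    rw [psi2_one]
    linarith
  linarith

theorem qf_num0 : 0 ≤ 2 * 0.6931471803 - PU (4 / 9 * (15 / 100)) ∧
    9 * (9011226 / 10000000 : ℝ) ^ 2
      ≤ 10 * (DJ 14 (0) * (2 * 0.6931471803 - PU (4 / 9 * (15 / 100)))) := by
  unfold DJ PU SJ
  simp only [Finset.sum_range_succ, Finset.sum_range_zero]
  norm_num

theorem qf_num1 : 0 ≤ 2 * 0.6931471803 - PU (4 / 9 * (26 / 100)) ∧
    9 * (9011226 / 10000000 : ℝ) ^ 2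
      ≤ 10 * (DJ 14 (15 / 100) * (2 * 0.6931471803 - PU (4 / 9 * (26 / 100)))) := by
  unfold DJ PU SJ
  simp only [Finset.sum_range_succ, Finset.sum_range_zero]
  norm_num

theorem qf_num2 : 0 ≤ 2 * 0.6931471803 - PU (4 / 9 * (34 / 100)) ∧
    9 * (9011226 / 10000000 : ℝ) ^ 2
      ≤ 10 * (DJ 14 (26 / 100) * (2 * 0.6931471803 - PU (4 / 9 * (34 / 100)))) := by
  unfold DJ PU SJ
  simp only [Finset.sum_range_succ, Finset.sum_range_zero]
  norm_num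

theorem qf_num3 : 0 ≤ 2 * 0.6931471803 - PU (4 / 9 * (40 / 100)) ∧
    9 * (9011226 / 10000000 : ℝ) ^ 2
      ≤ 10 * (DJ 14 (34 / 100) * (2 * 0.6931471803 - PU (4 / 9 * (40 / 100)))) := by
  unfold DJ PU SJ
  simp only [Finset.sum_range_succ, Finset.sum_range_zero]
  norm_num

theorem qf_num4 : 0 ≤ 2 * 0.6931471803 - PU (4 / 9 * (45 / 100)) ∧
    9 * (9011226 / 10000000 : ℝ) ^ 2
      ≤ 10 * (DJ 14 (40 / 100) * (2 * 0.6931471803 - PU (4 / 9 * (45 / 100)))) := by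
  unfold DJ PU SJ
  simp only [Finset.sum_range_succ, Finset.sum_range_zero]
  norm_num

theorem qf_num5 : 0 ≤ 2 * 0.6931471803 - PU (4 / 9 * (49 / 100)) ∧
    9 * (9011226 / 10000000 : ℝ) ^ 2
      ≤ 10 * (DJ 14 (45 / 100) * (2 * 0.6931471803 - PU (4 / 9 * (49 / 100)))) := by
  unfold DJ PU SJ
  simp only [Finset.sum_range_succ, Finset.sum_range_zero]
  norm_num

theorem qf_num6 : 0 ≤ 2 * 0.6931471803 - PU (4 / 9 * (53 / 100)) ∧
    9 * (9011226 / 10000000 : ℝ) ^ 2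
      ≤ 10 * (DJ 14 (49 / 100) * (2 * 0.6931471803 - PU (4 / 9 * (53 / 100)))) := by
  unfold DJ PU SJ
  simp only [Finset.sum_range_succ, Finset.sum_range_zero]
  norm_num

theorem qf_num7 : 0 ≤ 2 * 0.6931471803 - PU (4 / 9 * (56 / 100)) ∧
    9 * (9011226 / 10000000 : ℝ) ^ 2
      ≤ 10 * (DJ 14 (53 / 100) * (2 * 0.6931471803 - PU (4 / 9 * (56 / 100)))) := by
  unfold DJ PU SJ
  simp only [Finset.sum_range_succ, Finset.sum_range_zero]
  norm_num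

theorem qf_num8 : 0 ≤ 2 * 0.6931471803 - PU (4 / 9 * (59 / 100)) ∧
    9 * (9011226 / 10000000 : ℝ) ^ 2
      ≤ 10 * (DJ 14 (56 / 100) * (2 * 0.6931471803 - PU (4 / 9 * (59 / 100)))) := by
  unfold DJ PU SJ
  simp only [Finset.sum_range_succ, Finset.sum_range_zero]
  norm_num

theorem qf_num9 : 0 ≤ 2 * 0.6931471803 - PU (4 / 9 * (62 / 100)) ∧
    9 * (9011226 / 10000000 : ℝ) ^ 2
      ≤ 10 * (DJ 14 (59 / 100) * (2 * 0.6931471803 - PU (4 / 9 * (62 / 100)))) := by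
  unfold DJ PU SJ
  simp only [Finset.sum_range_succ, Finset.sum_range_zero]
  norm_num

theorem qf_num10 : 0 ≤ 2 * 0.6931471803 - PU (4 / 9 * (65 / 100)) ∧
    9 * (9011226 / 10000000 : ℝ) ^ 2
      ≤ 10 * (DJ 14 (62 / 100) * (2 * 0.6931471803 - PU (4 / 9 * (65 / 100)))) := by
  unfold DJ PU SJ
  simp only [Finset.sum_range_succ, Finset.sum_range_zero]
  norm_num

theorem side_num0 : 25 * (2 * 0.6931471808 - SJ 14 (65 / 100))
    < 16 * (2 * 0.6931471803 - PU (4 / 9 * (78 / 100))) := by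
  unfold PU SJ
  simp only [Finset.sum_range_succ, Finset.sum_range_zero]
  norm_num

theorem side_num1 : 25 * (2 * 0.6931471808 - SJ 14 (78 / 100))
    < 16 * (2 * 0.6931471803 - PU (4 / 9 * 1)) := by
  unfold PU SJ
  simp only [Finset.sum_range_succ, Finset.sum_range_zero]
  norm_num

/-- The one-variable inequality at `r = 2/3`. -/
theorem qfs_two_thirds : QFS (2 / 3) := by
  intro s hs0 hs1 hside
  have hx0 : 0 ≤ s ^ 2 := by positivity
  have hx1 : s ^ 2 ≤ 1 := by nlinarith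
  rcases le_or_gt (s ^ 2) (15 / 100) with h0 | h0
  · exact qf_box hs0 hs1 (le_refl _) hx0 h0 qf_num0.1 qf_num0.2
  rcases le_or_gt (s ^ 2) (26 / 100) with h1 | h1
  · exact qf_box hs0 hs1 (by norm_num) h0.le h1 qf_num1.1 qf_num1.2
  rcases le_or_gt (s ^ 2) (34 / 100) with h2 | h2
  · exact qf_box hs0 hs1 (by norm_num) h1.le h2 qf_num2.1 qf_num2.2
  rcases le_or_gt (s ^ 2) (40 / 100) with h3 | h3
  · exact qf_box hs0 hs1 (by norm_num) h2.le h3 qf_num3.1 qf_num3.2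
  rcases le_or_gt (s ^ 2) (45 / 100) with h4 | h4
  · exact qf_box hs0 hs1 (by norm_num) h3.le h4 qf_num4.1 qf_num4.2
  rcases le_or_gt (s ^ 2) (49 / 100) with h5 | h5
  · exact qf_box hs0 hs1 (by norm_num) h4.le h5 qf_num5.1 qf_num5.2
  rcases le_or_gt (s ^ 2) (53 / 100) with h6 | h6
  · exact qf_box hs0 hs1 (by norm_num) h5.le h6 qf_num6.1 qf_num6.2
  rcases le_or_gt (s ^ 2) (56 / 100) with h7 | h7
  · exact qf_box hs0 hs1 (by norm_num) h6.le h7 qf_num7.1 qf_num7.2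
  rcases le_or_gt (s ^ 2) (59 / 100) with h8 | h8
  · exact qf_box hs0 hs1 (by norm_num) h7.le h8 qf_num8.1 qf_num8.2
  rcases le_or_gt (s ^ 2) (62 / 100) with h9 | h9
  · exact qf_box hs0 hs1 (by norm_num) h8.le h9 qf_num9.1 qf_num9.2
  rcases le_or_gt (s ^ 2) (65 / 100) with h10 | h10
  · exact qf_box hs0 hs1 (by norm_num) h9.le h10 qf_num10.1 qf_num10.2
  exfalso
  rcases le_or_gt (s ^ 2) (78 / 100) with hh1 | hh1
  · have := side_box hs0 hs1 (by norm_num) h10.le hh1 side_num0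
    linarith
  · have := side_box hs0 hs1 (by norm_num) hh1.le hx1 side_num1
    linarith

end Vale.Agent.P322
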