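import Vale.Agent.P322.SCMidSer
import Vale.Agent.P322.SCQuart

/-!
The inequality `QF (2/3)` (hence `QFS (2/3)`): one variable `x = s^2`, 100 rational cells checked by
the kernel.  On the cell `[x1, x2]`, with `t = 4/9`, `Y = t x2`:
`psi2 s ≥ x * SP 8 x1`, `psi2 (2 s / 3) ≤ t x * GU 8 Y ≤ Y * GU 8 Y`, `hh (2/3) ≤ c0hi - SS 8 t`.
-/

namespace Vale.Agent.P322

open Real

section vals

variable (F : Type) [Field F]

/-- upper end of the rescaled cell -/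
def qY (i : ℕ) : F := 4 / 9 * gx F (i + 1)
/-- lower bound of `(psi2 s - psi2 (2 s / 3)) / s^2` on the `i`-th cell -/
def Qf1 (i : ℕ) : F := SP 8 (gx F i) - 4 / 9 * GU 8 (qY F i)
/-- lower bound of `hh (2 s / 3)` on the `i`-th cell -/
def Qf2 (i : ℕ) : F := c0lo F - qY F i * GU 8 (qY F i)
/-- upper bound of `hh (2/3)` -/
def QHu : F := c0hi F - SS 8 (4 / 9)

end vals

/-- the test of the `i`-th cell -/
def chkQ (i : ℕ) : Bool :=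
  decide (0 ≤ Qf1 ℚ i) && decide (0 ≤ Qf2 ℚ i) && decide (0 ≤ GU 8 (qY ℚ i))
    && decide (9 * QHu ℚ ^ 2 ≤ 10 * (Qf1 ℚ i * Qf2 ℚ i))

theorem chkQ_all : ∀ i < 100, chkQ i = true := by decide +kernel

theorem cast_c0lo' : ((c0lo ℚ : ℚ) : ℝ) = c0lo ℝ := by
  unfold c0lo; push_cast; ring

theorem cast_c0hi' : ((c0hi ℚ : ℚ) : ℝ) = c0hi ℝ := by
  unfold c0hi; push_cast; ring

theorem cast_gx' (i : ℕ) : ((gx ℚ i : ℚ) : ℝ) = gx ℝ i := by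
  unfold gx; push_cast; ring

theorem cast_qY (i : ℕ) : ((qY ℚ i : ℚ) : ℝ) = qY ℝ i := by
  unfold qY; push_cast; rw [cast_gx']

theorem cast_Qf1 (i : ℕ) : ((Qf1 ℚ i : ℚ) : ℝ) = Qf1 ℝ i := by
  unfold Qf1; push_cast; rw [cast_SP, cast_GU, cast_gx', cast_qY]

theorem cast_Qf2 (i : ℕ) : ((Qf2 ℚ i : ℚ) : ℝ) = Qf2 ℝ i := by
  unfold Qf2; push_cast; rw [cast_c0lo', cast_GU, cast_qY]

theorem cast_QHu : ((QHu ℚ : ℚ) : ℝ) = QHu ℝ := by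
  unfold QHu; push_cast; rw [cast_c0hi', cast_SS]; push_cast; rfl

/-- `QF (2/3)`, without any side condition. -/
theorem qf_two_thirds : QF (2 / 3) := by
  intro s hs0 hs1
  have hx0 : 0 ≤ s ^ 2 := by positivity
  have hx1 : s ^ 2 < 1 := by nlinarith
  obtain ⟨i, hi, hxa, hxb⟩ := exists_cell 100 (by norm_num) hx0 hx1
  have hx1' : gx ℝ i ≤ s ^ 2 := by
    unfold gx; simpa using hxa
  have hx2' : s ^ 2 ≤ gx ℝ (i + 1) := by
    unfold gx; push_cast; simpa using hxb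
  have hg0 : 0 ≤ gx ℝ i := by unfold gx; positivity
  have hg2 : 0 < gx ℝ (i + 1) := by unfold gx; positivity
  have hg2' : gx ℝ (i + 1) ≤ 1 := by
    unfold gx
    have : ((i + 1 : ℕ) : ℝ) ≤ 100 := by exact_mod_cast hi
    rw [div_le_one (by norm_num)]
    exact this
  have habs : |s| < 1 := by rw [abs_of_pos hs0]; exact hs1
  have hY0 : 0 < qY ℝ i := by unfold qY; positivity
  have hY1 : qY ℝ i < 1 := by unfold qY; linarith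
  have hsq : (2 / 3 * s) ^ 2 = 4 / 9 * s ^ 2 := by ring
  have hle : (2 / 3 * s) ^ 2 ≤ qY ℝ i := by
    rw [hsq]; unfold qY; linarith
  have c1 := c0lo_lt
  have c2 := lt_c0hi
  -- the kernel check
  have hc := chkQ_all i hi
  unfold chkQ at hc
  simp only [Bool.and_eq_true, decide_eq_true_eq] at hc
  obtain ⟨⟨⟨h1, h2⟩, hG⟩, h3⟩ := hc
  have h1' : (0 : ℝ) ≤ Qf1 ℝ i := by rw [← cast_Qf1]; exact_mod_cast h1
  have h2' : (0 : ℝ) ≤ Qf2 ℝ i := by rw [← cast_Qf2]; exact_mod_cast h2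
  have hG' : (0 : ℝ) ≤ GU 8 (qY ℝ i) := by
    rw [← cast_qY, ← cast_GU]; exact_mod_cast hG
  have h3' : (9 : ℝ) * QHu ℝ ^ 2 ≤ 10 * (Qf1 ℝ i * Qf2 ℝ i) := by
    have h := (Rat.cast_le (K := ℝ)).mpr h3
    push_cast at h
    rw [cast_Qf1, cast_Qf2, cast_QHu] at h
    exact h
  -- analytic bounds
  have p1 : psi2 (2 / 3 * s) ≤ (2 / 3 * s) ^ 2 * GU 8 (qY ℝ i) := psi2_le_GU 8 hY0 hY1 hle
  have q1 : SP 8 (gx ℝ i) * s ^ 2 ≤ psi2 s := by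
    have h := SS_le_psi2 8 habs
    rw [← SP_mul] at h
    have m1 := SP_mono 8 hg0 hx1'
    have : SP 8 (gx ℝ i) * s ^ 2 ≤ SP 8 (s ^ 2) * s ^ 2 := mul_le_mul_of_nonneg_right m1 hx0
    linarith
  have q2 : s ^ 2 * Qf1 ℝ i ≤ hh (2 / 3 * s) - hh s := by
    have : Qf1 ℝ i = SP 8 (gx ℝ i) - 4 / 9 * GU 8 (qY ℝ i) := rfl
    rw [this]
    rw [hsq] at p1
    unfold hh
    nlinarith
  have q3 : Qf2 ℝ i ≤ hh (2 / 3 * s) := by
    have : Qf2 ℝ i = c0lo ℝ - qY ℝ i * GU 8 (qY ℝ i) := rfl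
    rw [this]
    have h5 : (2 / 3 * s) ^ 2 * GU 8 (qY ℝ i) ≤ qY ℝ i * GU 8 (qY ℝ i) :=
      mul_le_mul_of_nonneg_right hle hG'
    unfold hh
    linarith
  have q4 : hh (2 / 3) ≤ QHu ℝ := by
    have h := SS_le_psi2 8 (t := 2 / 3) (by rw [abs_of_pos (by norm_num)]; norm_num)
    have e : ((2 : ℝ) / 3) ^ 2 = 4 / 9 := by norm_num
    rw [e] at h
    unfold hh QHu
    linarith
  have hH0 : 0 ≤ hh (2 / 3) := hh_nonneg (by rw [abs_of_pos (by norm_num)]; norm_num)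
  have k1 : s ^ 2 * Qf1 ℝ i * Qf2 ℝ i ≤ (hh (2 / 3 * s) - hh s) * hh (2 / 3 * s) :=
    mul_le_mul q2 q3 h2' (le_trans (mul_nonneg hx0 h1') q2)
  have k2 : hh (2 / 3) ^ 2 ≤ QHu ℝ ^ 2 := pow_le_pow_left₀ hH0 q4 2
  have k3 : s ^ 2 * (9 * QHu ℝ ^ 2) ≤ s ^ 2 * (10 * (Qf1 ℝ i * Qf2 ℝ i)) :=
    mul_le_mul_of_nonneg_left h3' hx0
  have k4 : s ^ 2 * (9 * hh (2 / 3) ^ 2) ≤ s ^ 2 * (9 * QHu ℝ ^ 2) :=
    mul_le_mul_of_nonneg_left (by linarith) hx0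
  nlinarith

/-- `QFS (2/3)`. -/
theorem qfs_two_thirds_cells : QFS (2 / 3) := qf_two_thirds.toQFS

end Vale.Agent.P322
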