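import Vale.Agent.P322.QFRed
import Vale.Agent.P322.BMNum

/-!
The one-variable inequality `QFS (2/3)` (helper97).  With `x = s^2`:
* `psi2 s - psi2 (2 s / 3) ≥ x * A x`, `A` = six terms of the series (coefficients rounded down);
* `hh (2 s / 3) ≥ B x` for `x ≤ 7/10` (`psi2_upper`);
* `hh (2/3) ≤ 0.9012`;
* `10 * A x * B x - 9 * 0.9012^2` is an explicit polynomial, written as
  (tangent line at `7/10`) + `(x - 7/10)^2 * R x + x^5 * E x` with `R, E ≥ 0` on `[0, 7/10]`;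
* for `x ≥ 7/10` the side condition fails.
-/

namespace Vale.Agent.P322

open Real

theorem q23_poly {x : ℝ} (hx0 : 0 ≤ x) (hx1 : x ≤ 7 / 10) :
    45684081 / 6250000 ≤ 10 * ((5 / 9 + 1337 / 10000 * x + 608 / 10000 * x ^ 2 + 343 / 10000 * x ^ 3
      + 218 / 10000 * x ^ 4 + 150 / 10000 * x ^ 5)
      * (138629 / 100000 - 4 / 9 * x - 3293 / 100000 * x ^ 2 - 85 / 10000 * x ^ 3)) := by
  have key : 10 * ((5 / 9 + 1337 / 10000 * x + 608 / 10000 * x ^ 2 + 343 / 10000 * x ^ 3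
      + 218 / 10000 * x ^ 4 + 150 / 10000 * x ^ 5)
      * (138629 / 100000 - 4 / 9 * x - 3293 / 100000 * x ^ 2 - 85 / 10000 * x ^ 3))
      - 45684081 / 6250000
      = (1233584949187 / 20250000000000 + 392147723021 / 2025000000000 * (7 / 10 - x))
        + (x - 7 / 10) ^ 2 * (4492725113 / 11250000000 + 209819089 / 750000000 * x
          + 3329461 / 28125000 * x ^ 2)
        + x ^ 5 * (85132459 / 900000000 - 1439267 / 18750000 * x - 2717 / 400000 * x ^ 2
          - 51 / 40000 * x ^ 3) := by ring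
  have h1 : 0 ≤ 1233584949187 / 20250000000000 + 392147723021 / 2025000000000 * (7 / 10 - x) := by
    have : 0 ≤ 7 / 10 - x := by linarith
    positivity
  have h2 : 0 ≤ (x - 7 / 10) ^ 2 * (4492725113 / 11250000000 + 209819089 / 750000000 * x
      + 3329461 / 28125000 * x ^ 2) := by positivity
  have hx2 : x ^ 2 ≤ 49 / 100 := by nlinarith
  have hx3 : x ^ 3 ≤ 343 / 1000 := by
    have : x ^ 3 = x ^ 2 * x := by ring
    rw [this]
    nlinarith [sq_nonneg x]
  have h3 : 0 ≤ x ^ 5 * (85132459 / 900000000 - 1439267 / 18750000 * x - 2717 / 400000 * x ^ 2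
      - 51 / 40000 * x ^ 3) := by
    apply mul_nonneg (pow_nonneg hx0 5)
    linarith
  linarith

theorem q23_phi {s : ℝ} (hs0 : 0 ≤ s) (hs1 : s < 1) :
    s ^ 2 * (5 / 9 + 1337 / 10000 * s ^ 2 + 608 / 10000 * (s ^ 2) ^ 2 + 343 / 10000 * (s ^ 2) ^ 3
      + 218 / 10000 * (s ^ 2) ^ 4 + 150 / 10000 * (s ^ 2) ^ 5) ≤ psi2 s - psi2 (2 / 3 * s) := by
  have h1 : |s| < 1 := by rw [abs_of_nonneg hs0]; exact hs1
  have h2 : |2 / 3 * s| < 1 := by
    rw [abs_of_nonneg (by positivity)]; linarith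
  have hS := (psi2_hasSum h1).sub (psi2_hasSum h2)
  set x := s ^ 2 with hx
  have hx0 : 0 ≤ x := sq_nonneg s
  have e : (2 / 3 * s) ^ 2 = 4 / 9 * x := by rw [hx]; ring
  rw [e] at hS
  have hnn : ∀ k ∉ Finset.range 6, 0 ≤ x ^ (k + 1) / ((2 * (k : ℝ) + 1) * ((k : ℝ) + 1))
      - (4 / 9 * x) ^ (k + 1) / ((2 * (k : ℝ) + 1) * ((k : ℝ) + 1)) := by
    intro k _
    have hc : (0 : ℝ) < (2 * (k : ℝ) + 1) * ((k : ℝ) + 1) := by positivity
    have : (4 / 9 * x) ^ (k + 1) ≤ x ^ (k + 1) :=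
      pow_le_pow_left₀ (by positivity) (by linarith) (k + 1)
    have := div_le_div_of_nonneg_right this hc.le
    linarith
  have hle := sum_le_hasSum (Finset.range 6) hnn hS
  simp only [Finset.sum_range_succ, Finset.sum_range_zero] at hle
  norm_num at hle
  have p2 : 0 ≤ x ^ 2 := by positivity
  have p3 : 0 ≤ x ^ 3 := by positivity
  have p4 : 0 ≤ x ^ 4 := by positivity
  have p5 : 0 ≤ x ^ 5 := by positivity
  have p6 : 0 ≤ x ^ 6 := by positivity
  nlinarith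

theorem q23_g {s : ℝ} (hs0 : 0 ≤ s) (hs : s ^ 2 ≤ 7 / 10) :
    138629 / 100000 - 4 / 9 * s ^ 2 - 3293 / 100000 * (s ^ 2) ^ 2 - 85 / 10000 * (s ^ 2) ^ 3
      ≤ hh (2 / 3 * s) := by
  have hs1 : s < 1 := by nlinarith
  have h2 : |2 / 3 * s| < 1 := by
    rw [abs_of_nonneg (by positivity)]; linarith
  have hU := psi2_upper h2
  set x := s ^ 2 with hx
  have hx0 : 0 ≤ x := sq_nonneg s
  have e2 : (2 / 3 * s) ^ 2 = 4 / 9 * x := by rw [hx]; ring
  have e4 : (2 / 3 * s) ^ 4 = 16 / 81 * x ^ 2 := by rw [hx]; ring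
  have e6 : (2 / 3 * s) ^ 6 = 64 / 729 * x ^ 3 := by rw [hx]; ring
  rw [e2, e4, e6] at hU
  have hden : (31 / 3 : ℝ) ≤ 15 * (1 - 4 / 9 * x) := by linarith
  have hx3 : 0 ≤ 64 / 729 * x ^ 3 := by positivity
  have hfrac : 64 / 729 * x ^ 3 / (15 * (1 - 4 / 9 * x)) ≤ 64 / 729 * x ^ 3 / (31 / 3) :=
    div_le_div_of_nonneg_left hx3 (by norm_num) hden
  have hl := Real.log_two_gt_d9
  unfold hh
  rw [psi2_one]
  have p2 : 0 ≤ x ^ 2 := by positivity
  have p3 : 0 ≤ x ^ 3 := by positivity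
  nlinarith

theorem q23_y0 : hh (2 / 3) ≤ 9012 / 10000 := by
  have h1 : |(2 / 3 : ℝ)| < 1 := by rw [abs_of_nonneg (by norm_num)]; norm_num
  have hS := psi2_hasSum h1
  have hle := sum_le_hasSum (Finset.range 6) (fun k _ => by positivity) hS
  simp only [Finset.sum_range_succ, Finset.sum_range_zero] at hle
  norm_num at hle
  have hl := Real.log_two_lt_d9
  unfold hh
  rw [psi2_one]
  linarith

theorem q23_y0_lower : 8983 / 10000 ≤ hh (2 / 3) := by
  have h1 : |(2 / 3 : ℝ)| < 1 := by rw [abs_of_nonneg (by norm_num)]; norm_num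
  have hU := psi2_upper h1
  norm_num at hU
  have hl := Real.log_two_gt_d9
  unfold hh
  rw [psi2_one]
  linarith

theorem q23_side {s : ℝ} (hs0 : 0 ≤ s) (hs1 : s < 1) (hs : 7 / 10 ≤ s ^ 2) :
    hh s ≤ 5677 / 10000 := by
  have h1 : |s| < 1 := by rw [abs_of_nonneg hs0]; exact hs1
  have hS := psi2_hasSum h1
  have hle := sum_le_hasSum (Finset.range 6) (fun k _ => by positivity) hS
  simp only [Finset.sum_range_succ, Finset.sum_range_zero] at hle
  norm_num at hle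
  set x := s ^ 2 with hx
  have q2 : (7 / 10 : ℝ) ^ 2 ≤ x ^ 2 := pow_le_pow_left₀ (by norm_num) hs 2
  have q3 : (7 / 10 : ℝ) ^ 3 ≤ x ^ 3 := pow_le_pow_left₀ (by norm_num) hs 3
  have q4 : (7 / 10 : ℝ) ^ 4 ≤ x ^ 4 := pow_le_pow_left₀ (by norm_num) hs 4
  have q5 : (7 / 10 : ℝ) ^ 5 ≤ x ^ 5 := pow_le_pow_left₀ (by norm_num) hs 5
  have q6 : (7 / 10 : ℝ) ^ 6 ≤ x ^ 6 := pow_le_pow_left₀ (by norm_num) hs 6
  have hl := Real.log_two_lt_d9
  unfold hh
  rw [psi2_one]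
  norm_num at q2 q3 q4 q5 q6
  linarith

theorem qfs_two_thirds' : QFS (2 / 3) := by
  intro s hs0 hs1 hcond
  rcases le_or_gt (s ^ 2) (7 / 10) with h | h
  · have hA := q23_phi hs0.le hs1
    have hB := q23_g hs0.le h
    have hP := q23_poly (sq_nonneg s) h
    have hY := q23_y0
    have hY0 : 0 ≤ hh (2 / 3) := by
      have := q23_y0_lower
      linarith
    set x := s ^ 2 with hx
    have hx0 : 0 ≤ x := sq_nonneg s
    set A := 5 / 9 + 1337 / 10000 * x + 608 / 10000 * x ^ 2 + 343 / 10000 * x ^ 3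
      + 218 / 10000 * x ^ 4 + 150 / 10000 * x ^ 5 with hAdef
    set B := 138629 / 100000 - 4 / 9 * x - 3293 / 100000 * x ^ 2 - 85 / 10000 * x ^ 3 with hBdef
    have hA0 : 0 ≤ A := by rw [hAdef]; positivity
    have hB0 : 0 ≤ B := by
      rw [hBdef]
      have hx2 : x ^ 2 ≤ 49 / 100 := by nlinarith
      have hx3 : x ^ 3 ≤ 343 / 1000 := by
        have : x ^ 3 = x ^ 2 * x := by ring
        rw [this]
        nlinarith [sq_nonneg x]
      linarith
    have e : hh (2 / 3 * s) - hh s = psi2 s - psi2 (2 / 3 * s) := by unfold hh; ring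
    rw [e]
    have hY2 : (hh (2 / 3)) ^ 2 ≤ (9012 / 10000) ^ 2 := pow_le_pow_left₀ hY0 hY 2
    have m1 : (x * A) * B ≤ (psi2 s - psi2 (2 / 3 * s)) * hh (2 / 3 * s) :=
      mul_le_mul hA hB hB0 (le_trans (mul_nonneg hx0 hA0) hA)
    have m2 : 9 * ((hh (2 / 3)) ^ 2 * x) ≤ 9 * ((9012 / 10000) ^ 2 * x) := by
      have := mul_le_mul_of_nonneg_right hY2 hx0
      linarith
    have m3 : 9 * ((9012 / 10000 : ℝ) ^ 2 * x) ≤ 10 * ((x * A) * B) := by
      have : x * (45684081 / 6250000) ≤ x * (10 * (A * B)) := mul_le_mul_of_nonneg_left hP hx0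
      nlinarith
    linarith
  · exfalso
    have a1 := q23_side hs0.le hs1 h.le
    have a2 := q23_y0_lower
    have a3 : hh (2 / 3) ≤ hh (2 / 3 * s) := by
      apply hh_anti (by positivity) _ (by norm_num)
      linarith
    linarith

end Vale.Agent.P322
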