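import Vale.Agent.P322.QFGlue
import Vale.Agent.P322.ML

/-!
Assembly: monotone lines (`ml_lines`) + glue (`qfs_glue`): the full Courtade-Kumar inequality
follows from the single one-variable inequality `QFS (2/3)`.
-/

namespace Vale.Agent.P322

open Real

variable {n : ℕ}

theorem mlines : MLines := by
  intro r0 A B0 h0 h1 hyp r z hr hr1 hz0 hz1
  have hH0 : 0 < hh r0 := hh_pos (by rw [abs_of_pos h0]; exact h1)
  apply ml_lines (A := A) (β := B0 / hh r0) h0 h1 _ r z hr hr1 hz0 hz1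
  intro z hz0 hz1
  rw [div_mul_cancel₀ _ hH0.ne']
  exact hyp z hz0 hz1

/-- `QFS r0` implies `QFS r` for all `r` in `[r0, 1)`. -/
theorem qfs_mono {r0 r : ℝ} (h0 : 0 < r0) (h01 : r0 ≤ r) (h1 : r < 1) (hQ : QFS r0) : QFS r :=
  qfs_glue mlines h0 h01 h1 hQ

/-- The full Courtade-Kumar inequality from the one-variable inequality `QFS (2/3)`. -/
theorem ck_full_of_QFS23 (hQ : QFS (2 / 3)) (f : Cube n → ℤˣ) {ε : ℝ}
    (h0 : 0 ≤ ε) (h1 : ε ≤ 1 / 2) :
    mutualInfo (law n ε) (fun ω => f ω.1) (fun ω => noisy ω) ≤ 1 - h2 ε :=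
  ck_full_of_QF (fun _ ha hb => qfs_mono (by norm_num) ha hb hQ) f h0 h1

end Vale.Agent.P322
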