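import Vale.Agent.P322.SCDefs

/-!
Convexity of `phi t = psi2 t - psi2 (r t)` on `[-1,1]` (power series on the open interval, then
continuity).
-/

namespace Vale.Agent.P322

open Real

/-- one term of the power series of `phi` -/
theorem phi_term_eq (r t : ℝ) (k : ℕ) :
    (t ^ 2) ^ (k + 1) / ((2 * (k : ℝ) + 1) * ((k : ℝ) + 1))
      - ((r * t) ^ 2) ^ (k + 1) / ((2 * (k : ℝ) + 1) * ((k : ℝ) + 1))
      = (1 - (r ^ 2) ^ (k + 1)) / ((2 * (k : ℝ) + 1) * ((k : ℝ) + 1)) * t ^ (2 * (k + 1)) := by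
  rw [mul_pow, mul_pow, pow_mul t 2 (k + 1)]
  ring

theorem phi_coeff_nonneg {r : ℝ} (hr0 : 0 ≤ r) (hr1 : r ≤ 1) (k : ℕ) :
    0 ≤ (1 - (r ^ 2) ^ (k + 1)) / ((2 * (k : ℝ) + 1) * ((k : ℝ) + 1)) := by
  apply div_nonneg
  · have h1 : r ^ 2 ≤ 1 := pow_le_one₀ hr0 hr1
    have h2 : (r ^ 2) ^ (k + 1) ≤ 1 := pow_le_one₀ (by positivity) h1
    linarith
  · positivity

theorem phi_hasSum {r t : ℝ} (hr0 : 0 ≤ r) (hr1 : r ≤ 1) (ht : |t| < 1) :
    HasSum (fun k : ℕ => (1 - (r ^ 2) ^ (k + 1)) / ((2 * (k : ℝ) + 1) * ((k : ℝ) + 1))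
      * t ^ (2 * (k + 1))) (psi2 t - psi2 (r * t)) := by
  have hrt : |r * t| < 1 := by
    rw [abs_mul, abs_of_nonneg hr0]
    calc r * |t| ≤ 1 * |t| := mul_le_mul_of_nonneg_right hr1 (abs_nonneg t)
      _ = |t| := one_mul _
      _ < 1 := ht
  have h := (psi2_hasSum ht).sub (psi2_hasSum hrt)
  have he : (fun k : ℕ => (1 - (r ^ 2) ^ (k + 1)) / ((2 * (k : ℝ) + 1) * ((k : ℝ) + 1))
      * t ^ (2 * (k + 1))) = fun k : ℕ => (t ^ 2) ^ (k + 1) / ((2 * (k : ℝ) + 1) * ((k : ℝ) + 1))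
      - ((r * t) ^ 2) ^ (k + 1) / ((2 * (k : ℝ) + 1) * ((k : ℝ) + 1)) := by
    funext k
    exact (phi_term_eq r t k).symm
  rw [he]
  exact h

/-- the convexity inequality in the open interval -/
theorem phi_convex_open {r : ℝ} (hr0 : 0 ≤ r) (hr1 : r ≤ 1) {x y a b : ℝ} (hx : |x| < 1)
    (hy : |y| < 1) (ha : 0 ≤ a) (hb : 0 ≤ b) (hab : a + b = 1) :
    psi2 (a * x + b * y) - psi2 (r * (a * x + b * y))
      ≤ a * (psi2 x - psi2 (r * x)) + b * (psi2 y - psi2 (r * y)) := by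
  have hz : |a * x + b * y| < 1 := by
    obtain ⟨x1, x2⟩ := abs_lt.mp hx
    obtain ⟨y1, y2⟩ := abs_lt.mp hy
    rw [abs_lt]
    constructor
    · rcases eq_or_lt_of_le ha with h0 | h0
      · have hb1 : b = 1 := by linarith
        rw [← h0, hb1]
        linarith
      · nlinarith
    · rcases eq_or_lt_of_le ha with h0 | h0
      · have hb1 : b = 1 := by linarith
        rw [← h0, hb1]
        linarith
      · nlinarith
  have h1 := phi_hasSum hr0 hr1 hz
  have h2 := ((phi_hasSum hr0 hr1 hx).mul_left a).add ((phi_hasSum hr0 hr1 hy).mul_left b)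
  refine hasSum_le ?_ h1 h2
  intro k
  have hc := phi_coeff_nonneg hr0 hr1 k
  have hconv : ConvexOn ℝ Set.univ (fun t : ℝ => t ^ (2 * (k + 1))) :=
    Even.convexOn_pow (even_two_mul (k + 1))
  have h3 := hconv.2 (Set.mem_univ x) (Set.mem_univ y) ha hb hab
  simp only [smul_eq_mul] at h3
  have h4 := mul_le_mul_of_nonneg_left h3 hc
  calc (1 - (r ^ 2) ^ (k + 1)) / ((2 * (k : ℝ) + 1) * ((k : ℝ) + 1))
        * (a * x + b * y) ^ (2 * (k + 1))
      ≤ (1 - (r ^ 2) ^ (k + 1)) / ((2 * (k : ℝ) + 1) * ((k : ℝ) + 1))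
        * (a * x ^ (2 * (k + 1)) + b * y ^ (2 * (k + 1))) := h4
    _ = _ := by ring

/-- `phi t = psi2 t - psi2 (r t)` is convex on `[-1,1]`. -/
theorem phi_convex' {r : ℝ} (hr0 : 0 ≤ r) (hr1 : r ≤ 1) :
    ConvexOn ℝ (Set.Icc (-1 : ℝ) 1) (fun t => psi2 t - psi2 (r * t)) := by
  refine ⟨convex_Icc _ _, ?_⟩
  intro x hx y hy a b ha hb hab
  simp only [smul_eq_mul]
  have hxa : |x| ≤ 1 := abs_le.mpr ⟨hx.1, hx.2⟩
  have hya : |y| ≤ 1 := abs_le.mpr ⟨hy.1, hy.2⟩
  -- scale by `s < 1` and let `s` tend to `1`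
  have key : ∀ s ∈ Set.Ioo (0 : ℝ) 1,
      psi2 (a * (s * x) + b * (s * y)) - psi2 (r * (a * (s * x) + b * (s * y)))
        ≤ a * (psi2 (s * x) - psi2 (r * (s * x))) + b * (psi2 (s * y) - psi2 (r * (s * y))) := by
    intro s hs
    have hsx : |s * x| < 1 := by
      rw [abs_mul, abs_of_pos hs.1]
      calc s * |x| ≤ s * 1 := mul_le_mul_of_nonneg_left hxa hs.1.le
        _ < 1 := by linarith [hs.2]
    have hsy : |s * y| < 1 := by
      rw [abs_mul, abs_of_pos hs.1]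
      calc s * |y| ≤ s * 1 := mul_le_mul_of_nonneg_left hya hs.1.le
        _ < 1 := by linarith [hs.2]
    exact phi_convex_open hr0 hr1 hsx hsy ha hb hab
  have hcl : (1 : ℝ) ∈ closure (Set.Ioo (0 : ℝ) 1) := by
    rw [closure_Ioo (by norm_num)]
    exact ⟨by norm_num, le_refl _⟩
  have hc1 : Continuous (fun s : ℝ =>
      psi2 (a * (s * x) + b * (s * y)) - psi2 (r * (a * (s * x) + b * (s * y)))) := by
    apply Continuous.sub
    · exact psi2_continuous.comp (by fun_prop)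
    · exact psi2_continuous.comp (by fun_prop)
  have hc2 : Continuous (fun s : ℝ =>
      a * (psi2 (s * x) - psi2 (r * (s * x))) + b * (psi2 (s * y) - psi2 (r * (s * y)))) := by
    apply Continuous.add
    · apply Continuous.mul continuous_const
      apply Continuous.sub
      · exact psi2_continuous.comp (by fun_prop)
      · exact psi2_continuous.comp (by fun_prop)
    · apply Continuous.mul continuous_const
      apply Continuous.sub
      · exact psi2_continuous.comp (by fun_prop)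
      · exact psi2_continuous.comp (by fun_prop)
  have h := le_on_closure key hc1.continuousOn hc2.continuousOn hcl
  simpa using h

end Vale.Agent.P322
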