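import Vale.Agent.P322.SCQuart
import Vale.Agent.P322.SCJensenA

/-!
The one-variable inequality `QFS (2/3)`: truncated power series and twelve intervals in `x = s^2`.
-/

namespace Vale.Agent.P322

open Real

/-- truncated series of `(psi2 s - psi2 (2 s / 3)) / s^2` in `x = s^2` -/
noncomputable def qbPhi (x : ℝ) : ℝ :=
  ∑ k ∈ Finset.range 12, (1 - ((2 / 3 : ℝ) ^ 2) ^ (k + 1)) / ((2 * (k : ℝ) + 1) * ((k : ℝ) + 1)) * x ^ k

/-- truncated series of `psi2` in `z = t^2` -/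
noncomputable def qbLow (z : ℝ) : ℝ :=
  ∑ k ∈ Finset.range 12, z ^ (k + 1) / ((2 * (k : ℝ) + 1) * ((k : ℝ) + 1))

/-- upper bound of `psi2` in `z = t^2`, valid for `z ≤ 4/9` -/
noncomputable def qbUp (z : ℝ) : ℝ :=
  ∑ k ∈ Finset.range 8, z ^ (k + 1) / ((2 * (k : ℝ) + 1) * ((k : ℝ) + 1)) + z ^ 9 / 80

theorem qbPhi_mono {a x : ℝ} (ha : 0 ≤ a) (hax : a ≤ x) : qbPhi a ≤ qbPhi x := by
  unfold qbPhi
  apply Finset.sum_le_sum
  intro k _
  apply mul_le_mul_of_nonneg_left (pow_le_pow_left₀ ha hax k)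
  exact phi_coeff_nonneg (by norm_num) (by norm_num) k

theorem qbLow_mono {a x : ℝ} (ha : 0 ≤ a) (hax : a ≤ x) : qbLow a ≤ qbLow x := by
  unfold qbLow
  apply Finset.sum_le_sum
  intro k _
  apply div_le_div_of_nonneg_right (pow_le_pow_left₀ ha hax (k + 1))
  positivity

theorem qbUp_mono {a x : ℝ} (ha : 0 ≤ a) (hax : a ≤ x) : qbUp a ≤ qbUp x := by
  unfold qbUp
  apply add_le_add
  · apply Finset.sum_le_sum
    intro k _
    apply div_le_div_of_nonneg_right (pow_le_pow_left₀ ha hax (k + 1))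
    positivity
  · apply div_le_div_of_nonneg_right (pow_le_pow_left₀ ha hax 9)
    norm_num

theorem qbLow_le {t : ℝ} (ht : |t| < 1) : qbLow (t ^ 2) ≤ psi2 t := by
  unfold qbLow
  exact sum_le_hasSum (Finset.range 12) (fun k _ => by positivity) (psi2_hasSum ht)

theorem qbPhi_le {s : ℝ} (hs0 : 0 < s) (hs1 : s < 1) :
    s ^ 2 * qbPhi (s ^ 2) ≤ psi2 s - psi2 (2 / 3 * s) := by
  have habs : |s| < 1 := by rw [abs_of_pos hs0]; exact hs1
  have h := sum_le_hasSum (Finset.range 12)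
    (fun k _ => mul_nonneg (phi_coeff_nonneg (r := 2 / 3) (by norm_num) (by norm_num) k)
      (by positivity)) (phi_hasSum (r := 2 / 3) (by norm_num) (by norm_num) habs)
  refine le_trans (le_of_eq ?_) h
  unfold qbPhi
  rw [Finset.mul_sum]
  apply Finset.sum_congr rfl
  intro k _
  have e : s ^ (2 * (k + 1)) = s ^ 2 * (s ^ 2) ^ k := by
    rw [pow_mul, pow_succ]; ring
  rw [e]
  ring

theorem psi2_le_qbUp {t : ℝ} (ht : t ^ 2 ≤ 4 / 9) : psi2 t ≤ qbUp (t ^ 2) := by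
  have ht2 : t ^ 2 < 1 := by linarith
  have habs : |t| < 1 := by
    rw [← sq_lt_one_iff_abs_lt_one]; exact ht2
  have h := psi2_hasSum habs
  have h2 := (hasSum_nat_add_iff' 8).mpr h
  have ht0 : 0 ≤ t ^ 2 := by positivity
  have hg := (hasSum_geometric_of_lt_one ht0 ht2).mul_left ((t ^ 2) ^ 9 / 153)
  have hle := hasSum_le (fun k => ?_) h2 hg
  · have e : (t ^ 2) ^ 9 / 153 * (1 - t ^ 2)⁻¹ ≤ (t ^ 2) ^ 9 / 80 := by
      have h1 : (1 - t ^ 2)⁻¹ ≤ 9 / 5 := by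
        rw [inv_le_comm₀ (by linarith) (by norm_num)]
        linarith
      have h9 : 0 ≤ (t ^ 2) ^ 9 := by positivity
      calc (t ^ 2) ^ 9 / 153 * (1 - t ^ 2)⁻¹ ≤ (t ^ 2) ^ 9 / 153 * (9 / 5) := by gcongr
        _ ≤ (t ^ 2) ^ 9 / 80 := by linarith
    unfold qbUp
    linarith
  · have e : (t ^ 2) ^ (k + 8 + 1) = (t ^ 2) ^ 9 * (t ^ 2) ^ k := by ring
    rw [e]
    have hk : (153 : ℝ) ≤ (2 * ((k + 8 : ℕ) : ℝ) + 1) * (((k + 8 : ℕ) : ℝ) + 1) := by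
      push_cast
      have : (0 : ℝ) ≤ k := Nat.cast_nonneg k
      nlinarith
    have hpos : 0 ≤ (t ^ 2) ^ 9 * (t ^ 2) ^ k := by positivity
    calc (t ^ 2) ^ 9 * (t ^ 2) ^ k / ((2 * ((k + 8 : ℕ) : ℝ) + 1) * (((k + 8 : ℕ) : ℝ) + 1))
        ≤ (t ^ 2) ^ 9 * (t ^ 2) ^ k / 153 := by gcongr
      _ = (t ^ 2) ^ 9 / 153 * (t ^ 2) ^ k := by ring

/-- one interval -/
theorem qb_interval {s a b : ℝ} (hs0 : 0 < s) (hs1 : s < 1) (ha : 0 ≤ a) (hax : a ≤ s ^ 2)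
    (hxb : s ^ 2 ≤ b) (hb : b ≤ 1)
    (hnum : 9 * (2 * 0.6931471808 - qbLow (4 / 9)) ^ 2
      ≤ 10 * (qbPhi a * (2 * 0.6931471803 - qbUp (4 / 9 * b)))) :
    9 * ((hh (2 / 3)) ^ 2 * s ^ 2) ≤ 10 * ((hh (2 / 3 * s) - hh s) * hh (2 / 3 * s)) := by
  have hlo : (0.6931471803 : ℝ) < Real.log 2 := Real.log_two_gt_d9
  have hhi : Real.log 2 < (0.6931471808 : ℝ) := Real.log_two_lt_d9
  have hx0 : 0 < s ^ 2 := by positivity
  -- the three bounds
  have hH : hh (2 / 3) ≤ 2 * 0.6931471808 - qbLow (4 / 9) := by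
    have h1 := qbLow_le (t := 2 / 3) (by rw [abs_of_pos (by norm_num)]; norm_num)
    have e : ((2 : ℝ) / 3) ^ 2 = 4 / 9 := by norm_num
    rw [e] at h1
    unfold hh
    rw [psi2_one]
    linarith
  have hH0 : 0 ≤ hh (2 / 3) := hh_nonneg (by rw [abs_of_pos (by norm_num)]; norm_num)
  have hphi : s ^ 2 * qbPhi a ≤ hh (2 / 3 * s) - hh s := by
    have h1 := qbPhi_le hs0 hs1
    have h2 := qbPhi_mono ha hax
    have h3 : s ^ 2 * qbPhi a ≤ s ^ 2 * qbPhi (s ^ 2) := mul_le_mul_of_nonneg_left h2 hx0.le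
    unfold hh
    linarith
  have hy : 2 * 0.6931471803 - qbUp (4 / 9 * b) ≤ hh (2 / 3 * s) := by
    have e : (2 / 3 * s) ^ 2 = 4 / 9 * s ^ 2 := by ring
    have h1 := psi2_le_qbUp (t := 2 / 3 * s) (by rw [e]; nlinarith)
    rw [e] at h1
    have h2 := qbUp_mono (a := 4 / 9 * s ^ 2) (x := 4 / 9 * b) (by positivity) (by linarith)
    unfold hh
    rw [psi2_one]
    linarith
  have hPa : 0 ≤ qbPhi a := by
    unfold qbPhi
    apply Finset.sum_nonneg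
    intro k _
    exact mul_nonneg (phi_coeff_nonneg (by norm_num) (by norm_num) k) (pow_nonneg ha k)
  set Y := 2 * 0.6931471803 - qbUp (4 / 9 * b) with hY
  set Hu := 2 * 0.6931471808 - qbLow (4 / 9) with hHu
  by_cases hYpos : 0 ≤ Y
  · have s1 : (hh (2 / 3)) ^ 2 ≤ Hu ^ 2 := pow_le_pow_left₀ hH0 hH 2
    have s2 : (s ^ 2 * qbPhi a) * Y ≤ (hh (2 / 3 * s) - hh s) * hh (2 / 3 * s) :=
      mul_le_mul hphi hy hYpos (le_trans (mul_nonneg hx0.le hPa) hphi)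
    calc 9 * ((hh (2 / 3)) ^ 2 * s ^ 2) ≤ 9 * (Hu ^ 2 * s ^ 2) := by gcongr
      _ = (9 * Hu ^ 2) * s ^ 2 := by ring
      _ ≤ (10 * (qbPhi a * Y)) * s ^ 2 := mul_le_mul_of_nonneg_right hnum hx0.le
      _ = 10 * ((s ^ 2 * qbPhi a) * Y) := by ring
      _ ≤ 10 * ((hh (2 / 3 * s) - hh s) * hh (2 / 3 * s)) := by gcongr
  · exfalso
    have hYneg : Y < 0 := not_le.mp hYpos
    have : 10 * (qbPhi a * Y) ≤ 0 := by
      have := mul_nonpos_of_nonneg_of_nonpos hPa hYneg.le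
      linarith
    have hsq : 0 ≤ 9 * Hu ^ 2 := by positivity
    have hHu0 : Hu ^ 2 = 0 := by nlinarith
    have hHu1 : Hu = 0 := by
      exact pow_eq_zero_iff (by norm_num) |>.mp hHu0
    have hpos : 0 < hh (2 / 3) := hh_pos (by rw [abs_of_pos (by norm_num)]; norm_num)
    linarith

theorem qb_num0 : 9 * (2 * 0.6931471808 - qbLow (4 / 9)) ^ 2
    ≤ 10 * (qbPhi (0) * (2 * 0.6931471803 - qbUp (4 / 9 * (157/1000)))) := by
  norm_num [qbLow, qbPhi, qbUp, Finset.sum_range_succ]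

theorem qb_num1 : 9 * (2 * 0.6931471808 - qbLow (4 / 9)) ^ 2
    ≤ 10 * (qbPhi (157/1000) * (2 * 0.6931471803 - qbUp (4 / 9 * (539/2000)))) := by
  norm_num [qbLow, qbPhi, qbUp, Finset.sum_range_succ]

theorem qb_num2 : 9 * (2 * 0.6931471808 - qbLow (4 / 9)) ^ 2
    ≤ 10 * (qbPhi (539/2000) * (2 * 0.6931471803 - qbUp (4 / 9 * (177/500)))) := by
  norm_num [qbLow, qbPhi, qbUp, Finset.sum_range_succ]

theorem qb_num3 : 9 * (2 * 0.6931471808 - qbLow (4 / 9)) ^ 2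
    ≤ 10 * (qbPhi (177/500) * (2 * 0.6931471803 - qbUp (4 / 9 * (21/50)))) := by
  norm_num [qbLow, qbPhi, qbUp, Finset.sum_range_succ]

theorem qb_num4 : 9 * (2 * 0.6931471808 - qbLow (4 / 9)) ^ 2
    ≤ 10 * (qbPhi (21/50) * (2 * 0.6931471803 - qbUp (4 / 9 * (237/500)))) := by
  norm_num [qbLow, qbPhi, qbUp, Finset.sum_range_succ]

theorem qb_num5 : 9 * (2 * 0.6931471808 - qbLow (4 / 9)) ^ 2
    ≤ 10 * (qbPhi (237/500) * (2 * 0.6931471803 - qbUp (4 / 9 * (519/1000)))) := by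
  norm_num [qbLow, qbPhi, qbUp, Finset.sum_range_succ]

theorem qb_num6 : 9 * (2 * 0.6931471808 - qbLow (4 / 9)) ^ 2
    ≤ 10 * (qbPhi (519/1000) * (2 * 0.6931471803 - qbUp (4 / 9 * (279/500)))) := by
  norm_num [qbLow, qbPhi, qbUp, Finset.sum_range_succ]

theorem qb_num7 : 9 * (2 * 0.6931471808 - qbLow (4 / 9)) ^ 2
    ≤ 10 * (qbPhi (279/500) * (2 * 0.6931471803 - qbUp (4 / 9 * (593/1000)))) := by
  norm_num [qbLow, qbPhi, qbUp, Finset.sum_range_succ]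

theorem qb_num8 : 9 * (2 * 0.6931471808 - qbLow (4 / 9)) ^ 2
    ≤ 10 * (qbPhi (593/1000) * (2 * 0.6931471803 - qbUp (4 / 9 * (5/8)))) := by
  norm_num [qbLow, qbPhi, qbUp, Finset.sum_range_succ]

theorem qb_num9 : 9 * (2 * 0.6931471808 - qbLow (4 / 9)) ^ 2
    ≤ 10 * (qbPhi (5/8) * (2 * 0.6931471803 - qbUp (4 / 9 * (131/200)))) := by
  norm_num [qbLow, qbPhi, qbUp, Finset.sum_range_succ]

theorem qb_num10 : 9 * (2 * 0.6931471808 - qbLow (4 / 9)) ^ 2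
    ≤ 10 * (qbPhi (131/200) * (2 * 0.6931471803 - qbUp (4 / 9 * (171/250)))) := by
  norm_num [qbLow, qbPhi, qbUp, Finset.sum_range_succ]

theorem qb_num11 : 9 * (2 * 0.6931471808 - qbLow (4 / 9)) ^ 2
    ≤ 10 * (qbPhi (171/250) * (2 * 0.6931471803 - qbUp (4 / 9 * (57/80)))) := by
  norm_num [qbLow, qbPhi, qbUp, Finset.sum_range_succ]

theorem qb_num_large : 25 * (2 * 0.6931471808 - qbLow (57 / 80))
    < 16 * (2 * 0.6931471803 - qbUp (4 / 9)) := by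
  norm_num [qbLow, qbUp, Finset.sum_range_succ]

/-- for `s^2 ≥ 57/80` the side condition fails -/
theorem qb_large {s : ℝ} (hs0 : 0 < s) (hs1 : s < 1) (hx : 57 / 80 ≤ s ^ 2) :
    25 * hh s < 16 * hh (2 / 3 * s) := by
  have hlo : (0.6931471803 : ℝ) < Real.log 2 := Real.log_two_gt_d9
  have hhi : Real.log 2 < (0.6931471808 : ℝ) := Real.log_two_lt_d9
  have habs : |s| < 1 := by rw [abs_of_pos hs0]; exact hs1
  have h1 := qbLow_le habs
  have h2 := qbLow_mono (a := 57 / 80) (x := s ^ 2) (by norm_num) hx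
  have e : (2 / 3 * s) ^ 2 = 4 / 9 * s ^ 2 := by ring
  have hs2 : s ^ 2 ≤ 1 := by nlinarith
  have h3 := psi2_le_qbUp (t := 2 / 3 * s) (by rw [e]; linarith)
  rw [e] at h3
  have h4 := qbUp_mono (a := 4 / 9 * s ^ 2) (x := 4 / 9) (by positivity) (by linarith)
  have h5 := qb_num_large
  unfold hh
  rw [psi2_one]
  linarith

theorem qfs_two_thirds_base : QFS (2 / 3) := by
  intro s hs0 hs1 hside
  have hx0 : 0 ≤ s ^ 2 := by positivity
  by_cases hL : 57 / 80 ≤ s ^ 2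
  · exfalso
    have := qb_large hs0 hs1 hL
    linarith
  · have hL' : s ^ 2 ≤ 57 / 80 := (not_le.mp hL).le
    by_cases h0 : s ^ 2 ≤ 157/1000
    · exact qb_interval hs0 hs1 (le_refl _) hx0 h0 (by norm_num) qb_num0
    by_cases h1 : s ^ 2 ≤ 539/2000
    · exact qb_interval hs0 hs1 (by norm_num) (not_le.mp h0).le h1 (by norm_num) qb_num1
    by_cases h2 : s ^ 2 ≤ 177/500
    · exact qb_interval hs0 hs1 (by norm_num) (not_le.mp h1).le h2 (by norm_num) qb_num2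
    by_cases h3 : s ^ 2 ≤ 21/50
    · exact qb_interval hs0 hs1 (by norm_num) (not_le.mp h2).le h3 (by norm_num) qb_num3
    by_cases h4 : s ^ 2 ≤ 237/500
    · exact qb_interval hs0 hs1 (by norm_num) (not_le.mp h3).le h4 (by norm_num) qb_num4
    by_cases h5 : s ^ 2 ≤ 519/1000
    · exact qb_interval hs0 hs1 (by norm_num) (not_le.mp h4).le h5 (by norm_num) qb_num5
    by_cases h6 : s ^ 2 ≤ 279/500
    · exact qb_interval hs0 hs1 (by norm_num) (not_le.mp h5).le h6 (by norm_num) qb_num6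
    by_cases h7 : s ^ 2 ≤ 593/1000
    · exact qb_interval hs0 hs1 (by norm_num) (not_le.mp h6).le h7 (by norm_num) qb_num7
    by_cases h8 : s ^ 2 ≤ 5/8
    · exact qb_interval hs0 hs1 (by norm_num) (not_le.mp h7).le h8 (by norm_num) qb_num8
    by_cases h9 : s ^ 2 ≤ 131/200
    · exact qb_interval hs0 hs1 (by norm_num) (not_le.mp h8).le h9 (by norm_num) qb_num9
    by_cases h10 : s ^ 2 ≤ 171/250
    · exact qb_interval hs0 hs1 (by norm_num) (not_le.mp h9).le h10 (by norm_num) qb_num10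
    exact qb_interval hs0 hs1 (by norm_num) (not_le.mp h10).le hL' (by norm_num) qb_num11

end Vale.Agent.P322
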