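import Vale.Agent.P322.SCQuart

/-!
Kernel-checked certificate for the two-parameter inequality `QF r` on compact ranges of `r`.

With `R = r^2`, `x = s^2`, `c k = 1 / ((2k+1)(k+1))` one has `psi2 t = sum_k c k (t^2)^(k+1)`, so
`(hh (r s) - hh s) / s^2 = sum_k c k (1 - R^(k+1)) x^k` is increasing in `x` and decreasing in `R`,
and `hh (r s)`, `hh r` are decreasing.  On a box `[R1,R2] x [x1,x2]` the inequality follows from a
rational inequality (`box`), and `chk` is a recursive bisection.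
-/

namespace Vale.Agent.P322

open Real Finset

/-- Horner evaluation of `sum_{j<n} y^j / ((2(k+j)+1)(k+j+1))`. -/
def tq (y : ℚ) : ℕ → ℕ → ℚ
  | 0, _ => 0
  | n + 1, k => 1 / (((2 * k + 1) * (k + 1) : ℕ) : ℚ) + y * tq y n (k + 1)

def lhi : ℚ := 6931471808 / 10000000000
def llo : ℚ := 6931471803 / 10000000000

/-- the rational test for one box -/
def box (J : ℕ) (R1 R2 x1 x2 : ℚ) : Bool :=
  let y := R2 * x2
  let A := 2 * lhi - R1 * tq R1 J 0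
  let P := tq x1 J 0 - R2 * tq (R2 * x1) J 0
  let E := 2 * llo - y * tq y J 0 - y ^ (J + 1) / ((((2 * J + 1) * (J + 1) : ℕ) : ℚ) * (1 - y))
  decide (0 ≤ R1) && decide (R2 ≤ 1) && decide (0 ≤ x1) && decide (y < 1) && decide (0 ≤ E) &&
    decide (9 * (A * A) ≤ 10 * (P * E))

/-- recursive bisection, alternating between the two variables -/
def chk (J : ℕ) : ℕ → Bool → ℚ → ℚ → ℚ → ℚ → Bool
  | 0, _, R1, R2, x1, x2 => box J R1 R2 x1 x2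
  | d + 1, b, R1, R2, x1, x2 =>
    box J R1 R2 x1 x2 ||
      (if b then
        (chk J d (!b) R1 ((R1 + R2) / 2) x1 x2 && chk J d (!b) ((R1 + R2) / 2) R2 x1 x2)
      else
        (chk J d (!b) R1 R2 x1 ((x1 + x2) / 2) && chk J d (!b) R1 R2 ((x1 + x2) / 2) x2))

/-- the truncated series over the reals -/
noncomputable def TT (J : ℕ) (y : ℝ) : ℝ :=
  ∑ k ∈ range J, y ^ k / ((2 * (k : ℝ) + 1) * ((k : ℝ) + 1))

theorem tq_cast (y : ℚ) (n k : ℕ) :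
    ((tq y n k : ℚ) : ℝ) =
      ∑ j ∈ range n, (y : ℝ) ^ j / ((2 * ((k : ℝ) + j) + 1) * (((k : ℝ) + j) + 1)) := by
  induction n generalizing k with
  | zero => simp [tq]
  | succ n ih =>
    rw [tq, Finset.sum_range_succ']
    push_cast
    rw [ih (k + 1), Finset.mul_sum, add_comm]
    congr 1
    · apply Finset.sum_congr rfl
      intro j _
      push_cast
      rw [pow_succ]
      have e : (k : ℝ) + 1 + j = k + (j + 1) := by ring
      rw [e]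
      ring
    · simp

theorem tq_cast0 (y : ℚ) (J : ℕ) : ((tq y J 0 : ℚ) : ℝ) = TT J (y : ℝ) := by
  rw [tq_cast, TT]
  apply Finset.sum_congr rfl
  intro j _
  simp

theorem TT_nonneg (J : ℕ) {y : ℝ} (hy : 0 ≤ y) : 0 ≤ TT J y := by
  unfold TT
  apply Finset.sum_nonneg
  intro k _
  positivity

theorem TT_mono (J : ℕ) {a b : ℝ} (ha : 0 ≤ a) (hab : a ≤ b) : TT J a ≤ TT J b := by
  unfold TT
  apply Finset.sum_le_sum
  intro k _
  gcongr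

theorem mul_TT (J : ℕ) (u : ℝ) :
    u * TT J u = ∑ k ∈ range J, u ^ (k + 1) / ((2 * (k : ℝ) + 1) * ((k : ℝ) + 1)) := by
  rw [TT, Finset.mul_sum]
  apply Finset.sum_congr rfl
  intro k _
  rw [pow_succ]
  ring

theorem psi2_lower_TT (J : ℕ) {t : ℝ} (ht : |t| < 1) : t ^ 2 * TT J (t ^ 2) ≤ psi2 t := by
  rw [mul_TT]
  apply sum_le_hasSum _ _ (psi2_hasSum ht)
  intro k _
  positivity

theorem psi2_upper_TT (J : ℕ) {t : ℝ} (ht : |t| < 1) :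
    psi2 t ≤ t ^ 2 * TT J (t ^ 2) +
      (t ^ 2) ^ (J + 1) / (((2 * (J : ℝ) + 1) * ((J : ℝ) + 1)) * (1 - t ^ 2)) := by
  have h := psi2_hasSum ht
  have h2 := (hasSum_nat_add_iff' J).mpr h
  have ht2 : t ^ 2 < 1 := by
    rw [← sq_abs]
    exact pow_lt_one₀ (abs_nonneg t) ht (by norm_num)
  have ht0 : 0 ≤ t ^ 2 := by positivity
  set u := t ^ 2 with hu
  have hg := (hasSum_geometric_of_lt_one ht0 ht2).mul_left
    (u ^ (J + 1) / ((2 * (J : ℝ) + 1) * ((J : ℝ) + 1)))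
  have hle := hasSum_le (fun k => ?_) h2 hg
  · rw [mul_TT]
    have e : u ^ (J + 1) / ((2 * (J : ℝ) + 1) * ((J : ℝ) + 1)) * (1 - u)⁻¹ =
        u ^ (J + 1) / (((2 * (J : ℝ) + 1) * ((J : ℝ) + 1)) * (1 - u)) := by
      rw [← div_eq_mul_inv, div_div]
    rw [e] at hle
    linarith
  · have e : u ^ (k + J + 1) = u ^ (J + 1) * u ^ k := by ring
    rw [e]
    have hk : (2 * (J : ℝ) + 1) * ((J : ℝ) + 1) ≤
        (2 * ((k + J : ℕ) : ℝ) + 1) * (((k + J : ℕ) : ℝ) + 1) := by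
      push_cast
      have h0 : (0 : ℝ) ≤ k := Nat.cast_nonneg k
      have h1 : (0 : ℝ) ≤ J := Nat.cast_nonneg J
      gcongr <;> linarith
    have hpos : 0 ≤ u ^ (J + 1) * u ^ k := by positivity
    calc u ^ (J + 1) * u ^ k / ((2 * ((k + J : ℕ) : ℝ) + 1) * (((k + J : ℕ) : ℝ) + 1))
        ≤ u ^ (J + 1) * u ^ k / ((2 * (J : ℝ) + 1) * ((J : ℝ) + 1)) := by gcongr
      _ = u ^ (J + 1) / ((2 * (J : ℝ) + 1) * ((J : ℝ) + 1)) * u ^ k := by ring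

theorem psi2_upper_mono (J : ℕ) {t y : ℝ} (ht : |t| < 1) (hty : t ^ 2 ≤ y) (hy : y < 1) :
    psi2 t ≤ y * TT J y + y ^ (J + 1) / (((2 * (J : ℝ) + 1) * ((J : ℝ) + 1)) * (1 - y)) := by
  have h := psi2_upper_TT J ht
  have ht0 : 0 ≤ t ^ 2 := by positivity
  have h1 : t ^ 2 * TT J (t ^ 2) ≤ y * TT J y :=
    mul_le_mul hty (TT_mono J ht0 hty) (TT_nonneg J ht0) (by linarith)
  have h2 : (t ^ 2) ^ (J + 1) / (((2 * (J : ℝ) + 1) * ((J : ℝ) + 1)) * (1 - t ^ 2)) ≤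
      y ^ (J + 1) / (((2 * (J : ℝ) + 1) * ((J : ℝ) + 1)) * (1 - y)) := by
    have hy1 : 0 < 1 - y := by linarith
    have hy0 : 0 ≤ y := le_trans ht0 hty
    apply div_le_div₀ (by positivity) (by gcongr) (by positivity)
    gcongr
  linarith

theorem psi2_diff_lower (J : ℕ) {r s x1 R2 : ℝ} (hr0 : 0 ≤ r) (hs0 : 0 < s) (hs1 : s < 1)
    (hx1 : 0 ≤ x1) (hx : x1 ≤ s ^ 2) (hR : r ^ 2 ≤ R2) (hR2 : R2 ≤ 1) :
    s ^ 2 * (TT J x1 - R2 * TT J (R2 * x1)) ≤ psi2 s - psi2 (r * s) := by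
  have hr1 : r ≤ 1 := by nlinarith
  have hs : |s| < 1 := by rw [abs_lt]; constructor <;> linarith
  have hrs : |r * s| < 1 := by
    rw [abs_lt]
    constructor <;> nlinarith
  have hsum := (psi2_hasSum hs).sub (psi2_hasSum hrs)
  have hR0 : 0 ≤ r ^ 2 := by positivity
  have hR1 : r ^ 2 ≤ 1 := by linarith
  have hterm : ∀ k : ℕ, (s ^ 2) ^ (k + 1) / ((2 * (k : ℝ) + 1) * ((k : ℝ) + 1)) -
      ((r * s) ^ 2) ^ (k + 1) / ((2 * (k : ℝ) + 1) * ((k : ℝ) + 1)) =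
      s ^ 2 * ((s ^ 2) ^ k * (1 - (r ^ 2) ^ (k + 1))) / ((2 * (k : ℝ) + 1) * ((k : ℝ) + 1)) := by
    intro k
    rw [← sub_div]
    congr 1
    rw [mul_pow, mul_pow]
    ring
  have hle := sum_le_hasSum (range J) (fun k _ => ?_) hsum
  · refine le_trans ?_ hle
    rw [TT, TT, Finset.mul_sum, ← Finset.sum_sub_distrib, Finset.mul_sum]
    apply Finset.sum_le_sum
    intro k _
    rw [hterm k]
    have e : s ^ 2 * (x1 ^ k / ((2 * (k : ℝ) + 1) * ((k : ℝ) + 1)) -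
        R2 * ((R2 * x1) ^ k / ((2 * (k : ℝ) + 1) * ((k : ℝ) + 1)))) =
        s ^ 2 * (x1 ^ k * (1 - R2 ^ (k + 1))) / ((2 * (k : ℝ) + 1) * ((k : ℝ) + 1)) := by
      rw [mul_pow]
      ring
    rw [e]
    have h1 : x1 ^ k ≤ (s ^ 2) ^ k := by gcongr
    have h2 : 1 - R2 ^ (k + 1) ≤ 1 - (r ^ 2) ^ (k + 1) := by
      have : (r ^ 2) ^ (k + 1) ≤ R2 ^ (k + 1) := by gcongr
      linarith
    have h3 : 0 ≤ 1 - R2 ^ (k + 1) := by
      have : R2 ^ (k + 1) ≤ 1 := pow_le_one₀ (by linarith) hR2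
      linarith
    have h4 : x1 ^ k * (1 - R2 ^ (k + 1)) ≤ (s ^ 2) ^ k * (1 - (r ^ 2) ^ (k + 1)) :=
      mul_le_mul h1 h2 h3 (by positivity)
    gcongr
  · rw [hterm k]
    have h3 : 0 ≤ 1 - (r ^ 2) ^ (k + 1) := by
      have : (r ^ 2) ^ (k + 1) ≤ 1 := pow_le_one₀ hR0 hR1
      linarith
    positivity

/-- the inequality of `QF` at one point -/
def QFat (r s : ℝ) : Prop :=
  9 * ((hh r) ^ 2 * s ^ 2) ≤ 10 * ((hh (r * s) - hh s) * hh (r * s))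

theorem box_real (J : ℕ) {R1 R2 x1 x2 lo hi r s : ℝ}
    (hlo : lo ≤ Real.log 2) (hhi : Real.log 2 ≤ hi)
    (hR1 : 0 ≤ R1) (hR2 : R2 ≤ 1) (hx1 : 0 ≤ x1) (hy : R2 * x2 < 1)
    (hE : 0 ≤ 2 * lo - R2 * x2 * TT J (R2 * x2) -
      (R2 * x2) ^ (J + 1) / (((2 * (J : ℝ) + 1) * ((J : ℝ) + 1)) * (1 - R2 * x2)))
    (hmain : 9 * ((2 * hi - R1 * TT J R1) * (2 * hi - R1 * TT J R1)) ≤
      10 * ((TT J x1 - R2 * TT J (R2 * x1)) * (2 * lo - R2 * x2 * TT J (R2 * x2) -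
      (R2 * x2) ^ (J + 1) / (((2 * (J : ℝ) + 1) * ((J : ℝ) + 1)) * (1 - R2 * x2)))))
    (hr0 : 0 ≤ r) (hr1 : r < 1) (hs0 : 0 < s) (hs1 : s < 1)
    (h1 : R1 ≤ r ^ 2) (h2 : r ^ 2 ≤ R2) (h3 : x1 ≤ s ^ 2) (h4 : s ^ 2 ≤ x2) : QFat r s := by
  unfold QFat
  set E := 2 * lo - R2 * x2 * TT J (R2 * x2) -
      (R2 * x2) ^ (J + 1) / (((2 * (J : ℝ) + 1) * ((J : ℝ) + 1)) * (1 - R2 * x2)) with hEdef
  set A := 2 * hi - R1 * TT J R1 with hA
  set P := TT J x1 - R2 * TT J (R2 * x1) with hP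
  have hra : |r| < 1 := by rw [abs_lt]; constructor <;> linarith
  have hrs : |r * s| < 1 := by
    rw [abs_lt]
    constructor <;> nlinarith
  have hs2 : 0 ≤ s ^ 2 := by positivity
  -- hh r ≤ A
  have hA1 : hh r ≤ A := by
    have h := psi2_lower_TT J hra
    have h' : R1 * TT J R1 ≤ r ^ 2 * TT J (r ^ 2) :=
      mul_le_mul h1 (TT_mono J hR1 h1) (TT_nonneg J hR1) (by positivity)
    unfold hh
    rw [psi2_one]
    linarith
  have hA0 : 0 ≤ hh r := hh_nonneg hra.le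
  -- E ≤ hh (r s)
  have hE1 : E ≤ hh (r * s) := by
    have hle : (r * s) ^ 2 ≤ R2 * x2 := by
      rw [mul_pow]
      exact mul_le_mul h2 h4 hs2 (by linarith [sq_nonneg r])
    have h := psi2_upper_mono J hrs hle hy
    unfold hh
    rw [psi2_one]
    linarith
  -- difference
  have hD : s ^ 2 * P ≤ hh (r * s) - hh s := by
    have h := psi2_diff_lower J hr0 hs0 hs1 hx1 h3 h2 hR2
    unfold hh
    linarith
  have hD0 : 0 ≤ hh (r * s) - hh s := by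
    have h := psi2_diff_lower 0 hr0 hs0 hs1 hx1 h3 h2 hR2
    simp only [TT, Finset.range_zero, Finset.sum_empty] at h
    unfold hh
    linarith
  have hsq : (hh r) ^ 2 ≤ A * A := by nlinarith
  calc 9 * ((hh r) ^ 2 * s ^ 2) ≤ 9 * (A * A * s ^ 2) := by gcongr
    _ = (9 * (A * A)) * s ^ 2 := by ring
    _ ≤ (10 * (P * E)) * s ^ 2 := by gcongr
    _ = 10 * ((s ^ 2 * P) * E) := by ring
    _ ≤ 10 * ((hh (r * s) - hh s) * E) := by gcongr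
    _ ≤ 10 * ((hh (r * s) - hh s) * hh (r * s)) := by gcongr

theorem llo_le : ((llo : ℚ) : ℝ) ≤ Real.log 2 := by
  have h := Real.log_two_gt_d9
  unfold llo
  push_cast
  norm_num at h ⊢
  linarith

theorem le_lhi : Real.log 2 ≤ ((lhi : ℚ) : ℝ) := by
  have h := Real.log_two_lt_d9
  unfold lhi
  push_cast
  norm_num at h ⊢
  linarith

theorem box_sound {J : ℕ} {R1 R2 x1 x2 : ℚ} (h : box J R1 R2 x1 x2 = true) {r s : ℝ}
    (hr0 : 0 ≤ r) (hr1 : r < 1) (hs0 : 0 < s) (hs1 : s < 1)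
    (h1 : (R1 : ℝ) ≤ r ^ 2) (h2 : r ^ 2 ≤ (R2 : ℝ)) (h3 : (x1 : ℝ) ≤ s ^ 2)
    (h4 : s ^ 2 ≤ (x2 : ℝ)) : QFat r s := by
  unfold box at h
  simp only [Bool.and_eq_true, decide_eq_true_eq] at h
  obtain ⟨⟨⟨⟨⟨a1, a2⟩, a3⟩, a4⟩, a5⟩, a6⟩ := h
  have b1 : (0 : ℝ) ≤ (R1 : ℝ) := by exact_mod_cast a1
  have b2 : (R2 : ℝ) ≤ 1 := by exact_mod_cast a2
  have b3 : (0 : ℝ) ≤ (x1 : ℝ) := by exact_mod_cast a3
  have b4 : (R2 : ℝ) * (x2 : ℝ) < 1 := by exact_mod_cast a4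
  have b5 := (Rat.cast_le (K := ℝ)).mpr a5
  have b6 := (Rat.cast_le (K := ℝ)).mpr a6
  push_cast at b5 b6
  simp only [tq_cast0] at b5 b6
  push_cast at b5 b6
  exact box_real J llo_le le_lhi b1 b2 b3 b4 b5 b6 hr0 hr1 hs0 hs1 h1 h2 h3 h4

theorem chk_sound {J : ℕ} (d : ℕ) : ∀ (b : Bool) (R1 R2 x1 x2 : ℚ),
    chk J d b R1 R2 x1 x2 = true → ∀ {r s : ℝ}, 0 ≤ r → r < 1 → 0 < s → s < 1 →
    (R1 : ℝ) ≤ r ^ 2 → r ^ 2 ≤ (R2 : ℝ) → (x1 : ℝ) ≤ s ^ 2 → s ^ 2 ≤ (x2 : ℝ) → QFat r s := by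
  induction d with
  | zero =>
    intro b R1 R2 x1 x2 h r s hr0 hr1 hs0 hs1 h1 h2 h3 h4
    exact box_sound h hr0 hr1 hs0 hs1 h1 h2 h3 h4
  | succ d ih =>
    intro b R1 R2 x1 x2 h r s hr0 hr1 hs0 hs1 h1 h2 h3 h4
    rw [chk, Bool.or_eq_true] at h
    rcases h with h | h
    · exact box_sound h hr0 hr1 hs0 hs1 h1 h2 h3 h4
    · cases b with
      | true =>
        simp only [if_true, Bool.and_eq_true] at h
        rcases le_total (r ^ 2) (((R1 + R2) / 2 : ℚ) : ℝ) with hm | hm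
        · exact ih _ _ _ _ _ h.1 hr0 hr1 hs0 hs1 h1 hm h3 h4
        · exact ih _ _ _ _ _ h.2 hr0 hr1 hs0 hs1 hm h2 h3 h4
      | false =>
        simp only [Bool.false_eq_true, if_false, Bool.and_eq_true] at h
        rcases le_total (s ^ 2) (((x1 + x2) / 2 : ℚ) : ℝ) with hm | hm
        · exact ih _ _ _ _ _ h.1 hr0 hr1 hs0 hs1 h1 h2 h3 hm
        · exact ih _ _ _ _ _ h.2 hr0 hr1 hs0 hs1 h1 h2 hm h4

/-- A successful run of the checker on `[a^2, b^2] x [0,1]` proves `QF r` for `r` in `[a,b]`. -/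
theorem qf_of_chk {J d : ℕ} {a b : ℚ} (h : chk J d true (a ^ 2) (b ^ 2) 0 1 = true)
    (ha : 0 ≤ a) {r : ℝ} (h1 : (a : ℝ) ≤ r) (h2 : r ≤ (b : ℝ)) (h3 : r < 1) : QF r := by
  intro s hs0 hs1
  have ha' : (0 : ℝ) ≤ (a : ℝ) := by exact_mod_cast ha
  have hr0 : 0 ≤ r := le_trans ha' h1
  refine chk_sound d true _ _ _ _ h hr0 h3 hs0 hs1 ?_ ?_ ?_ ?_
  · push_cast
    gcongr
  · push_cast
    gcongr
  · push_cast
    positivity
  · push_cast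
    nlinarith

end Vale.Agent.P322
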