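import Vale.Agent.P322.QFCert

/-!
Certificate run: `QF r` for `r` in `[8/10, 9/10]`.
-/

namespace Vale.Agent.P322

set_option maxRecDepth 100000 in
theorem chk_B : chk 30 14 true ((8/10) ^ 2) ((9/10) ^ 2) 0 1 = true := by decide +kernel

theorem qf_B {r : ℝ} (h1 : 8/10 ≤ r) (h2 : r ≤ 9/10) : QF r := by
  refine qf_of_chk chk_B (by norm_num) ?_ ?_ ?_
  · push_cast
    exact h1
  · push_cast
    exact h2
  · linarith

end Vale.Agent.P322
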