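import Vale.Agent.P322.QFCertA
import Vale.Agent.P322.QFCertB
import Vale.Agent.P322.QFCertC

/-!
`QF r` on the compact range `2/3 ≤ r ≤ 95/100`, from the certificate runs.
-/

namespace Vale.Agent.P322

theorem qf_compact {r : ℝ} (h1 : 2 / 3 ≤ r) (h2 : r ≤ 95 / 100) : QF r := by
  rcases le_total r (8 / 10) with h | h
  · exact qf_A h1 h
  · rcases le_total r (9 / 10) with h' | h'
    · exact qf_B h h'
    · exact qf_C h' h2

end Vale.Agent.P322
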