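import Vale.Agent.P322.SCQuart

/-!
Glue lemma (helper22's reduction): the monotone-lines statement `MLines` transports the
two-parameter inequality `QFS r0` to `QFS r` for every `r` in `[r0, 1)`.
-/

namespace Vale.Agent.P322

open Real

/-- Monotone lines: a line below the curve `z ↦ hh (r0 z)` (in the coordinates `hh z`, `z`) stays
below the curve at `r ≥ r0` after normalising its second coefficient by `hh r / hh r0`. -/
def MLines : Prop :=
  ∀ r0 A B0 : ℝ, 0 < r0 → r0 < 1 →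
    (∀ z : ℝ, 0 ≤ z → z ≤ 1 → A * hh z + B0 * z ≤ hh (r0 * z)) →
    ∀ r z : ℝ, r0 ≤ r → r ≤ 1 → 0 ≤ z → z ≤ 1 →
      A * hh z + B0 / hh r0 * hh r * z ≤ hh (r * z)

/-- the cone line at `P = 0` -/
theorem dc_line {r s z : ℝ} (hr0 : 0 < r) (hr1 : r < 1) (hs0 : 0 < s) (hs1 : s < 1)
    (hz0 : 0 ≤ z) (hz1 : z ≤ 1) : dcA r s * hh z + dcB r s * z ≤ hh (r * z) := by
  have h := isDC_cone hr0 hr1 hs0 hs1 0 z (by rw [abs_zero, abs_of_nonneg hz0]; linarith)
  rw [abs_of_nonneg hz0] at h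
  simp only [zero_add, zero_sub, hh_neg] at h
  linarith

/-- pure algebra of the glue step -/
theorem glue_alg {H H0 s s0 g y g0 y0 : ℝ} (hH : 0 < H) (hH0 : 0 < H0) (hs : 0 < s) (hs0 : 0 < s0)
    (hy0 : 0 ≤ y0) (hgy0 : y0 ≤ g0)
    (hrel : y0 * (H * s) = y * (H0 * s0))
    (hg : g0 * (H * s) ≤ g * (H0 * s0))
    (hq : 9 * (H0 ^ 2 * s0 ^ 2) ≤ 10 * ((g0 - y0) * g0)) :
    9 * (H ^ 2 * s ^ 2) ≤ 10 * ((g - y) * g) := by
  set a := H * s with ha
  set b := H0 * s0 with hb
  have ha0 : 0 < a := mul_pos hH hs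
  have hb0 : 0 < b := mul_pos hH0 hs0
  have hg0 : 0 ≤ g0 := le_trans hy0 hgy0
  -- (g b - y b) (g b) ≥ (g0 a - y0 a) (g0 a)
  have k1 : (g0 * a - y0 * a) * (g0 * a) ≤ (g * b - y * b) * (g * b) := by
    rw [← hrel]
    have e1 : 0 ≤ g0 * a - y0 * a := by
      have : 0 ≤ (g0 - y0) * a := mul_nonneg (by linarith) ha0.le
      linarith
    have e2 : 0 ≤ g0 * a := mul_nonneg hg0 ha0.le
    have e3 : g0 * a - y0 * a ≤ g * b - y0 * a := by linarith
    calc (g0 * a - y0 * a) * (g0 * a) ≤ (g * b - y0 * a) * (g0 * a) :=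
          mul_le_mul_of_nonneg_right e3 e2
      _ ≤ (g * b - y0 * a) * (g * b) := mul_le_mul_of_nonneg_left hg (le_trans e1 e3)
  have k2 : 9 * (b ^ 2) * a ^ 2 ≤ 10 * ((g0 - y0) * g0) * a ^ 2 := by
    apply mul_le_mul_of_nonneg_right _ (sq_nonneg a)
    have : b ^ 2 = H0 ^ 2 * s0 ^ 2 := by rw [hb]; ring
    rw [this]
    exact hq
  have k3 : (9 * a ^ 2) * b ^ 2 ≤ (10 * ((g - y) * g)) * b ^ 2 := by
    calc (9 * a ^ 2) * b ^ 2 = 9 * (b ^ 2) * a ^ 2 := by ring
      _ ≤ 10 * ((g0 - y0) * g0) * a ^ 2 := k2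
      _ = 10 * ((g0 * a - y0 * a) * (g0 * a)) := by ring
      _ ≤ 10 * ((g * b - y * b) * (g * b)) := by linarith
      _ = (10 * ((g - y) * g)) * b ^ 2 := by ring
  have k4 := le_of_mul_le_mul_right k3 (by positivity : 0 < b ^ 2)
  have : a ^ 2 = H ^ 2 * s ^ 2 := by rw [ha]; ring
  rw [← this]
  exact k4

/-- Glue: `QFS r0` and monotone lines give `QFS r` for `r0 ≤ r < 1`. -/
theorem qfs_glue (hML : MLines) {r0 r : ℝ} (h0 : 0 < r0) (h01 : r0 ≤ r) (h1 : r < 1)
    (hQ : QFS r0) : QFS r := by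
  intro s hs0 hs1 hside
  have hr0 : 0 < r := lt_of_lt_of_le h0 h01
  have hr01 : r0 < 1 := lt_of_le_of_lt h01 h1
  set H := hh r with hH
  set H0 := hh r0 with hH0
  have hHpos : 0 < H := hh_pos (by rw [abs_of_pos hr0]; exact h1)
  have hH0pos : 0 < H0 := hh_pos (by rw [abs_of_pos h0]; exact hr01)
  set y := hh s with hy
  have hypos : 0 < y := hh_pos (by rw [abs_of_pos hs0]; exact hs1)
  -- IVT for s0
  have hcont : ContinuousOn (fun x : ℝ => y * (H0 * x) - hh x * (H * s)) (Set.Icc 0 1) := by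
    apply Continuous.continuousOn
    exact (continuous_const.mul (continuous_const.mul continuous_id)).sub
      (hh_continuous.mul continuous_const)
  have hz : (0 : ℝ) ∈ Set.Icc ((fun x : ℝ => y * (H0 * x) - hh x * (H * s)) 0)
      ((fun x : ℝ => y * (H0 * x) - hh x * (H * s)) 1) := by
    constructor
    · simp only [mul_zero, zero_sub]
      rw [hh_zero]
      have := mul_pos psi2_one_pos (mul_pos hHpos hs0)
      linarith
    · simp only [mul_one]
      rw [hh_one]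
      have := mul_pos hypos hH0pos
      linarith
  obtain ⟨s0, hs, hs00⟩ := intermediate_value_Icc (by norm_num : (0 : ℝ) ≤ 1) hcont hz
  simp only at hs00
  have hs0pos : 0 < s0 := by
    rcases hs.1.eq_or_lt with h | h
    · exfalso
      rw [← h] at hs00
      simp only [mul_zero, zero_sub] at hs00
      rw [hh_zero] at hs00
      have := mul_pos psi2_one_pos (mul_pos hHpos hs0)
      linarith
    · exact h
  have hs0lt : s0 < 1 := by
    rcases hs.2.eq_or_lt with h | h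
    · exfalso
      rw [h] at hs00
      simp only [mul_one] at hs00
      rw [hh_one] at hs00
      have := mul_pos hypos hH0pos
      linarith
    · exact h
  set y0 := hh s0 with hy0
  set g0 := hh (r0 * s0) with hg0
  set g := hh (r * s) with hg
  have hrel : y0 * (H * s) = y * (H0 * s0) := by linarith
  have hy0pos : 0 < y0 := hh_pos (by rw [abs_of_pos hs0pos]; exact hs0lt)
  have hgy0 : y0 ≤ g0 := by
    have h4 : psi2 (r0 * s0) ≤ psi2 s0 :=
      psi2_mono (mul_pos h0 hs0pos).le (by nlinarith) hs0lt.le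
    rw [hy0, hg0]
    unfold hh
    linarith
  -- the tangent line at (r0, s0), transported to r
  have hline := hML r0 (dcA r0 s0) (dcB r0 s0) h0 hr01
    (fun z hz0 hz1 => dc_line h0 hr01 hs0pos hs0lt hz0 hz1) r s h01 h1.le hs0.le hs1.le
  rw [← hH, ← hH0, ← hy, ← hg] at hline
  have hBm := dcB_mul h0 hr01 hs0pos hs0lt
  rw [← hg0, ← hy0] at hBm
  have hgg : g0 * (H * s) ≤ g * (H0 * s0) := by
    have e1 : (dcA r0 s0 * y + dcB r0 s0 / H0 * H * s) * (H0 * s0) ≤ g * (H0 * s0) :=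
      mul_le_mul_of_nonneg_right hline (mul_pos hH0pos hs0pos).le
    have e2 : (dcA r0 s0 * y + dcB r0 s0 / H0 * H * s) * (H0 * s0)
        = dcA r0 s0 * (y * (H0 * s0)) + (dcB r0 s0 * s0) * (H * s) := by
      field_simp
    rw [e2, ← hrel, hBm] at e1
    have e3 : dcA r0 s0 * (y0 * (H * s)) + (g0 - dcA r0 s0 * y0) * (H * s) = g0 * (H * s) := by ring
    rw [e3] at e1
    exact e1
  -- side condition at s0
  have hside0 : 16 * g0 ≤ 25 * y0 := by
    have e1 : (16 * g0) * (H * s) ≤ (25 * y0) * (H * s) := by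
      calc (16 * g0) * (H * s) = 16 * (g0 * (H * s)) := by ring
        _ ≤ 16 * (g * (H0 * s0)) := by linarith
        _ = (16 * g) * (H0 * s0) := by ring
        _ ≤ (25 * y) * (H0 * s0) :=
            mul_le_mul_of_nonneg_right hside (mul_pos hH0pos hs0pos).le
        _ = 25 * (y * (H0 * s0)) := by ring
        _ = (25 * y0) * (H * s) := by rw [← hrel]; ring
    exact le_of_mul_le_mul_right e1 (mul_pos hHpos hs0)
  have hq := hQ s0 hs0pos hs0lt hside0
  rw [← hH0, ← hg0, ← hy0] at hq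
  exact glue_alg hHpos hH0pos hs0 hs0pos hy0pos.le hgy0 hrel hgg hq

/-- All of `[2/3, 1)` from the single value `2/3`. -/
theorem qfs_all_of_two_thirds (hML : MLines) (hQ : QFS (2 / 3)) :
    ∀ r : ℝ, 2 / 3 ≤ r → r < 1 → QFS r :=
  fun _ h0 h1 => qfs_glue hML (by norm_num) h0 h1 hQ

end Vale.Agent.P322
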