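import Vale.Agent.P322.SCQuart

/-!
Reduction of the two-parameter inequality `QFS r` on a whole interval `r0 ≤ r ≤ r1` to two
one-variable inequalities in `s` (helper97).

* `psi2_diff_le` (termwise): `psi2 (r s) - psi2 (r0 s) ≤ s^2 (psi2 r - psi2 r0)` for `r0 ≤ r < 1`.
  So with `Y = hh r0 - hh r ≥ 0`: `hh (r s) ≥ hh (r0 s) - s^2 Y`.
* `x (x - b)` is increasing for `x ≥ b ≥ 0`.
* `P Y = 10 (a0 - b - s^2 Y) (a0 - s^2 Y) - 9 s^2 (y0 - Y)^2` is a quadratic in `Y` with leading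
  coefficient `s^2 (10 s^2 - 9) ≤ 0`, so it is nonnegative on `[0, Ym]` as soon as it is
  nonnegative at both end points.
* for `s ≥ sc` the side condition of `QFS` fails.
-/

namespace Vale.Agent.P322

open Real

theorem psi2_diff_le {r0 r s : ℝ} (h0 : 0 ≤ r0) (h01 : r0 ≤ r) (h1 : r < 1) (hs0 : 0 ≤ s)
    (hs1 : s ≤ 1) : psi2 (r * s) - psi2 (r0 * s) ≤ s ^ 2 * (psi2 r - psi2 r0) := by
  have hr : |r| < 1 := by rw [abs_of_nonneg (le_trans h0 h01)]; exact h1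
  have hr0 : |r0| < 1 := by rw [abs_of_nonneg h0]; exact lt_of_le_of_lt h01 h1
  have hrs : |r * s| < 1 := by
    rw [abs_of_nonneg (mul_nonneg (le_trans h0 h01) hs0)]
    calc r * s ≤ r * 1 := mul_le_mul_of_nonneg_left hs1 (le_trans h0 h01)
      _ = r := mul_one r
      _ < 1 := h1
  have hr0s : |r0 * s| < 1 := by
    rw [abs_of_nonneg (mul_nonneg h0 hs0)]
    calc r0 * s ≤ r0 * 1 := mul_le_mul_of_nonneg_left hs1 h0
      _ = r0 := mul_one r0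
      _ < 1 := lt_of_le_of_lt h01 h1
  have A := (psi2_hasSum hrs).sub (psi2_hasSum hr0s)
  have B := ((psi2_hasSum hr).sub (psi2_hasSum hr0)).mul_left (s ^ 2)
  refine hasSum_le (fun k => ?_) A B
  have hc : (0 : ℝ) < (2 * (k : ℝ) + 1) * ((k : ℝ) + 1) := by positivity
  have e1 : ((r * s) ^ 2) ^ (k + 1) = (s ^ 2) ^ (k + 1) * (r ^ 2) ^ (k + 1) := by
    rw [mul_pow, mul_pow]; ring
  have e2 : ((r0 * s) ^ 2) ^ (k + 1) = (s ^ 2) ^ (k + 1) * (r0 ^ 2) ^ (k + 1) := by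
    rw [mul_pow, mul_pow]; ring
  have hs2 : s ^ 2 ≤ 1 := by nlinarith
  have hs20 : 0 ≤ s ^ 2 := sq_nonneg s
  have hp : (s ^ 2) ^ (k + 1) ≤ s ^ 2 := by
    rw [pow_succ]
    calc (s ^ 2) ^ k * s ^ 2 ≤ 1 * s ^ 2 :=
          mul_le_mul_of_nonneg_right (pow_le_one₀ hs20 hs2) hs20
      _ = s ^ 2 := one_mul _
  have hd : 0 ≤ (r ^ 2) ^ (k + 1) - (r0 ^ 2) ^ (k + 1) := by
    have : r0 ^ 2 ≤ r ^ 2 := by nlinarith
    have := pow_le_pow_left₀ (sq_nonneg r0) this (k + 1)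
    linarith
  rw [e1, e2]
  have e3 : (s ^ 2) ^ (k + 1) * (r ^ 2) ^ (k + 1) / ((2 * (k : ℝ) + 1) * ((k : ℝ) + 1))
      - (s ^ 2) ^ (k + 1) * (r0 ^ 2) ^ (k + 1) / ((2 * (k : ℝ) + 1) * ((k : ℝ) + 1))
      = (s ^ 2) ^ (k + 1) * (((r ^ 2) ^ (k + 1) - (r0 ^ 2) ^ (k + 1))
        / ((2 * (k : ℝ) + 1) * ((k : ℝ) + 1))) := by ring
  have e4 : s ^ 2 * ((r ^ 2) ^ (k + 1) / ((2 * (k : ℝ) + 1) * ((k : ℝ) + 1))
      - (r0 ^ 2) ^ (k + 1) / ((2 * (k : ℝ) + 1) * ((k : ℝ) + 1)))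
      = s ^ 2 * (((r ^ 2) ^ (k + 1) - (r0 ^ 2) ^ (k + 1))
        / ((2 * (k : ℝ) + 1) * ((k : ℝ) + 1))) := by ring
  rw [e3, e4]
  exact mul_le_mul_of_nonneg_right hp (div_nonneg hd hc.le)

/-- a quadratic with nonpositive leading coefficient, nonnegative at `0` and at `Ym` -/
theorem quad_endpoints {a0 b y0 t Y Ym : ℝ} (ht0 : 0 ≤ t) (ht : 10 * t ≤ 9) (hY0 : 0 ≤ Y)
    (hY : Y ≤ Ym)
    (hi : 9 * (y0 ^ 2 * t) ≤ 10 * ((a0 - b) * a0))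
    (hii : 9 * ((y0 - Ym) ^ 2 * t) ≤ 10 * ((a0 - t * Ym - b) * (a0 - t * Ym))) :
    9 * ((y0 - Y) ^ 2 * t) ≤ 10 * ((a0 - t * Y - b) * (a0 - t * Y)) := by
  rcases (le_trans hY0 hY).eq_or_lt with h | hpos
  · have : Y = 0 := le_antisymm (by rw [h]; exact hY) hY0
    rw [this]
    simpa using hi
  · have key : Ym * (10 * ((a0 - t * Y - b) * (a0 - t * Y)) - 9 * ((y0 - Y) ^ 2 * t))
        = (Ym - Y) * (10 * ((a0 - b) * a0) - 9 * (y0 ^ 2 * t))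
          + Y * (10 * ((a0 - t * Ym - b) * (a0 - t * Ym)) - 9 * ((y0 - Ym) ^ 2 * t))
          + t * (9 - 10 * t) * (Y * (Ym - Y) * Ym) := by ring
    have t1 : 0 ≤ (Ym - Y) * (10 * ((a0 - b) * a0) - 9 * (y0 ^ 2 * t)) :=
      mul_nonneg (by linarith) (by linarith)
    have t2 : 0 ≤ Y * (10 * ((a0 - t * Ym - b) * (a0 - t * Ym)) - 9 * ((y0 - Ym) ^ 2 * t)) :=
      mul_nonneg hY0 (by linarith)
    have t3 : 0 ≤ t * (9 - 10 * t) * (Y * (Ym - Y) * Ym) :=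
      mul_nonneg (mul_nonneg ht0 (by linarith))
        (mul_nonneg (mul_nonneg hY0 (by linarith)) hpos.le)
    have t4 : 0 ≤ Ym * (10 * ((a0 - t * Y - b) * (a0 - t * Y)) - 9 * ((y0 - Y) ^ 2 * t)) := by
      rw [key]; linarith
    have t5 : 0 ≤ 10 * ((a0 - t * Y - b) * (a0 - t * Y)) - 9 * ((y0 - Y) ^ 2 * t) := by
      by_contra hc
      have hc' := not_le.mp hc
      have := mul_neg_of_pos_of_neg hpos hc'
      linarith
    linarith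

theorem hh_anti {x y : ℝ} (hx : 0 ≤ x) (hxy : x ≤ y) (hy : y ≤ 1) : hh y ≤ hh x := by
  unfold hh
  have := psi2_mono hx hxy hy
  linarith

/-- The inequality at `(r, s)` from the two end point inequalities at `s`. -/
theorem qf_of_endpoints {r0 r1 r s : ℝ} (h0 : 0 < r0) (hr0 : r0 ≤ r) (hr1 : r ≤ r1) (h1 : r1 < 1)
    (hs0 : 0 < s) (hs : 10 * s ^ 2 ≤ 9)
    (hi : 9 * ((hh r0) ^ 2 * s ^ 2) ≤ 10 * ((hh (r0 * s) - hh s) * hh (r0 * s)))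
    (hii : 9 * ((hh r1) ^ 2 * s ^ 2) ≤
      10 * ((hh (r0 * s) - s ^ 2 * (hh r0 - hh r1) - hh s)
        * (hh (r0 * s) - s ^ 2 * (hh r0 - hh r1))))
    (hpos : hh s ≤ hh (r0 * s) - s ^ 2 * (hh r0 - hh r1)) :
    9 * ((hh r) ^ 2 * s ^ 2) ≤ 10 * ((hh (r * s) - hh s) * hh (r * s)) := by
  have hs1 : s ≤ 1 := by nlinarith
  have hr : r < 1 := lt_of_le_of_lt hr1 h1
  set Y := hh r0 - hh r with hY
  set Ym := hh r0 - hh r1 with hYm
  have hY0 : 0 ≤ Y := by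
    have := hh_anti h0.le hr0 hr.le
    rw [hY]; linarith
  have hYle : Y ≤ Ym := by
    have := hh_anti (le_trans h0.le hr0) hr1 h1.le
    rw [hY, hYm]; linarith
  have hT : hh (r0 * s) - s ^ 2 * Y ≤ hh (r * s) := by
    have := psi2_diff_le h0.le hr0 hr hs0.le hs1
    rw [hY]
    unfold hh
    nlinarith
  have hb : 0 ≤ hh s := hh_nonneg (by rw [abs_of_pos hs0]; exact hs1)
  have hs2 : 0 ≤ s ^ 2 := sq_nonneg s
  have hL : hh s ≤ hh (r0 * s) - s ^ 2 * Y := by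
    have : s ^ 2 * Y ≤ s ^ 2 * Ym := mul_le_mul_of_nonneg_left hYle hs2
    linarith
  have e1 : hh r = hh r0 - Y := by rw [hY]; ring
  have e2 : hh r1 = hh r0 - Ym := by rw [hYm]; ring
  rw [e2] at hii
  have q := quad_endpoints (a0 := hh (r0 * s)) (b := hh s) (y0 := hh r0) hs2 hs hY0 hYle hi hii
  rw [e1]
  have m1 : (hh (r0 * s) - s ^ 2 * Y - hh s) * (hh (r0 * s) - s ^ 2 * Y)
      ≤ (hh (r * s) - hh s) * hh (r * s) := by
    apply mul_le_mul (by linarith) hT (by linarith) (by linarith)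
  linarith

/-- `QFS r` on `[r0, r1]` from two one-variable inequalities on `(0, sc]` and one number. -/
theorem qfs_of_endpoints {r0 r1 sc : ℝ} (h0 : 0 < r0) (h1 : r1 < 1) (hsc0 : 0 < sc)
    (hsc : 10 * sc ^ 2 ≤ 9) (hside : 25 * hh sc < 16 * hh r1)
    (H1 : ∀ s, 0 < s → s ≤ sc →
      9 * ((hh r0) ^ 2 * s ^ 2) ≤ 10 * ((hh (r0 * s) - hh s) * hh (r0 * s)))
    (H2 : ∀ s, 0 < s → s ≤ sc → 9 * ((hh r1) ^ 2 * s ^ 2) ≤
      10 * ((hh (r0 * s) - s ^ 2 * (hh r0 - hh r1) - hh s)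
        * (hh (r0 * s) - s ^ 2 * (hh r0 - hh r1))))
    (H3 : ∀ s, 0 < s → s ≤ sc → hh s ≤ hh (r0 * s) - s ^ 2 * (hh r0 - hh r1))
    (r : ℝ) (hr0 : r0 ≤ r) (hr1 : r ≤ r1) : QFS r := by
  intro s hs0 hs1 hcond
  rcases le_or_gt s sc with h | h
  · have hs : 10 * s ^ 2 ≤ 9 := by nlinarith
    exact qf_of_endpoints h0 hr0 hr1 h1 hs0 hs (H1 s hs0 h) (H2 s hs0 h) (H3 s hs0 h)
  · exfalso
    have a1 : hh s ≤ hh sc := hh_anti hsc0.le h.le hs1.le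
    have hrpos : 0 < r := lt_of_lt_of_le h0 hr0
    have a2 : hh r1 ≤ hh (r * s) := by
      apply hh_anti (mul_pos hrpos hs0).le _ h1.le
      calc r * s ≤ r * 1 := mul_le_mul_of_nonneg_left hs1.le hrpos.le
        _ = r := mul_one r
        _ ≤ r1 := hr1
    linarith

end Vale.Agent.P322
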