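import Vale.Agent.P322.SCQuart
import Vale.Agent.P322.BMNum

/-!
The one-variable inequality `QFS (2/3)`.

With `x = s^2`: `psi2 s - psi2 (2 s / 3) ≥ x * PhiLo x` (partial sum of the power series, increasing
in `x`), `hh (2 s / 3) ≥ NLo x` (decreasing in `x`), `hh (2/3) ≤ HUp`; the inequality is checked on
the grid `x ∈ [k/100, (k+1)/100]`, `k < 71`.  For `x ≥ 7/10` the side condition of `QFS` fails.
-/

namespace Vale.Agent.P322

open Real

/-- partial sums of the series of `psi2` in the variable `x = t^2` -/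
noncomputable def psiPart (K : ℕ) (x : ℝ) : ℝ :=
  ∑ k ∈ Finset.range K, x ^ (k + 1) / ((2 * (k : ℝ) + 1) * ((k : ℝ) + 1))

theorem psiPart_le {t : ℝ} (ht : |t| < 1) (K : ℕ) : psiPart K (t ^ 2) ≤ psi2 t := by
  unfold psiPart
  exact sum_le_hasSum _ (fun k _ => by positivity) (psi2_hasSum ht)

theorem psiPart_mono {x y : ℝ} (hx : 0 ≤ x) (hxy : x ≤ y) (K : ℕ) : psiPart K x ≤ psiPart K y := by
  unfold psiPart
  apply Finset.sum_le_sum
  intro k _
  gcongr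

/-- lower bound for `(psi2 s - psi2 (2 s / 3)) / s^2` -/
noncomputable def PhiLo (x : ℝ) : ℝ :=
  ∑ k ∈ Finset.range 12, (1 - (4 / 9 : ℝ) ^ (k + 1)) * x ^ k / ((2 * (k : ℝ) + 1) * ((k : ℝ) + 1))

theorem PhiLo_mono {x y : ℝ} (hx : 0 ≤ x) (hxy : x ≤ y) : PhiLo x ≤ PhiLo y := by
  unfold PhiLo
  apply Finset.sum_le_sum
  intro k _
  have h : (0 : ℝ) ≤ 1 - (4 / 9 : ℝ) ^ (k + 1) := by
    have : (4 / 9 : ℝ) ^ (k + 1) ≤ 1 := pow_le_one₀ (by norm_num) (by norm_num)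
    linarith
  gcongr

theorem PhiLo_nonneg {x : ℝ} (hx : 0 ≤ x) : 0 ≤ PhiLo x := by
  unfold PhiLo
  apply Finset.sum_nonneg
  intro k _
  have h : (0 : ℝ) ≤ 1 - (4 / 9 : ℝ) ^ (k + 1) := by
    have : (4 / 9 : ℝ) ^ (k + 1) ≤ 1 := pow_le_one₀ (by norm_num) (by norm_num)
    linarith
  positivity

theorem PhiLo_le {s : ℝ} (hs0 : 0 < s) (hs1 : s < 1) :
    s ^ 2 * PhiLo (s ^ 2) ≤ psi2 s - psi2 (2 / 3 * s) := by
  have h1 : |s| < 1 := by rw [abs_of_pos hs0]; exact hs1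
  have h2 : |2 / 3 * s| < 1 := by
    rw [abs_of_pos (by positivity)]
    linarith
  have hsum := (psi2_hasSum h1).sub (psi2_hasSum h2)
  have hle := sum_le_hasSum (Finset.range 12) (fun k _ => ?_) hsum
  · refine le_trans (le_of_eq ?_) hle
    unfold PhiLo
    rw [Finset.mul_sum]
    apply Finset.sum_congr rfl
    intro k _
    have e : ((2 / 3 * s) ^ 2) ^ (k + 1) = (4 / 9 : ℝ) ^ (k + 1) * (s ^ 2) ^ (k + 1) := by
      rw [← mul_pow]
      congr 1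
      ring
    rw [e, pow_succ (s ^ 2) k]
    ring
  · have e : ((2 / 3 * s) ^ 2) ^ (k + 1) = (4 / 9 : ℝ) ^ (k + 1) * (s ^ 2) ^ (k + 1) := by
      rw [← mul_pow]
      congr 1
      ring
    rw [e, ← sub_div]
    apply div_nonneg _ (by positivity)
    have h : (4 / 9 : ℝ) ^ (k + 1) ≤ 1 := pow_le_one₀ (by norm_num) (by norm_num)
    have hp : 0 ≤ (s ^ 2) ^ (k + 1) := by positivity
    nlinarith

/-- upper bound for `psi2 t` in the variable `y = t^2` -/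
noncomputable def psiUp (y : ℝ) : ℝ := y + y ^ 2 / 6 + y ^ 3 / (15 * (1 - y))

theorem psi2_le_psiUp {t : ℝ} (ht : |t| < 1) : psi2 t ≤ psiUp (t ^ 2) := by
  have h := psi2_upper ht
  unfold psiUp
  have e1 : (t ^ 2) ^ 2 = t ^ 4 := by ring
  have e2 : (t ^ 2) ^ 3 = t ^ 6 := by ring
  rw [e1, e2]
  exact h

theorem psiUp_mono {x y : ℝ} (hx : 0 ≤ x) (hxy : x ≤ y) (hy : y < 1) : psiUp x ≤ psiUp y := by
  unfold psiUp
  have h1 : 0 < 1 - y := by linarith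
  have hy0 : 0 ≤ y := le_trans hx hxy
  have h2 : x ^ 3 / (15 * (1 - x)) ≤ y ^ 3 / (15 * (1 - y)) := by
    apply div_le_div₀ (by positivity) (by gcongr) (by positivity)
    linarith
  have h3 : x ^ 2 ≤ y ^ 2 := by gcongr
  linarith

/-- lower bound for `hh (2 s / 3)`, `x = s^2` -/
noncomputable def NLo (x : ℝ) : ℝ := 2 * 0.6931471803 - psiUp (4 / 9 * x)

/-- upper bound for `hh (2/3)` -/
noncomputable def HUp : ℝ := 2 * 0.6931471808 - psiPart 8 (4 / 9)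

theorem hh_two_thirds_le : hh (2 / 3) ≤ HUp := by
  have h := psiPart_le (t := 2 / 3) (by rw [abs_of_pos (by norm_num)]; norm_num) 8
  have e : ((2 : ℝ) / 3) ^ 2 = 4 / 9 := by norm_num
  rw [e] at h
  unfold hh HUp
  rw [psi2_one]
  have := Real.log_two_lt_d9
  linarith

theorem NLo_le {s : ℝ} (hs0 : 0 < s) (hs1 : s < 1) : NLo (s ^ 2) ≤ hh (2 / 3 * s) := by
  have h2 : |2 / 3 * s| < 1 := by
    rw [abs_of_pos (by positivity)]
    linarith
  have h := psi2_le_psiUp h2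
  have e : (2 / 3 * s) ^ 2 = 4 / 9 * s ^ 2 := by ring
  rw [e] at h
  unfold hh NLo
  rw [psi2_one]
  have := Real.log_two_gt_d9
  linarith

theorem NLo_anti {x y : ℝ} (hx : 0 ≤ x) (hxy : x ≤ y) (hy : y ≤ 1) : NLo y ≤ NLo x := by
  unfold NLo
  have := psiUp_mono (x := 4 / 9 * x) (y := 4 / 9 * y) (by positivity) (by linarith) (by linarith)
  linarith

/-- the numerical check on the grid -/
theorem qf_grid (k : ℕ) (hk : k < 71) :
    9 * HUp ^ 2 ≤ 10 * (PhiLo ((k : ℝ) / 100) * NLo (((k : ℝ) + 1) / 100)) := by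
  unfold HUp PhiLo NLo psiUp psiPart
  simp only [Finset.sum_range_succ, Finset.sum_range_zero]
  interval_cases k <;> norm_num

theorem NLo_nonneg {x : ℝ} (hx0 : 0 ≤ x) (hx : x ≤ 1) : 0 ≤ NLo x := by
  have h := NLo_anti hx0 hx (le_refl 1)
  have h1 : 0 ≤ NLo 1 := by
    unfold NLo psiUp
    norm_num
  linarith

/-- the inequality on one interval of the grid -/
theorem qf_interval {x1 x2 s : ℝ} (h0 : 0 ≤ x1) (h2 : x2 ≤ 1)
    (hnum : 9 * HUp ^ 2 ≤ 10 * (PhiLo x1 * NLo x2)) (hs0 : 0 < s) (hs1 : s < 1)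
    (hx1 : x1 ≤ s ^ 2) (hx2 : s ^ 2 ≤ x2) :
    9 * ((hh (2 / 3)) ^ 2 * s ^ 2) ≤ 10 * ((hh (2 / 3 * s) - hh s) * hh (2 / 3 * s)) := by
  have hx0 : 0 ≤ s ^ 2 := by positivity
  have a1 : 0 ≤ hh (2 / 3) := hh_nonneg (by rw [abs_of_pos (by norm_num)]; norm_num)
  have a2 : (hh (2 / 3)) ^ 2 ≤ HUp ^ 2 := by
    have := hh_two_thirds_le
    gcongr
  have a3 : hh (2 / 3 * s) - hh s = psi2 s - psi2 (2 / 3 * s) := by
    unfold hh
    ring
  have a4 : s ^ 2 * PhiLo x1 ≤ psi2 s - psi2 (2 / 3 * s) := by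
    refine le_trans ?_ (PhiLo_le hs0 hs1)
    exact mul_le_mul_of_nonneg_left (PhiLo_mono h0 hx1) hx0
  have a5 : NLo x2 ≤ hh (2 / 3 * s) := le_trans (NLo_anti hx0 hx2 h2) (NLo_le hs0 hs1)
  have a6 : 0 ≤ NLo x2 := NLo_nonneg (le_trans hx0 hx2) h2
  have a7 : 0 ≤ s ^ 2 * PhiLo x1 := mul_nonneg hx0 (PhiLo_nonneg h0)
  rw [a3]
  have a8 : s ^ 2 * PhiLo x1 * NLo x2 ≤ (psi2 s - psi2 (2 / 3 * s)) * hh (2 / 3 * s) :=
    mul_le_mul a4 a5 a6 (le_trans a7 a4)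
  have a9 : 9 * ((hh (2 / 3)) ^ 2 * s ^ 2) ≤ 9 * HUp ^ 2 * s ^ 2 := by nlinarith
  have a10 : 9 * HUp ^ 2 * s ^ 2 ≤ 10 * (PhiLo x1 * NLo x2) * s ^ 2 :=
    mul_le_mul_of_nonneg_right hnum hx0
  nlinarith

/-- for `s^2 ≥ 7/10` the side condition fails -/
theorem side_fails {s : ℝ} (hs0 : 0 < s) (hs1 : s < 1) (hx : 7 / 10 ≤ s ^ 2) :
    25 * hh s < 16 * hh (2 / 3 * s) := by
  have h1 : |s| < 1 := by rw [abs_of_pos hs0]; exact hs1
  have b1 : psiPart 10 (7 / 10) ≤ psi2 s :=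
    le_trans (psiPart_mono (by norm_num) hx 10) (psiPart_le h1 10)
  have b2 : psi2 (2 / 3 * s) ≤ psi2 (2 / 3) := psi2_mono (by positivity) (by linarith) (by norm_num)
  have b3 : psi2 (2 / 3) ≤ psiUp (4 / 9) := by
    have := psi2_le_psiUp (t := 2 / 3) (by rw [abs_of_pos (by norm_num)]; norm_num)
    have e : ((2 : ℝ) / 3) ^ 2 = 4 / 9 := by norm_num
    rwa [e] at this
  have l1 := Real.log_two_gt_d9
  have l2 := Real.log_two_lt_d9
  have b4 : 25 * (2 * 0.6931471808 - psiPart 10 (7 / 10)) < 16 * (2 * 0.6931471803 - psiUp (4 / 9)) := by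
    unfold psiPart psiUp
    simp only [Finset.sum_range_succ, Finset.sum_range_zero]
    norm_num
  unfold hh
  rw [psi2_one]
  linarith

theorem qfs_two_thirds : QFS (2 / 3) := by
  intro s hs0 hs1 hside
  by_cases hx : 7 / 10 ≤ s ^ 2
  · exact absurd hside (not_le.mpr (side_fails hs0 hs1 hx))
  · have hx' : s ^ 2 < 7 / 10 := not_le.mp hx
    have hx0 : 0 ≤ s ^ 2 := by positivity
    set k := ⌊100 * s ^ 2⌋₊ with hk
    have k1 : (k : ℝ) ≤ 100 * s ^ 2 := Nat.floor_le (by positivity)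
    have k2 : 100 * s ^ 2 < (k : ℝ) + 1 := Nat.lt_floor_add_one _
    have k3 : k < 71 := by
      have : (k : ℝ) < 71 := by linarith
      exact_mod_cast this
    have k4 : (k : ℝ) < 71 := by exact_mod_cast k3
    exact qf_interval (x1 := (k : ℝ) / 100) (x2 := ((k : ℝ) + 1) / 100) (by positivity)
      (by linarith) (qf_grid k k3) hs0 hs1 (by linarith) (by linarith)

end Vale.Agent.P322
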