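import Vale.Agent.P322.QLDefs

/-!
Numerical bounds for logarithms of rationals, by comparison of powers with powers of `exp 1`
(`Real.exp_one_gt_d9 : 2.7182818283 < exp 1`, `Real.exp_one_lt_d9 : exp 1 < 2.7182818286`).
Usage: `log_ge_of_pow (y := 40/3) (k := 259) (m := 100) (by norm_num) (by norm_num) (by norm_num)`.
Sketch: `k / m ≤ log y ↔ exp (k/m) ≤ y ⇐ exp (k/m) ^ m ≤ y ^ m`, `exp (k/m) ^ m = exp k = (exp 1)^k`
(`Real.exp_nat_mul`, `Real.exp_one_pow`, `pow_le_pow_left₀`, `Real.le_log_iff_exp_le`).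
-/

namespace Vale.Agent.P322

open Real

theorem log_ge_of_pow {y : ℝ} {k m : ℕ} (hy : 0 < y) (hm : 0 < m)
    (h : (2.7182818286 : ℝ) ^ k ≤ y ^ m) : (k : ℝ) / m ≤ Real.log y := by
  have hm' : (0 : ℝ) < m := by exact_mod_cast hm
  rw [div_le_iff₀ hm']
  have h1 : Real.exp 1 ^ k ≤ y ^ m :=
    le_trans (pow_le_pow_left₀ (Real.exp_pos 1).le Real.exp_one_lt_d9.le k) h
  have h2 : Real.log (Real.exp 1 ^ k) ≤ Real.log (y ^ m) :=
    Real.log_le_log (pow_pos (Real.exp_pos 1) k) h1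
  rw [Real.log_pow, Real.log_pow, Real.log_exp] at h2
  linarith

theorem log_le_of_pow {y : ℝ} {k m : ℕ} (hy : 0 < y) (hm : 0 < m)
    (h : y ^ m ≤ (2.7182818283 : ℝ) ^ k) : Real.log y ≤ (k : ℝ) / m := by
  have hm' : (0 : ℝ) < m := by exact_mod_cast hm
  rw [le_div_iff₀ hm']
  have h1 : y ^ m ≤ Real.exp 1 ^ k :=
    le_trans h (pow_le_pow_left₀ (by norm_num) Real.exp_one_gt_d9.le k)
  have h2 : Real.log (y ^ m) ≤ Real.log (Real.exp 1 ^ k) :=
    Real.log_le_log (pow_pos hy m) h1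
  rw [Real.log_pow, Real.log_pow, Real.log_exp] at h2
  linarith

end Vale.Agent.P322
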