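import Vale.Agent.P322.QLBasic
import Vale.Agent.P322.QLNum

/-!
(B1): Tool B at `ε = 3/40` for `0 < s ≤ 17/20`.

Numbers: `l = lge (3/40) = 1 + log (40/3) ≤ 3.5904`, `l^2 ≤ 12.891`, `9/5 * 3/40 = 0.135`,
`x = 0.925 s`, `Q = dpsi x`.  Claim: `0.135 s (l^2 - Q^2) ≤ Q hh s`.
Pieces (on `[s1, s2]`: `Q ≥ Q1 := dpsi (0.925 s1)`, `hh s ≥ hh s2`, `s ≤ s2`; enough:
`0.135 s2 (12.891 - Q1^2) ≤ Q1 hh s2`):
* `0 < s ≤ 0.6`: `Q ≥ 2 x = 1.85 s` (`dpsi_ge_two_mul`), `hh s ≥ hh 0.6 ≥ 1.0008`,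
  `1.85 * 1.0008 = 1.8514 ≥ 0.135 * 12.891 = 1.7403`.
* `[0.60, 0.68]`: `Q1 = 1.251 ≤ dpsi 0.555`,   `0.879 ≤ hh 0.68`: `1.0996 ≥ 0.135*0.68*(12.891-1.251^2) = 1.0398`.
* `[0.68, 0.74]`: `Q1 = 1.479 ≤ dpsi 0.629`,   `0.772 ≤ hh 0.74`: `1.1417 ≥ 1.0693`.
* `[0.74, 0.79]`: `Q1 = 1.675 ≤ dpsi 0.6845`,  `0.671 ≤ hh 0.79`: `1.1239 ≥ 1.0757`.
* `[0.79, 0.82]`: `Q1 = 1.860 ≤ dpsi 0.73075`, `0.605 ≤ hh 0.82`: `1.1253 ≥ 1.0441`.
* `[0.82, 0.85]`: `Q1 = 1.985 ≤ dpsi 0.7585`,  `0.532 ≤ hh 0.85`: `1.0560 ≥ 1.0272`.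
(Numbers checked in floating point; more pieces may be used.)  Logs of rationals: `log_ge_of_pow`,
`log_le_of_pow` in QLNum (black boxes), `hh t = 2 log 2 - (1+t) log (1+t) - (1-t) log (1-t)`.
-/

namespace Vale.Agent.P322

open Real

theorem hh_eq_logs (t : ℝ) : hh t = 2 * Real.log 2 - (1 + t) * Real.log (1 + t)
    - (1 - t) * Real.log (1 - t) := by
  unfold hh psi2
  norm_num
  ring

theorem dpsi_eq_log {x : ℝ} (h1 : 0 < 1 + x) (h2 : 0 < 1 - x) :
    dpsi x = Real.log ((1 + x) / (1 - x)) := by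
  unfold dpsi
  rw [Real.log_div h1.ne' h2.ne']

theorem hh_lower_num {t a b c u v : ℝ} (hu : 1 + t = u) (hv : 1 - t = v⁻¹) (hu0 : 0 ≤ u)
    (hv0 : 0 < v) (ha : a ≤ Real.log 2) (hb : Real.log u ≤ b) (hc : c ≤ Real.log v) :
    2 * a - u * b + v⁻¹ * c ≤ hh t := by
  rw [hh_eq_logs, hu, hv, Real.log_inv]
  have h1 : u * Real.log u ≤ u * b := mul_le_mul_of_nonneg_left hb hu0
  have h2 : v⁻¹ * c ≤ v⁻¹ * Real.log v := mul_le_mul_of_nonneg_left hc (inv_nonneg.mpr hv0.le)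
  linarith

theorem log_two_ge : (9 : ℝ) / 13 ≤ Real.log 2 := by
  have h := log_ge_of_pow (y := 2) (k := 9) (m := 13) (by norm_num) (by norm_num) (by norm_num)
  norm_num at h
  exact h

theorem lge_sq_le : (lge (3 / 40)) ^ 2 ≤ 324 / 25 := by
  have h := log_le_of_pow (y := 40 / 3) (k := 13) (m := 5) (by norm_num) (by norm_num)
    (by norm_num)
  norm_num at h
  have h0 : 0 ≤ Real.log (40 / 3) := Real.log_nonneg (by norm_num)
  have e : lge (3 / 40) = 1 + Real.log (40 / 3) := by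
    unfold lge
    have : (3 : ℝ) / 40 = (40 / 3)⁻¹ := by norm_num
    rw [this, Real.log_inv]
    ring
  rw [e]
  nlinarith

/-- one piece -/
theorem toolB_piece {ε s s1 s2 Q1 y2 L2 : ℝ} (hε : 0 < ε) (hε1 : ε < 1) (hs1 : 0 < s1) (h1 : s1 ≤ s)
    (h2 : s ≤ s2) (h3 : s2 < 1) (hQ0 : 0 ≤ Q1) (hQ1 : Q1 ≤ dpsi (s1 * (1 - ε))) (hy0 : 0 ≤ y2)
    (hy2 : y2 ≤ hh s2) (hL : (lge ε) ^ 2 ≤ L2) (hL2 : Q1 ^ 2 ≤ L2)
    (hnum : 9 / 5 * ε * s2 * (L2 - Q1 ^ 2) ≤ Q1 * y2) : ToolB ε s := by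
  unfold ToolB
  have he : 0 < 1 - ε := by linarith
  have hs : 0 < s := lt_of_lt_of_le hs1 h1
  have hx1 : 0 ≤ s1 * (1 - ε) := (mul_pos hs1 he).le
  have hx2 : s1 * (1 - ε) ≤ s * (1 - ε) := mul_le_mul_of_nonneg_right h1 he.le
  have hx3 : s * (1 - ε) < 1 := by nlinarith
  have hQ : Q1 ≤ dpsi (s * (1 - ε)) := le_trans hQ1 (dpsi_mono hx1 hx2 hx3)
  have hy : y2 ≤ hh s := le_trans hy2 (hh_anti hs.le h2 h3.le)
  generalize dpsi (s * (1 - ε)) = Q at hQ ⊢
  generalize hh s = y at hy ⊢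
  generalize (lge ε) ^ 2 = l at hL ⊢
  have hQQ : Q1 ^ 2 ≤ Q ^ 2 := pow_le_pow_left₀ hQ0 hQ 2
  have hc : 0 ≤ 9 / 5 * ε * s := by positivity
  have a1 : 9 / 5 * ε * s * (l - Q ^ 2) ≤ 9 / 5 * ε * s * (L2 - Q1 ^ 2) :=
    mul_le_mul_of_nonneg_left (by linarith) hc
  have a2 : 9 / 5 * ε * s * (L2 - Q1 ^ 2) ≤ 9 / 5 * ε * s2 * (L2 - Q1 ^ 2) := by
    apply mul_le_mul_of_nonneg_right _ (by linarith)
    apply mul_le_mul_of_nonneg_left h2 (by positivity)
  have a3 : Q1 * y2 ≤ Q * y := mul_le_mul hQ hy hy0 (le_trans hQ0 hQ)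
  linarith

theorem toolB1_small {s : ℝ} (h0 : 0 < s) (h1 : s ≤ 3 / 5) : ToolB (3 / 40) s := by
  unfold ToolB
  have hx0 : 0 ≤ s * (1 - 3 / 40) := by nlinarith
  have hx1 : s * (1 - 3 / 40) < 1 := by nlinarith
  have hQ : 2 * (s * (1 - 3 / 40)) ≤ dpsi (s * (1 - 3 / 40)) := dpsi_ge_two_mul hx0 hx1
  have hb := log_le_of_pow (y := 8 / 5) (k := 8) (m := 17) (by norm_num) (by norm_num)
    (by norm_num)
  have hc := log_ge_of_pow (y := 5 / 2) (k := 9) (m := 10) (by norm_num) (by norm_num)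
    (by norm_num)
  norm_num at hb hc
  have hy0 := hh_lower_num (t := 3 / 5) (u := 8 / 5) (v := 5 / 2) (by norm_num) (by norm_num)
    (by norm_num) (by norm_num) log_two_ge hb hc
  have hy : (99 : ℝ) / 100 ≤ hh s := by
    have := hh_anti h0.le h1 (by norm_num)
    norm_num at hy0
    linarith
  have hL := lge_sq_le
  generalize dpsi (s * (1 - 3 / 40)) = Q at hQ ⊢
  generalize hh s = y at hy ⊢
  generalize (lge (3 / 40)) ^ 2 = l at hL ⊢
  have hQ0 : 0 ≤ 2 * (s * (1 - 3 / 40)) := by linarith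
  have a3 : 2 * (s * (1 - 3 / 40)) * (99 / 100) ≤ Q * y :=
    mul_le_mul hQ hy (by norm_num) (le_trans hQ0 hQ)
  have a1 : 9 / 5 * (3 / 40) * s * (l - Q ^ 2) ≤ 9 / 5 * (3 / 40) * s * (324 / 25) :=
    mul_le_mul_of_nonneg_left (by nlinarith [sq_nonneg Q]) (by positivity)
  nlinarith

theorem toolB1_p1 {s : ℝ} (h1 : 3 / 5 ≤ s) (h2 : s ≤ 69 / 100) : ToolB (3 / 40) s := by
  have hq := log_ge_of_pow (y := 311 / 89) (k := 5) (m := 4) (by norm_num) (by norm_num)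
    (by norm_num)
  have hb := log_le_of_pow (y := 169 / 100) (k := 10) (m := 19) (by norm_num) (by norm_num)
    (by norm_num)
  have hc := log_ge_of_pow (y := 100 / 31) (k := 7) (m := 6) (by norm_num) (by norm_num)
    (by norm_num)
  norm_num at hq hb hc
  have hy0 := hh_lower_num (t := 69 / 100) (u := 169 / 100) (v := 100 / 31) (by norm_num) (by norm_num)
    (by norm_num) (by norm_num) log_two_ge hb hc
  have hQ : (5 / 4 : ℝ) ≤ dpsi (3 / 5 * (1 - 3 / 40)) := by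
    rw [dpsi_eq_log (by norm_num) (by norm_num)]
    norm_num
    exact hq
  have hy : (107 / 125 : ℝ) ≤ hh (69 / 100) := by
    norm_num at hy0
    linarith
  exact toolB_piece (s1 := 3 / 5) (s2 := 69 / 100) (Q1 := 5 / 4) (y2 := 107 / 125) (L2 := 324 / 25)
    (by norm_num) (by norm_num) (by norm_num) h1 h2 (by norm_num) (by norm_num) hQ (by norm_num) hy
    lge_sq_le (by norm_num) (by norm_num)

theorem toolB1_p2 {s : ℝ} (h1 : 69 / 100 ≤ s) (h2 : s ≤ 3 / 4) : ToolB (3 / 40) s := by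
  have hq := log_ge_of_pow (y := 6553 / 1447) (k := 3) (m := 2) (by norm_num) (by norm_num)
    (by norm_num)
  have hb := log_le_of_pow (y := 7 / 4) (k := 14) (m := 25) (by norm_num) (by norm_num)
    (by norm_num)
  have hc := log_ge_of_pow (y := 4) (k := 18) (m := 13) (by norm_num) (by norm_num)
    (by norm_num)
  norm_num at hq hb hc
  have hy0 := hh_lower_num (t := 3 / 4) (u := 7 / 4) (v := 4) (by norm_num) (by norm_num)
    (by norm_num) (by norm_num) log_two_ge hb hc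
  have hQ : (3 / 2 : ℝ) ≤ dpsi (69 / 100 * (1 - 3 / 40)) := by
    rw [dpsi_eq_log (by norm_num) (by norm_num)]
    norm_num
    exact hq
  have hy : (3 / 4 : ℝ) ≤ hh (3 / 4) := by
    norm_num at hy0
    linarith
  exact toolB_piece (s1 := 69 / 100) (s2 := 3 / 4) (Q1 := 3 / 2) (y2 := 3 / 4) (L2 := 324 / 25)
    (by norm_num) (by norm_num) (by norm_num) h1 h2 (by norm_num) (by norm_num) hQ (by norm_num) hy
    lge_sq_le (by norm_num) (by norm_num)

theorem toolB1_p3 {s : ℝ} (h1 : 3 / 4 ≤ s) (h2 : s ≤ 4 / 5) : ToolB (3 / 40) s := by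
  have hq := log_ge_of_pow (y := 271 / 49) (k := 41) (m := 24) (by norm_num) (by norm_num)
    (by norm_num)
  have hb := log_le_of_pow (y := 9 / 5) (k := 10) (m := 17) (by norm_num) (by norm_num)
    (by norm_num)
  have hc := log_ge_of_pow (y := 5) (k := 37) (m := 23) (by norm_num) (by norm_num)
    (by norm_num)
  norm_num at hq hb hc
  have hy0 := hh_lower_num (t := 4 / 5) (u := 9 / 5) (v := 5) (by norm_num) (by norm_num)
    (by norm_num) (by norm_num) log_two_ge hb hc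
  have hQ : (41 / 24 : ℝ) ≤ dpsi (3 / 4 * (1 - 3 / 40)) := by
    rw [dpsi_eq_log (by norm_num) (by norm_num)]
    norm_num
    exact hq
  have hy : (647 / 1000 : ℝ) ≤ hh (4 / 5) := by
    norm_num at hy0
    linarith
  exact toolB_piece (s1 := 3 / 4) (s2 := 4 / 5) (Q1 := 41 / 24) (y2 := 647 / 1000) (L2 := 324 / 25)
    (by norm_num) (by norm_num) (by norm_num) h1 h2 (by norm_num) (by norm_num) hQ (by norm_num) hy
    lge_sq_le (by norm_num) (by norm_num)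

theorem toolB1_p4 {s : ℝ} (h1 : 4 / 5 ≤ s) (h2 : s ≤ 83 / 100) : ToolB (3 / 40) s := by
  have hq := log_ge_of_pow (y := 87 / 13) (k := 19) (m := 10) (by norm_num) (by norm_num)
    (by norm_num)
  have hb := log_le_of_pow (y := 183 / 100) (k := 17) (m := 28) (by norm_num) (by norm_num)
    (by norm_num)
  have hc := log_ge_of_pow (y := 100 / 17) (k := 23) (m := 13) (by norm_num) (by norm_num)
    (by norm_num)
  norm_num at hq hb hc
  have hy0 := hh_lower_num (t := 83 / 100) (u := 183 / 100) (v := 100 / 17) (by norm_num) (by norm_num)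
    (by norm_num) (by norm_num) log_two_ge hb hc
  have hQ : (19 / 10 : ℝ) ≤ dpsi (4 / 5 * (1 - 3 / 40)) := by
    rw [dpsi_eq_log (by norm_num) (by norm_num)]
    norm_num
    exact hq
  have hy : (287 / 500 : ℝ) ≤ hh (83 / 100) := by
    norm_num at hy0
    linarith
  exact toolB_piece (s1 := 4 / 5) (s2 := 83 / 100) (Q1 := 19 / 10) (y2 := 287 / 500) (L2 := 324 / 25)
    (by norm_num) (by norm_num) (by norm_num) h1 h2 (by norm_num) (by norm_num) hQ (by norm_num) hy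
    lge_sq_le (by norm_num) (by norm_num)

theorem toolB1_p5 {s : ℝ} (h1 : 83 / 100 ≤ s) (h2 : s ≤ 17 / 20) : ToolB (3 / 40) s := by
  have hq := log_ge_of_pow (y := 7071 / 929) (k := 2) (m := 1) (by norm_num) (by norm_num)
    (by norm_num)
  have hb := log_le_of_pow (y := 37 / 20) (k := 8) (m := 13) (by norm_num) (by norm_num)
    (by norm_num)
  have hc := log_ge_of_pow (y := 20 / 3) (k := 55) (m := 29) (by norm_num) (by norm_num)
    (by norm_num)
  norm_num at hq hb hc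
  have hy0 := hh_lower_num (t := 17 / 20) (u := 37 / 20) (v := 20 / 3) (by norm_num) (by norm_num)
    (by norm_num) (by norm_num) log_two_ge hb hc
  have hQ : (2 : ℝ) ≤ dpsi (83 / 100 * (1 - 3 / 40)) := by
    rw [dpsi_eq_log (by norm_num) (by norm_num)]
    norm_num
    exact hq
  have hy : (53 / 100 : ℝ) ≤ hh (17 / 20) := by
    norm_num at hy0
    linarith
  exact toolB_piece (s1 := 83 / 100) (s2 := 17 / 20) (Q1 := 2) (y2 := 53 / 100) (L2 := 324 / 25)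
    (by norm_num) (by norm_num) (by norm_num) h1 h2 (by norm_num) (by norm_num) hQ (by norm_num) hy
    lge_sq_le (by norm_num) (by norm_num)

theorem toolB1 {s : ℝ} (h0 : 0 < s) (h1 : s ≤ 17 / 20) : ToolB (3 / 40) s := by
  by_cases c0 : s ≤ 3 / 5
  · exact toolB1_small h0 c0
  by_cases c1 : s ≤ 69 / 100
  · exact toolB1_p1 (by linarith [not_le.mp c0]) c1
  by_cases c2 : s ≤ 3 / 4
  · exact toolB1_p2 (by linarith [not_le.mp c1]) c2
  by_cases c3 : s ≤ 4 / 5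
  · exact toolB1_p3 (by linarith [not_le.mp c2]) c3
  by_cases c4 : s ≤ 83 / 100
  · exact toolB1_p4 (by linarith [not_le.mp c3]) c4
  exact toolB1_p5 (by linarith [not_le.mp c4]) h1

end Vale.Agent.P322
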