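import Vale.Agent.P322.QLBasic
import Vale.Agent.P322.QLNum

/-!
(B2): Tool B at `ε = σ/2`, `s = 1 - σ`, for `0 < σ ≤ 3/20`.

Sketch.  `Λ = - log σ ≥ log (20/3) ≥ 1.897`.  `x = (1-σ)(1-σ/2)`, `1 - x = 1.5 σ (1 - σ/3)`,
`1 + x = 2 - 1.5 σ + 0.5 σ^2`, `Q = dpsi x = Λ + κ`, `κ = log ((2 - 1.5σ + 0.5σ^2)/(1.5 (1 - σ/3)))`,
`(2 - 1.5σ + 0.5σ^2)/(1.5(1-σ/3)) ∈ [1.2535, 4/3]` for `σ ≤ 0.15`, so `0.2259 ≤ κ ≤ 0.2877`.
`l = lge (σ/2) = 1 + log 2 + Λ`, `hh (1-σ) ≥ σ (Λ + log 4)` (`hh_ge_sig`).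
Claim `⇐ (Λ+κ)(Λ + log 4) ≥ 0.9 (1-σ)(l - Q)(l + Q)`, `l - Q = 1 + log 2 - κ ≤ 1.4673`,
`l + Q = 2Λ + 1 + log 2 + κ ≤ 2Λ + 1.981`.
With `κ ≥ 0.2259`, `log 4 ≥ 1.3862`: LHS `≥ Λ^2 + 1.6121 Λ + 0.3131`;
RHS `≤ 1.3206 (1-σ) (2Λ + 1.981)`.
Case `Λ ≥ 2.15`: `(1-σ) ≤ 1`: `Λ^2 - 1.0291 Λ - 2.303 ≥ 0` holds for `Λ ≥ 2.12`.
Case `Λ ≤ 2.15`: `σ = exp (-Λ) ≥ exp (-2.15) ≥ 0.1164`, `(1-σ) ≤ 0.8836`:
`Λ^2 + 1.6121Λ + 0.3131 - 1.1669 (2Λ + 1.981) = Λ^2 - 0.7217 Λ - 1.9985 ≥ 0` for `Λ ≥ 1.82`.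
(All numbers to be re-checked.)
-/

namespace Vale.Agent.P322

open Real

/-- the purely algebraic core -/
private theorem toolB2_core {σ Λ κ t u : ℝ} (_h0 : 0 < σ) (hu : 1 - σ ≤ u) (hσ1 : σ ≤ 1)
    (hκ0 : 11 / 50 ≤ κ) (hκ1 : κ ≤ 29 / 100) (ht0 : 693 / 1000 ≤ t) (ht1 : t ≤ 6932 / 10000)
    (hΛ : 0 ≤ Λ)
    (hq : 9 / 10 * u * (14732 / 10000 * (2 * Λ + 19832 / 10000))
      ≤ (Λ + 11 / 50) * (Λ + 1386 / 1000)) :
    9 / 10 * (1 - σ) * ((1 + t + Λ) ^ 2 - (Λ + κ) ^ 2) ≤ (Λ + κ) * (2 * t + Λ) := by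
  have e1 : (1 + t + Λ) ^ 2 - (Λ + κ) ^ 2 = (1 + t - κ) * (2 * Λ + 1 + t + κ) := by ring
  have a1 : 0 ≤ 1 + t - κ := by linarith
  have a2 : 1 + t - κ ≤ 14732 / 10000 := by linarith
  have b1 : 0 ≤ 2 * Λ + 1 + t + κ := by linarith
  have b2 : 2 * Λ + 1 + t + κ ≤ 2 * Λ + 19832 / 10000 := by linarith
  have c1 : (1 + t - κ) * (2 * Λ + 1 + t + κ) ≤ 14732 / 10000 * (2 * Λ + 19832 / 10000) :=
    mul_le_mul a2 b2 b1 (by norm_num)
  have c0 : 0 ≤ (1 + t - κ) * (2 * Λ + 1 + t + κ) := mul_nonneg a1 b1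
  have s0 : 0 ≤ 1 - σ := by linarith
  have d1 : (1 - σ) * ((1 + t - κ) * (2 * Λ + 1 + t + κ))
      ≤ u * (14732 / 10000 * (2 * Λ + 19832 / 10000)) :=
    mul_le_mul hu c1 c0 (le_trans s0 hu)
  have r1 : (Λ + 11 / 50) * (Λ + 1386 / 1000) ≤ (Λ + κ) * (2 * t + Λ) :=
    mul_le_mul (by linarith) (by linarith) (by linarith) (by linarith)
  rw [e1]
  calc 9 / 10 * (1 - σ) * ((1 + t - κ) * (2 * Λ + 1 + t + κ))
      = 9 / 10 * ((1 - σ) * ((1 + t - κ) * (2 * Λ + 1 + t + κ))) := by ring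
    _ ≤ 9 / 10 * (u * (14732 / 10000 * (2 * Λ + 19832 / 10000))) := by linarith
    _ = 9 / 10 * u * (14732 / 10000 * (2 * Λ + 19832 / 10000)) := by ring
    _ ≤ (Λ + 11 / 50) * (Λ + 1386 / 1000) := hq
    _ ≤ (Λ + κ) * (2 * t + Λ) := r1

theorem toolB2 {σ : ℝ} (h0 : 0 < σ) (h1 : σ ≤ 3 / 20) : ToolB (σ / 2) (1 - σ) := by
  have hnum : 0 < 2 - 3 / 2 * σ + σ ^ 2 / 2 := by nlinarith
  have hden : 0 < 3 / 2 - σ / 2 := by linarith
  set Λ : ℝ := -Real.log σ with hΛdef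
  set t : ℝ := Real.log 2 with htdef
  set κ : ℝ := Real.log ((2 - 3 / 2 * σ + σ ^ 2 / 2) / (3 / 2 - σ / 2)) with hκdef
  have ht0 : 693 / 1000 ≤ t := by
    have := Real.log_two_gt_d9
    rw [htdef]; linarith
  have ht1 : t ≤ 6932 / 10000 := by
    have := Real.log_two_lt_d9
    rw [htdef]; linarith
  -- bounds for kappa
  have hκ0 : 11 / 50 ≤ κ := by
    have hl : ((11 : ℕ) : ℝ) / (50 : ℕ) ≤ Real.log (5 / 4) :=
      log_ge_of_pow (y := 5 / 4) (k := 11) (m := 50) (by norm_num) (by norm_num) (by norm_num)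
    have hr : (5 / 4 : ℝ) ≤ (2 - 3 / 2 * σ + σ ^ 2 / 2) / (3 / 2 - σ / 2) := by
      rw [le_div_iff₀ hden]
      nlinarith
    have := Real.log_le_log (by norm_num) hr
    rw [hκdef]
    norm_num at hl
    linarith
  have hκ1 : κ ≤ 29 / 100 := by
    have hl : Real.log (4 / 3) ≤ ((29 : ℕ) : ℝ) / (100 : ℕ) :=
      log_le_of_pow (y := 4 / 3) (k := 29) (m := 100) (by norm_num) (by norm_num) (by norm_num)
    have hr : (2 - 3 / 2 * σ + σ ^ 2 / 2) / (3 / 2 - σ / 2) ≤ (4 / 3 : ℝ) := by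
      rw [div_le_iff₀ hden]
      nlinarith
    have := Real.log_le_log (div_pos hnum hden) hr
    rw [hκdef]
    norm_num at hl
    linarith
  -- the three quantities
  have hl : lge (σ / 2) = 1 + t + Λ := by
    unfold lge
    rw [Real.log_div h0.ne' (by norm_num)]
    ring
  have hQ : dpsi ((1 - σ) * (1 - σ / 2)) = Λ + κ := by
    unfold dpsi
    have e1 : 1 + (1 - σ) * (1 - σ / 2) = 2 - 3 / 2 * σ + σ ^ 2 / 2 := by ring
    have e2 : 1 - (1 - σ) * (1 - σ / 2) = σ * (3 / 2 - σ / 2) := by ring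
    rw [e1, e2, Real.log_mul h0.ne' hden.ne', hκdef, Real.log_div hnum.ne' hden.ne']
    ring
  have hH : σ * (2 * t + Λ) ≤ hh (1 - σ) := by
    have := hh_ge_sig h0 (by linarith : σ ≤ 1)
    rw [Real.log_div (by norm_num) h0.ne'] at this
    have h4 : Real.log 4 = 2 * t := by
      rw [htdef, show (4 : ℝ) = 2 ^ 2 by norm_num, Real.log_pow]
      norm_num
    rw [h4] at this
    linarith
  -- lower bounds for Lambda
  have hΛ1 : 15 / 8 ≤ Λ := by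
    have hl : ((15 : ℕ) : ℝ) / (8 : ℕ) ≤ Real.log (20 / 3) :=
      log_ge_of_pow (y := 20 / 3) (k := 15) (m := 8) (by norm_num) (by norm_num) (by norm_num)
    have hr : (20 / 3 : ℝ) ≤ 1 / σ := by
      rw [le_div_iff₀ h0]
      linarith
    have := Real.log_le_log (by norm_num) hr
    rw [one_div, Real.log_inv] at this
    norm_num at hl
    rw [hΛdef]
    linarith
  have hcore : 9 / 10 * (1 - σ) * ((1 + t + Λ) ^ 2 - (Λ + κ) ^ 2) ≤ (Λ + κ) * (2 * t + Λ) := by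
    by_cases hc : σ ≤ 23 / 200
    · have hΛ2 : 43 / 20 ≤ Λ := by
        have hl : ((43 : ℕ) : ℝ) / (20 : ℕ) ≤ Real.log (200 / 23) :=
          log_ge_of_pow (y := 200 / 23) (k := 43) (m := 20) (by norm_num) (by norm_num)
            (by norm_num)
        have hr : (200 / 23 : ℝ) ≤ 1 / σ := by
          rw [le_div_iff₀ h0]
          linarith
        have := Real.log_le_log (by norm_num) hr
        rw [one_div, Real.log_inv] at this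
        norm_num at hl
        rw [hΛdef]
        linarith
      refine toolB2_core (u := 1) h0 (by linarith) (by linarith) hκ0 hκ1 ht0 ht1 (by linarith) ?_
      nlinarith
    · have hc' : 23 / 200 < σ := not_le.mp hc
      refine toolB2_core (u := 177 / 200) h0 (by linarith) (by linarith) hκ0 hκ1 ht0 ht1
        (by linarith) ?_
      nlinarith
  unfold ToolB
  rw [hl, hQ]
  have hQ0 : 0 ≤ Λ + κ := by linarith
  calc 9 / 5 * (σ / 2) * (1 - σ) * ((1 + t + Λ) ^ 2 - (Λ + κ) ^ 2)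
      = σ * (9 / 10 * (1 - σ) * ((1 + t + Λ) ^ 2 - (Λ + κ) ^ 2)) := by ring
    _ ≤ σ * ((Λ + κ) * (2 * t + Λ)) := mul_le_mul_of_nonneg_left hcore h0.le
    _ = (Λ + κ) * (σ * (2 * t + Λ)) := by ring
    _ ≤ (Λ + κ) * hh (1 - σ) := mul_le_mul_of_nonneg_left hH hQ0

end Vale.Agent.P322
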