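import Vale.Agent.P322.QLDefs

/-!
Basic analytic facts: (L1), (L2), monotonicity of `dpsi`, a lower bound for `hh` near `1`.
-/

namespace Vale.Agent.P322

open Real

theorem dpsi_zero : dpsi 0 = 0 := by simp [dpsi]

/-- `dpsi` is increasing on `[0,1)` (log is monotone). -/
theorem dpsi_mono {x y : ℝ} (hx : 0 ≤ x) (hxy : x ≤ y) (hy : y < 1) : dpsi x ≤ dpsi y := by
  unfold dpsi
  have h1 : Real.log (1 + x) ≤ Real.log (1 + y) := Real.log_le_log (by linarith) (by linarith)
  have h2 : Real.log (1 - y) ≤ Real.log (1 - x) := Real.log_le_log (by linarith) (by linarith)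
  linarith

theorem dpsi_nonneg {x : ℝ} (hx : 0 ≤ x) (hx1 : x < 1) : 0 ≤ dpsi x := by
  have := dpsi_mono (le_refl 0) hx hx1
  rwa [dpsi_zero] at this

/-- `dpsi x ≥ 2 x` on `[0,1)`.  (`log (1+x) - log (1-x) - 2x` has derivative
`2/(1-x^2) - 2 ≥ 0`; or `log (1+x) ≥ 2x/(2+x)`-type bounds; or the series.) -/
theorem dpsi_ge_two_mul {x : ℝ} (hx : 0 ≤ x) (hx1 : x < 1) : 2 * x ≤ dpsi x := by
  unfold dpsi
  have hab : |x| < 1 := by rw [abs_of_nonneg hx]; exact hx1
  have h := Real.hasSum_log_sub_log_of_abs_lt_one hab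
  have h0 := le_hasSum h 0 (fun j _ => by positivity)
  simpa using h0

/-- midpoint convexity of `dpsi` around `c ≥ 0`:
`dpsi (c+t) + dpsi (c-t) - 2 dpsi c = log (1 - t^2/(1+c)^2) - log (1 - t^2/(1-c)^2) ≥ 0`. -/
theorem dpsi_midpoint {c t : ℝ} (hc : 0 ≤ c) (ht : 0 ≤ t) (h1 : t ≤ c) (h2 : c + t < 1) :
    2 * dpsi c ≤ dpsi (c + t) + dpsi (c - t) := by
  unfold dpsi
  have p1 : 0 < 1 + (c + t) := by linarith
  have p2 : 0 < 1 + (c - t) := by linarith
  have p3 : 0 < 1 - (c + t) := by linarith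
  have p4 : 0 < 1 - (c - t) := by linarith
  have p5 : 0 < 1 + c := by linarith
  have p6 : 0 < 1 - c := by linarith
  have e1 : Real.log (1 + (c + t)) + Real.log (1 + (c - t)) + (Real.log (1 - c) + Real.log (1 - c))
      = Real.log ((1 + (c + t)) * (1 + (c - t)) * ((1 - c) * (1 - c))) := by
    rw [Real.log_mul (by positivity) (by positivity), Real.log_mul p1.ne' p2.ne',
      Real.log_mul p6.ne' p6.ne']
  have e2 : Real.log (1 - (c + t)) + Real.log (1 - (c - t)) + (Real.log (1 + c) + Real.log (1 + c))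
      = Real.log ((1 - (c + t)) * (1 - (c - t)) * ((1 + c) * (1 + c))) := by
    rw [Real.log_mul (by positivity) (by positivity), Real.log_mul p3.ne' p4.ne',
      Real.log_mul p5.ne' p5.ne']
  have h : Real.log ((1 - (c + t)) * (1 - (c - t)) * ((1 + c) * (1 + c)))
      ≤ Real.log ((1 + (c + t)) * (1 + (c - t)) * ((1 - c) * (1 - c))) := by
    apply Real.log_le_log (by positivity)
    have : 0 ≤ t ^ 2 * c := by positivity
    nlinarith
  linarith

/-- derivative of `hh` on the open interval -/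
theorem hh_hasDerivAt {t : ℝ} (ht : |t| < 1) : HasDerivAt hh (-dpsi t) t := by
  obtain ⟨h1, h2⟩ := abs_lt.mp ht
  have hA : (1 + t) ≠ 0 := by linarith
  have hB : (1 - t) ≠ 0 := by linarith
  have d1 : HasDerivAt (fun t : ℝ => 1 + t) 1 t := (hasDerivAt_id t).const_add 1
  have d2 : HasDerivAt (fun t : ℝ => 1 - t) (-1) t := (hasDerivAt_id t).const_sub 1
  have l1 := d1.log hA
  have l2 := d2.log hB
  have m1 := d1.fun_mul l1
  have m2 := d2.fun_mul l2
  have h := (m1.fun_add m2).const_sub (psi2 1)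
  have e : hh = fun t : ℝ => psi2 1 - ((1 + t) * Real.log (1 + t) + (1 - t) * Real.log (1 - t)) := by
    funext x
    rfl
  rw [e]
  refine h.congr_deriv ?_
  unfold dpsi
  field_simp
  ring

/-- (L1), the midpoint rule.  Sketch: `F t = hh (c - t) - hh (c + t) - 2 t dpsi c`, `F 0 = 0`,
`F' t = dpsi (c-t) + dpsi (c+t) - 2 dpsi c ≥ 0` (`dpsi_midpoint`), with `c = (a+b)/2`,
`t = (b-a)/2` (`monotoneOn_of_deriv_nonneg` on `Icc 0 ((b-a)/2)`). -/
theorem hh_midpoint {a b : ℝ} (ha : 0 ≤ a) (hab : a ≤ b) (hb : b < 1) :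
    (b - a) * dpsi ((a + b) / 2) ≤ hh a - hh b := by
  set c : ℝ := (a + b) / 2 with hc
  set T : ℝ := (b - a) / 2 with hT
  have hc0 : 0 ≤ c := by rw [hc]; linarith
  have hT0 : 0 ≤ T := by rw [hT]; linarith
  have hcT : c + T = b := by rw [hc, hT]; ring
  have hcT' : c - T = a := by rw [hc, hT]; ring
  have hder : ∀ t ∈ Set.Icc 0 T, HasDerivAt (fun t : ℝ => hh (c - t) - hh (c + t) - 2 * t * dpsi c)
      (dpsi (c - t) + dpsi (c + t) - 2 * dpsi c) t := by
    intro t ht
    obtain ⟨ht0, ht1⟩ := ht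
    have b1 : |c - t| < 1 := by rw [abs_lt]; constructor <;> linarith
    have b2 : |c + t| < 1 := by rw [abs_lt]; constructor <;> linarith
    have d1 : HasDerivAt (fun t : ℝ => c - t) (-1) t := (hasDerivAt_id t).const_sub c
    have d2 : HasDerivAt (fun t : ℝ => c + t) 1 t := (hasDerivAt_id t).const_add c
    have e1 := (hh_hasDerivAt b1).comp t d1
    have e2 := (hh_hasDerivAt b2).comp t d2
    have e3 : HasDerivAt (fun t : ℝ => 2 * t * dpsi c) (2 * dpsi c) t := by
      have := ((hasDerivAt_id t).const_mul 2).mul_const (dpsi c)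
      simpa using this
    have h := (e1.fun_sub e2).fun_sub e3
    refine h.congr_deriv ?_
    ring
  have hmono : MonotoneOn (fun t : ℝ => hh (c - t) - hh (c + t) - 2 * t * dpsi c) (Set.Icc 0 T) := by
    refine monotoneOn_of_deriv_nonneg (convex_Icc 0 T)
      (fun t ht => (hder t ht).continuousAt.continuousWithinAt) ?_ ?_
    · intro t ht
      rw [interior_Icc] at ht
      exact (hder t (Set.Ioo_subset_Icc_self ht)).differentiableAt.differentiableWithinAt
    · intro t ht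
      rw [interior_Icc] at ht
      have ht' := Set.Ioo_subset_Icc_self ht
      rw [(hder t ht').deriv]
      have := dpsi_midpoint hc0 ht'.1 (by linarith [ht'.2]) (by linarith [ht'.2])
      linarith
  have h := hmono (Set.left_mem_Icc.mpr hT0) (Set.right_mem_Icc.mpr hT0) hT0
  simp only [sub_zero, add_zero, mul_zero, zero_mul, sub_self] at h
  rw [hcT, hcT'] at h
  have e : 2 * T = b - a := by rw [hT]; ring
  rw [e] at h
  linarith

/-- (L2).  `hh (1 - 2ε) = -2 (1-ε) log (1-ε) - 2 ε log ε` and `-(1-ε) log (1-ε) ≤ ε`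
(`Real.log_le_sub_one_of_pos` applied to `1/(1-ε)`, or `Real.one_sub_inv_le_log_of_pos`). -/
theorem hh_noise_le {ε : ℝ} (h0 : 0 < ε) (h1 : ε < 1) : hh (1 - 2 * ε) ≤ 2 * ε * lge ε := by
  have p1 : 0 < 1 - ε := by linarith
  have e1 : hh (1 - 2 * ε) = -2 * (1 - ε) * Real.log (1 - ε) - 2 * ε * Real.log ε := by
    unfold hh psi2
    have a1 : (1 : ℝ) + (1 - 2 * ε) = 2 * (1 - ε) := by ring
    have a2 : (1 : ℝ) - (1 - 2 * ε) = 2 * ε := by ring
    have a3 : (1 : ℝ) + 1 = 2 := by norm_num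
    rw [a1, a2, a3, sub_self, zero_mul, add_zero, Real.log_mul (by norm_num) p1.ne',
      Real.log_mul (by norm_num) h0.ne']
    ring
  have h2 : 1 - (1 - ε)⁻¹ ≤ Real.log (1 - ε) := Real.one_sub_inv_le_log_of_pos p1
  have h3 : -ε ≤ (1 - ε) * Real.log (1 - ε) := by
    have := mul_le_mul_of_nonneg_left h2 p1.le
    have e : (1 - ε) * (1 - (1 - ε)⁻¹) = -ε := by
      field_simp
      ring
    linarith
  rw [e1]
  unfold lge
  nlinarith

/-- lower bound for `hh` near `1`.  `hh (1-σ) = 2 log 2 - (2-σ) log (2-σ) - σ log σ` and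
`(2-σ) log (2-σ) ≤ (1-σ) * (2 log 2)` by convexity of `t log t` between `1` and `2`
(`Real.convexOn_mul_log`). -/
theorem hh_ge_sig {σ : ℝ} (h0 : 0 < σ) (h1 : σ ≤ 1) : σ * Real.log (4 / σ) ≤ hh (1 - σ) := by
  have p2 : 0 < 2 - σ := by linarith
  have e1 : hh (1 - σ) = 2 * Real.log 2 - (2 - σ) * Real.log (2 - σ) - σ * Real.log σ := by
    unfold hh psi2
    have a1 : (1 : ℝ) + (1 - σ) = 2 - σ := by ring
    have a2 : (1 : ℝ) - (1 - σ) = σ := by ring
    have a3 : (1 : ℝ) + 1 = 2 := by norm_num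
    rw [a1, a2, a3, sub_self, zero_mul, add_zero]
    ring
  have e2 : Real.log (4 / σ) = 2 * Real.log 2 - Real.log σ := by
    rw [Real.log_div (by norm_num) h0.ne']
    have : (4 : ℝ) = 2 * 2 := by norm_num
    rw [this, Real.log_mul (by norm_num) (by norm_num)]
    ring
  have hcv := Real.convexOn_mul_log.2 (show (1 : ℝ) ∈ Set.Ici 0 by simp)
    (show (2 : ℝ) ∈ Set.Ici 0 by simp) h0.le (show 0 ≤ 1 - σ by linarith) (by ring)
  simp only [smul_eq_mul, Real.log_one, mul_zero, zero_add, mul_one] at hcv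
  have a4 : σ + (1 - σ) * 2 = 2 - σ := by ring
  rw [a4] at hcv
  rw [e1, e2]
  nlinarith

/-- `hh` is decreasing on `[0,1]` (from `psi2_mono`). -/
theorem hh_anti {x y : ℝ} (hx : 0 ≤ x) (hxy : x ≤ y) (hy : y ≤ 1) : hh y ≤ hh x := by
  unfold hh
  linarith [psi2_mono hx hxy hy]

end Vale.Agent.P322
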