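import Vale.Agent.P322.SCQuart

/-!
Low noise: proof of `QFS r` for `17/20 ≤ r < 1`.  Definitions and the plan.

Notation (doubled nats): `ε = (1 - r)/2`, `lge ε = 1 - log ε`, `x = s (1 - ε)` (the midpoint of
`[r s, s]`), `Q = dpsi x = log (1+x) - log (1-x)`, `σ = 1 - s`.

* (L1) `hh (r s) - hh s ≥ 2 ε s Q`   (midpoint rule, `dpsi = - hh'` is convex on `[0,1)`).
* (L2) `hh r ≤ 2 ε lge ε`.
* Tool A: `81 (lge ε)^2 ≤ 250 Q^2`; with the side condition of `QFS` it gives the claim.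
* Tool B: `9/5 ε s ((lge ε)^2 - Q^2) ≤ Q hh s`; it gives the claim without the side condition.
* `σ ≤ 2 ε`: Tool A holds.  `σ ≥ 2 ε`: Tool B holds; for fixed `s` Tool B gets harder when `ε` grows,
  so only `ε = min (3/40) (σ/2)` matters: two one-variable inequalities (B1), (B2).
-/

namespace Vale.Agent.P322

open Real

/-- `lge ε = 1 + log (1/ε)` -/
noncomputable def lge (ε : ℝ) : ℝ := 1 - Real.log ε

/-- Tool A at `(ε, s)` -/
def ToolA (ε s : ℝ) : Prop := 81 * (lge ε) ^ 2 ≤ 250 * (dpsi (s * (1 - ε))) ^ 2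

/-- Tool B at `(ε, s)` -/
def ToolB (ε s : ℝ) : Prop :=
  9 / 5 * ε * s * ((lge ε) ^ 2 - (dpsi (s * (1 - ε))) ^ 2) ≤ dpsi (s * (1 - ε)) * hh s

end Vale.Agent.P322
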