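import Vale.Agent.P322.QLBasic
import Vale.Agent.P322.QLNum

/-!
For fixed `s`, Tool B at a larger noise implies Tool B at a smaller noise.
-/

namespace Vale.Agent.P322

open Real

/-- (M).  Sketch: `t = lge ε - lge ε' = log (ε'/ε) ≥ 0`, `ε = ε' exp (-t)`, `W = (lge ε')^2 - K`,
`W ≥ 2 lge ε' ≥ 2`; `exp t ≥ 1 + t + t^2/2` (`Real.quadratic_le_exp_of_nonneg`), so
`exp t * W ≥ W + 2 (lge ε') t + t^2 = (lge ε' + t)^2 - K`. -/
theorem eps_mono {ε ε' K : ℝ} (h0 : 0 < ε) (h1 : ε ≤ ε') (h2 : ε' ≤ 1)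
    (hK : K ≤ (lge ε') ^ 2 - 2 * lge ε') :
    ε * ((lge ε) ^ 2 - K) ≤ ε' * ((lge ε') ^ 2 - K) := by
  have hε' : 0 < ε' := lt_of_lt_of_le h0 h1
  obtain ⟨t, htdef⟩ : ∃ t, t = Real.log ε' - Real.log ε := ⟨_, rfl⟩
  have ht : 0 ≤ t := by
    rw [htdef]
    have := Real.log_le_log h0 h1
    linarith
  have hexp : ε' = ε * Real.exp t := by
    rw [htdef, Real.exp_sub, Real.exp_log hε', Real.exp_log h0]
    field_simp
  have hl : lge ε = lge ε' + t := by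
    unfold lge
    rw [htdef]
    ring
  have hl1 : 1 ≤ lge ε' := by
    unfold lge
    have := Real.log_nonpos hε'.le h2
    linarith
  have hq : 1 + t + t ^ 2 / 2 ≤ Real.exp t := Real.quadratic_le_exp_of_nonneg ht
  rw [hl]
  generalize lge ε' = l at hK hl1 ⊢
  have hW : 2 * l ≤ l ^ 2 - K := by linarith
  have hW2 : 2 ≤ l ^ 2 - K := by linarith
  have hW0 : 0 ≤ l ^ 2 - K := by linarith
  have key : (l + t) ^ 2 - K ≤ Real.exp t * (l ^ 2 - K) := by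
    have h3 : (1 + t + t ^ 2 / 2) * (l ^ 2 - K) ≤ Real.exp t * (l ^ 2 - K) :=
      mul_le_mul_of_nonneg_right hq hW0
    have h4 : t * (2 * l) ≤ t * (l ^ 2 - K) := mul_le_mul_of_nonneg_left hW ht
    have h5 : t ^ 2 / 2 * 2 ≤ t ^ 2 / 2 * (l ^ 2 - K) :=
      mul_le_mul_of_nonneg_left hW2 (by positivity)
    nlinarith
  calc ε * ((l + t) ^ 2 - K) ≤ ε * (Real.exp t * (l ^ 2 - K)) :=
        mul_le_mul_of_nonneg_left key h0.le
    _ = ε' * (l ^ 2 - K) := by rw [hexp]; ring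

/-- (cond).  Sketch: `1 - x = σ + ε' - σ ε' ≥ ε' (3 - 2 ε') ≥ 2.85 ε'` for `σ = 1 - s ≥ 2 ε'`,
`1 + x ≤ 2`, so `0 ≤ Q ≤ Λ - log 1.425 ≤ Λ - 0.354`, `Λ = - log ε' ≥ log (40/3) ≥ 2.59`;
`(lge)^2 - 2 lge = Λ^2 - 1`; `(Λ - 0.354)^2 ≤ Λ^2 - 1 ⇔ 0.708 Λ ≥ 1.1254`. -/
theorem cond_of {ε' s : ℝ} (h0 : 0 < ε') (h1 : ε' ≤ 3 / 40) (hs0 : 0 < s) (hs : s ≤ 1 - 2 * ε') :
    (dpsi (s * (1 - ε'))) ^ 2 ≤ (lge ε') ^ 2 - 2 * lge ε' := by
  have hx0 : 0 ≤ s * (1 - ε') := mul_nonneg hs0.le (by linarith)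
  have hlow : 57 / 20 * ε' ≤ 1 - s * (1 - ε') := by nlinarith
  have hx1 : s * (1 - ε') < 1 := by nlinarith
  have hQ0 : 0 ≤ dpsi (s * (1 - ε')) := dpsi_nonneg hx0 hx1
  -- numerical logs
  have hn1 : (1 : ℝ) / 3 ≤ Real.log (57 / 40) := by
    have := log_ge_of_pow (y := 57 / 40) (k := 1) (m := 3) (by norm_num) (by norm_num)
      (by norm_num)
    simpa using this
  have hn2 : (2 : ℝ) ≤ Real.log (40 / 3) := by
    have := log_ge_of_pow (y := 40 / 3) (k := 2) (m := 1) (by norm_num) (by norm_num)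
      (by norm_num)
    simpa using this
  have hLam : 2 ≤ -Real.log ε' := by
    have h3 : Real.log ε' ≤ Real.log (3 / 40) := Real.log_le_log h0 h1
    have h4 : Real.log (3 / 40) = -Real.log (40 / 3) := by
      rw [← Real.log_inv]
      norm_num
    linarith
  have hup : dpsi (s * (1 - ε')) ≤ -Real.log ε' - 1 / 3 := by
    unfold dpsi
    have h5 : Real.log (1 + s * (1 - ε')) ≤ Real.log 2 :=
      Real.log_le_log (by linarith) (by linarith)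
    have h6 : Real.log (57 / 20 * ε') ≤ Real.log (1 - s * (1 - ε')) :=
      Real.log_le_log (by positivity) hlow
    have h7 : Real.log (57 / 20 * ε') = Real.log (57 / 20) + Real.log ε' :=
      Real.log_mul (by norm_num) h0.ne'
    have h8 : Real.log (57 / 20) = Real.log (57 / 40) + Real.log 2 := by
      rw [← Real.log_mul (by norm_num) (by norm_num)]
      norm_num
    linarith
  unfold lge
  generalize dpsi (s * (1 - ε')) = Q at hQ0 hup ⊢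
  generalize Real.log ε' = L at hLam hup ⊢
  nlinarith

/-- Tool B is monotone in the noise.  Sketch: `Q = dpsi (s (1-ε)) ≥ Q' = dpsi (s (1-ε')) ≥ 0`
(`dpsi_mono`), `hh s ≥ 0`; `ε (l^2 - Q^2) ≤ ε (l^2 - Q'^2) ≤ ε' (l'^2 - Q'^2)` (`eps_mono` with
`K = Q'^2`, `cond_of`), multiply by `9/5 s`; `Q' hh s ≤ Q hh s`. -/
theorem toolB_mono {ε ε' s : ℝ} (h0 : 0 < ε) (h1 : ε ≤ ε') (h2 : ε' ≤ 3 / 40) (hs0 : 0 < s)
    (hs : s ≤ 1 - 2 * ε') (hB : ToolB ε' s) : ToolB ε s := by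
  have hε' : 0 < ε' := lt_of_lt_of_le h0 h1
  have hs1 : s < 1 := by linarith
  have hx0 : 0 ≤ s * (1 - ε') := mul_nonneg hs0.le (by linarith)
  have hxy : s * (1 - ε') ≤ s * (1 - ε) := mul_le_mul_of_nonneg_left (by linarith) hs0.le
  have hy1 : s * (1 - ε) < 1 := by nlinarith
  have hQQ : dpsi (s * (1 - ε')) ≤ dpsi (s * (1 - ε)) := dpsi_mono hx0 hxy hy1
  have hQ0 : 0 ≤ dpsi (s * (1 - ε')) := dpsi_nonneg hx0 (lt_of_le_of_lt hxy hy1)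
  have hh0 : 0 ≤ hh s := hh_nonneg (by rw [abs_of_pos hs0]; exact hs1.le)
  have hc := cond_of hε' h2 hs0 hs
  have hm := eps_mono h0 h1 (by linarith) hc
  unfold ToolB at hB ⊢
  generalize dpsi (s * (1 - ε')) = Q' at hQQ hQ0 hc hm hB
  generalize dpsi (s * (1 - ε)) = Q at hQQ ⊢
  have hsq : Q' ^ 2 ≤ Q ^ 2 := pow_le_pow_left₀ hQ0 hQQ 2
  have e1 : ε * ((lge ε) ^ 2 - Q ^ 2) ≤ ε * ((lge ε) ^ 2 - Q' ^ 2) :=
    mul_le_mul_of_nonneg_left (by linarith) h0.le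
  have e2 : ε * ((lge ε) ^ 2 - Q ^ 2) ≤ ε' * ((lge ε') ^ 2 - Q' ^ 2) := le_trans e1 hm
  have e3 : 9 / 5 * s * (ε * ((lge ε) ^ 2 - Q ^ 2)) ≤ 9 / 5 * s * (ε' * ((lge ε') ^ 2 - Q' ^ 2)) :=
    mul_le_mul_of_nonneg_left e2 (by positivity)
  have e4 : Q' * hh s ≤ Q * hh s := mul_le_mul_of_nonneg_right hQQ hh0
  calc 9 / 5 * ε * s * ((lge ε) ^ 2 - Q ^ 2) = 9 / 5 * s * (ε * ((lge ε) ^ 2 - Q ^ 2)) := by ring
    _ ≤ 9 / 5 * s * (ε' * ((lge ε') ^ 2 - Q' ^ 2)) := e3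
    _ = 9 / 5 * ε' * s * ((lge ε') ^ 2 - Q' ^ 2) := by ring
    _ ≤ Q' * hh s := hB
    _ ≤ Q * hh s := e4

end Vale.Agent.P322
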