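import Vale.Agent.P322.QLBasic
import Vale.Agent.P322.QLNum

/-!
Tool A holds for `1 - s ≤ 2 ε`, `ε ≤ 3/40`.

Sketch.  `x = s (1-ε) ≥ (1-2ε)(1-ε) ≥ 1 - 3ε`, so `Q = dpsi x ≥ dpsi (1 - 3ε)
= log ((2-3ε)/(3ε)) = log ((2-3ε)/3) + Λ`, `Λ = - log ε ≥ log (40/3) ≥ 2.59`,
`(2-3ε)/3 ≥ 71/120`, `log (71/120) ≥ -0.525`.  It suffices that `Q ≥ 0.5692 (1 + Λ)`
(`250 * 0.5692^2 = 80.997...`: use `0.56921`, `250 * 0.56921^2 ≥ 81`):
`Λ - 0.525 ≥ 0.56921 + 0.56921 Λ  ⇔  0.43079 Λ ≥ 1.09421  ⇐  Λ ≥ 2.5401`.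
-/

namespace Vale.Agent.P322

open Real

theorem toolA_log_a : (51 : ℝ) / 20 ≤ Real.log (40 / 3) := by
  have h := log_ge_of_pow (y := 40 / 3) (k := 51) (m := 20) (by norm_num) (by norm_num)
    (by norm_num)
  norm_num at h ⊢
  exact h

theorem toolA_log_b : Real.log (120 / 71) ≤ (21 : ℝ) / 40 := by
  have h := log_le_of_pow (y := 120 / 71) (k := 21) (m := 40) (by norm_num) (by norm_num)
    (by norm_num)
  norm_num at h ⊢
  exact h

theorem toolA_of {ε s : ℝ} (h0 : 0 < ε) (h1 : ε ≤ 3 / 40) (hs : 1 - 2 * ε ≤ s) (hs1 : s < 1) :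
    ToolA ε s := by
  unfold ToolA lge
  -- the point
  have hx1 : 1 - 3 * ε ≤ s * (1 - ε) := by nlinarith [mul_pos h0 h0]
  have hx2 : s * (1 - ε) < 1 := by nlinarith
  have hx0 : (0 : ℝ) ≤ 1 - 3 * ε := by linarith
  have hQ : dpsi (1 - 3 * ε) ≤ dpsi (s * (1 - ε)) := dpsi_mono hx0 hx1 hx2
  -- the logarithms
  have hL : (51 : ℝ) / 20 ≤ -Real.log ε := by
    have h2 : Real.log (40 / 3) ≤ Real.log (1 / ε) := by
      apply Real.log_le_log (by norm_num)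
      rw [le_div_iff₀ h0]
      linarith
    have h3 : Real.log (1 / ε) = -Real.log ε := by
      rw [one_div, Real.log_inv]
    linarith [toolA_log_a]
  have hd : dpsi (1 - 3 * ε) = Real.log (2 - 3 * ε) - Real.log 3 - Real.log ε := by
    unfold dpsi
    have e1 : (1 : ℝ) + (1 - 3 * ε) = 2 - 3 * ε := by ring
    have e2 : (1 : ℝ) - (1 - 3 * ε) = 3 * ε := by ring
    rw [e1, e2, Real.log_mul (by norm_num) h0.ne']
    ring
  have h4 : Real.log (71 / 40) ≤ Real.log (2 - 3 * ε) := by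
    apply Real.log_le_log (by norm_num)
    linarith
  have h5 : Real.log (120 / 71) = Real.log 3 - Real.log (71 / 40) := by
    rw [← Real.log_div (by norm_num) (by norm_num)]
    norm_num
  have hb := toolA_log_b
  set L : ℝ := -Real.log ε with hLdef
  set Q : ℝ := dpsi (s * (1 - ε)) with hQdef
  have hQL : L - 21 / 40 ≤ Q := by
    have : dpsi (1 - 3 * ε) = Real.log (2 - 3 * ε) - Real.log 3 + L := by
      rw [hd, hLdef]; ring
    linarith
  have hkey : 0.56921 * (1 + L) ≤ Q := by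
    have : 0.56921 * (1 + L) ≤ L - 21 / 40 := by
      norm_num
      linarith
    linarith
  have e : (1 : ℝ) - Real.log ε = 1 + L := by rw [hLdef]; ring
  rw [e]
  have hpos : (0 : ℝ) ≤ 0.56921 * (1 + L) := by
    have : (0 : ℝ) ≤ 1 + L := by linarith
    positivity
  have hsq : (0.56921 * (1 + L)) ^ 2 ≤ Q ^ 2 := pow_le_pow_left₀ hpos hkey 2
  have h6 : 81 * (1 + L) ^ 2 ≤ 250 * (0.56921 * (1 + L)) ^ 2 := by
    have : (0 : ℝ) ≤ (1 + L) ^ 2 := sq_nonneg _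
    rw [mul_pow]
    norm_num
    nlinarith
  linarith

end Vale.Agent.P322
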