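import Vale.Agent.P322.QLRed
import Vale.Agent.P322.QLToolA
import Vale.Agent.P322.QLMono
import Vale.Agent.P322.QLB1
import Vale.Agent.P322.QLB2

/-!
`QFS r` for `17/20 ≤ r < 1`, and the Courtade-Kumar inequality for `ε ≤ 3/40`.
-/

namespace Vale.Agent.P322

open Real

variable {n : ℕ}

theorem tools_low {ε : ℝ} (h0 : 0 < ε) (h1 : ε ≤ 3 / 40) (s : ℝ) (hs0 : 0 < s) (hs1 : s < 1) :
    ToolA ε s ∨ ToolB ε s := by
  rcases le_total (1 - 2 * ε) s with h | h
  · left
    exact toolA_of h0 h1 h hs1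
  · right
    rcases le_total s (17 / 20) with h' | h'
    · exact toolB_mono h0 h1 (le_refl _) hs0 (by linarith) (toolB1 hs0 h')
    · -- ε' = (1 - s)/2
      have hσ0 : 0 < 1 - s := by linarith
      have hσ1 : 1 - s ≤ 3 / 20 := by linarith
      have hB := toolB2 hσ0 hσ1
      have e : 1 - (1 - s) = s := by ring
      rw [e] at hB
      exact toolB_mono h0 (by linarith) (by linarith) hs0 (by linarith) hB

theorem qfs_low {r : ℝ} (h0 : 17 / 20 ≤ r) (h1 : r < 1) : QFS r := by
  have h := qfs_of_tools (ε := (1 - r) / 2) (by linarith) (by linarith)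
    (tools_low (by linarith) (by linarith))
  have e : 1 - 2 * ((1 - r) / 2) = r := by ring
  rwa [e] at h

/-- The Courtade-Kumar inequality for all Boolean functions at low noise `ε ≤ 3/40`. -/
theorem ck_low (f : Cube n → ℤˣ) {ε : ℝ} (h0 : 0 ≤ ε) (h1 : ε ≤ 3 / 40) :
    mutualInfo (law n ε) (fun ω => f ω.1) (fun ω => noisy ω) ≤ 1 - h2 ε := by
  rcases h0.eq_or_lt with h' | h'
  · rw [← h']
    exact ck_zero f
  · exact ck_of_QF h' (by linarith) (qfs_low (by linarith) (by linarith)) f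

end Vale.Agent.P322
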