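import Vale.Agent.P322.QLBasic

/-!
Reduction of `QFS` to the two tools.
-/

namespace Vale.Agent.P322

open Real

/-- pure algebra: Tool A with the side condition -/
theorem red_A {ε s l Q H φ y : ℝ} (hε : 0 < ε) (hs : 0 < s) (hl : 0 ≤ l) (hQ : 0 ≤ Q)
    (hH0 : 0 ≤ H) (hH : H ≤ 2 * ε * l) (hφ : 2 * ε * s * Q ≤ φ)
    (hside : 16 * (φ + y) ≤ 25 * y) (hA : 81 * l ^ 2 ≤ 250 * Q ^ 2) :
    9 * (H ^ 2 * s ^ 2) ≤ 10 * (φ * (φ + y)) := by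
  have h1 : H ^ 2 ≤ (2 * ε * l) ^ 2 := pow_le_pow_left₀ hH0 hH 2
  have hφ0 : 0 ≤ 2 * ε * s * Q := by positivity
  have h2 : (2 * ε * s * Q) ^ 2 ≤ φ ^ 2 := pow_le_pow_left₀ hφ0 hφ 2
  have hφpos : 0 ≤ φ := le_trans hφ0 hφ
  have h3 : 25 * φ ≤ 9 * (φ + y) := by linarith
  have h4 : φ * (25 * φ) ≤ φ * (9 * (φ + y)) := mul_le_mul_of_nonneg_left h3 hφpos
  have h5 : ε ^ 2 * s ^ 2 * (81 * l ^ 2) ≤ ε ^ 2 * s ^ 2 * (250 * Q ^ 2) :=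
    mul_le_mul_of_nonneg_left hA (by positivity)
  have h6 : H ^ 2 * s ^ 2 ≤ (2 * ε * l) ^ 2 * s ^ 2 :=
    mul_le_mul_of_nonneg_right h1 (by positivity)
  nlinarith [h2, h4, h5, h6]

/-- pure algebra: Tool B -/
theorem red_B {ε s l Q H φ y : ℝ} (hε : 0 < ε) (hs : 0 < s) (hl : 0 ≤ l) (hQ : 0 ≤ Q)
    (hH0 : 0 ≤ H) (hH : H ≤ 2 * ε * l) (hφ : 2 * ε * s * Q ≤ φ) (hy : 0 ≤ y)
    (hB : 9 / 5 * ε * s * (l ^ 2 - Q ^ 2) ≤ Q * y) :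
    9 * (H ^ 2 * s ^ 2) ≤ 10 * (φ * (φ + y)) := by
  have h1 : H ^ 2 ≤ (2 * ε * l) ^ 2 := pow_le_pow_left₀ hH0 hH 2
  have hφ0 : 0 ≤ 2 * ε * s * Q := by positivity
  have hφpos : 0 ≤ φ := le_trans hφ0 hφ
  have h2 : (2 * ε * s * Q) * (2 * ε * s * Q + y) ≤ φ * (φ + y) :=
    mul_le_mul hφ (by linarith) (by linarith) hφpos
  have h6 : H ^ 2 * s ^ 2 ≤ (2 * ε * l) ^ 2 * s ^ 2 :=
    mul_le_mul_of_nonneg_right h1 (by positivity)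
  have h7 : ε * s * (9 / 5 * ε * s * (l ^ 2 - Q ^ 2)) ≤ ε * s * (Q * y) :=
    mul_le_mul_of_nonneg_left hB (by positivity)
  have h8 : 0 ≤ ε ^ 2 * s ^ 2 * Q ^ 2 := by positivity
  nlinarith [h2, h6, h7, h8]

/-- `QFS (1 - 2 ε)` from the tools. -/
theorem qfs_of_tools {ε : ℝ} (h0 : 0 < ε) (h1 : ε < 1 / 2)
    (h : ∀ s, 0 < s → s < 1 → ToolA ε s ∨ ToolB ε s) : QFS (1 - 2 * ε) := by
  intro s hs0 hs1 hside
  have hr0 : 0 < 1 - 2 * ε := by linarith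
  have hr1 : 1 - 2 * ε ≤ 1 := by linarith
  have hl : 0 ≤ lge ε := by
    unfold lge
    have : Real.log ε ≤ 0 := Real.log_nonpos h0.le (by linarith)
    linarith
  have hx0 : 0 ≤ s * (1 - ε) := mul_nonneg hs0.le (by linarith)
  have hx1 : s * (1 - ε) < 1 := by nlinarith
  have hQ : 0 ≤ dpsi (s * (1 - ε)) := dpsi_nonneg hx0 hx1
  have hH0 : 0 ≤ hh (1 - 2 * ε) := hh_nonneg (by rw [abs_of_pos hr0]; exact hr1)
  have hH : hh (1 - 2 * ε) ≤ 2 * ε * lge ε := hh_noise_le h0 (by linarith)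
  have hy : 0 ≤ hh s := hh_nonneg (by rw [abs_of_pos hs0]; exact hs1.le)
  have hmid := hh_midpoint (a := (1 - 2 * ε) * s) (b := s) (mul_nonneg hr0.le hs0.le)
    (by nlinarith) hs1
  have e1 : s - (1 - 2 * ε) * s = 2 * ε * s := by ring
  have e2 : ((1 - 2 * ε) * s + s) / 2 = s * (1 - ε) := by ring
  rw [e1, e2] at hmid
  have e3 : hh ((1 - 2 * ε) * s) - hh s + hh s = hh ((1 - 2 * ε) * s) := by ring
  rcases h s hs0 hs1 with hA | hB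
  · have := red_A (y := hh s) h0 hs0 hl hQ hH0 hH hmid (by rw [e3]; exact hside) hA
    rwa [e3] at this
  · have := red_B (y := hh s) h0 hs0 hl hQ hH0 hH hmid hy hB
    rwa [e3] at this

end Vale.Agent.P322
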