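import Vale.Agent.P322.SCDefs

/-!
The best coordinate (helper27): a Boolean function of at least two variables has a coordinate `i`
with `3 * fhat f {i} ^ 2 ≤ 1 - (mu f) ^ 2`.

Sketch.  At least three variables: `parseval`, restricted to the four sets `∅, {0}, {1}, {2}`
(`Finset.sum_le_univ_sum_of_nonneg`), gives `m^2 + d0^2 + d1^2 + d2^2 ≤ 1`.
Two variables: expand the means with `mean_cons` twice (and `mean_zero_dim`); the four values of
`f` are `1` or `-1` (`sg_cases`): sixteen cases, each by `norm_num`.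
-/

namespace Vale.Agent.P322

variable {n : ℕ}

theorem best_coord_three (f : Cube (n + 3) → ℤˣ) :
    ∃ i, 3 * (fhat f {i}) ^ 2 ≤ 1 - (mu f) ^ 2 := by
  classical
  have h01 : (0 : Fin (n + 3)) ≠ 1 := by
    intro h; have := congrArg Fin.val h; simp at this
  have h2v : ((2 : Fin (n + 3)) : ℕ) = 2 := by
    have h : ((2 : Fin (n + 3)) : ℕ) = 2 % (n + 3) := rfl
    rw [h]
    exact Nat.mod_eq_of_lt (by omega)
  have h1v : ((1 : Fin (n + 3)) : ℕ) = 1 := by
    have h : ((1 : Fin (n + 3)) : ℕ) = 1 % (n + 3) := rfl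
    rw [h]
    exact Nat.mod_eq_of_lt (by omega)
  have h02 : (0 : Fin (n + 3)) ≠ 2 := by
    intro h; have := congrArg Fin.val h; rw [h2v] at this; simp at this
  have h12 : (1 : Fin (n + 3)) ≠ 2 := by
    intro h; have := congrArg Fin.val h; rw [h2v, h1v] at this; omega
  have hsub : ∑ S ∈ ({∅, {0}, {1}, {2}} : Finset (Finset (Fin (n + 3)))), (fhat f S) ^ 2
      ≤ ∑ S : Finset (Fin (n + 3)), (fhat f S) ^ 2 :=
    Finset.sum_le_univ_sum_of_nonneg (fun S => sq_nonneg _)
  rw [parseval] at hsub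
  have he0 : (∅ : Finset (Fin (n + 3))) ∉ ({{0}, {1}, {2}} : Finset (Finset (Fin (n + 3)))) := by
    simp
  have he1 : ({0} : Finset (Fin (n + 3))) ∉ ({{1}, {2}} : Finset (Finset (Fin (n + 3)))) := by
    simp [Finset.singleton_inj, h01, h02]
  have he2 : ({1} : Finset (Fin (n + 3))) ∉ ({{2}} : Finset (Finset (Fin (n + 3)))) := by
    simp [Finset.singleton_inj, h12]
  rw [Finset.sum_insert he0, Finset.sum_insert he1, Finset.sum_insert he2,
    Finset.sum_singleton, fhat_empty'] at hsub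
  by_contra hcon
  have hall : ∀ i, 1 - (mu f) ^ 2 < 3 * (fhat f {i}) ^ 2 := by
    intro i
    by_contra hi
    exact hcon ⟨i, not_lt.mp hi⟩
  have a0 := hall 0
  have a1 := hall 1
  have a2 := hall 2
  linarith

theorem best_coord_two (f : Cube 2 → ℤˣ) :
    ∃ i, 3 * (fhat f {i}) ^ 2 ≤ 1 - (mu f) ^ 2 := by
  have hm : mu f = (sg (f (Fin.cons 1 (Fin.cons 1 default))) + sg (f (Fin.cons 1 (Fin.cons (-1) default)))
      + sg (f (Fin.cons (-1) (Fin.cons 1 default))) + sg (f (Fin.cons (-1) (Fin.cons (-1) default)))) / 4 := by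
    unfold mu
    rw [mean_cons, mean_cons, mean_cons, mean_zero_dim, mean_zero_dim, mean_zero_dim, mean_zero_dim]
    ring
  have h0 : fhat f {0} = (sg (f (Fin.cons 1 (Fin.cons 1 default))) + sg (f (Fin.cons 1 (Fin.cons (-1) default)))
      - sg (f (Fin.cons (-1) (Fin.cons 1 default))) - sg (f (Fin.cons (-1) (Fin.cons (-1) default)))) / 4 := by
    unfold fhat
    rw [mean_cons, mean_cons, mean_cons, mean_zero_dim, mean_zero_dim, mean_zero_dim, mean_zero_dim]
    simp [chi]
    ring
  have h1 : fhat f {1} = (sg (f (Fin.cons 1 (Fin.cons 1 default))) - sg (f (Fin.cons 1 (Fin.cons (-1) default)))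
      + sg (f (Fin.cons (-1) (Fin.cons 1 default))) - sg (f (Fin.cons (-1) (Fin.cons (-1) default)))) / 4 := by
    unfold fhat
    rw [mean_cons, mean_cons, mean_cons, mean_zero_dim, mean_zero_dim, mean_zero_dim, mean_zero_dim]
    simp [chi]
    ring
  rcases sg_cases (f (Fin.cons 1 (Fin.cons 1 default))) with a | a <;>
  rcases sg_cases (f (Fin.cons 1 (Fin.cons (-1) default))) with b | b <;>
  rcases sg_cases (f (Fin.cons (-1) (Fin.cons 1 default))) with c | c <;>
  rcases sg_cases (f (Fin.cons (-1) (Fin.cons (-1) default))) with d | d <;>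
  rw [a, b, c, d] at hm h0 h1 <;>
  first
  | (refine ⟨0, ?_⟩; rw [hm, h0]; norm_num; done)
  | (refine ⟨1, ?_⟩; rw [hm, h1]; norm_num)

theorem best_coord (f : Cube (n + 2) → ℤˣ) :
    ∃ i, 3 * (fhat f {i}) ^ 2 ≤ 1 - (mu f) ^ 2 := by
  cases n with
  | zero => exact best_coord_two f
  | succ k => exact best_coord_three f

end Vale.Agent.P322
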