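import Vale.Agent.P322.LLInd

/-!
Scheme C (potential depending on the mean only, induction over Boolean functions, the noise of the
peeled coordinate is taken outside; the peeled coordinate may be chosen).  Definitions.
Everything is in doubled nats (`hh = 2 ln 2 * h`).
-/

namespace Vale.Agent.P322

open Real

variable {n : ℕ}

/-- mean of a Boolean function -/
noncomputable def mu (f : Cube n → ℤˣ) : ℝ := mean (fun x => sg (f x))

/-- `HH ε f = 2 ln 2 * H(f(X) | Y)`: the mean of `hh` of the noisy version of `f`. -/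
noncomputable def HH (ε : ℝ) (f : Cube n → ℤˣ) : ℝ :=
  mean (fun y => hh (Tn ε (fun x => sg (f x)) y))

/-- The two certificates of the one-coordinate step at `(m, d)`: a DC-pair, or (J1). -/
def SCStep (r : ℝ) (Lam : ℝ → ℝ) (m d : ℝ) : Prop :=
  (∃ Ac Bc, IsDC r Ac Bc ∧ 0 ≤ Ac ∧ 0 ≤ Bc ∧
      Lam m ≤ Ac * ((Lam (m + d) + Lam (m - d)) / 2) + Bc * |d|) ∨
    Lam m ≤ (Lam (m + d) + Lam (m - d)) / 2 + (K2 m d - K2 m (r * d))

theorem abs_mu_le (f : Cube n → ℤˣ) : |mu f| ≤ 1 :=
  abs_mean_le (fun x => le_of_eq (sg_abs _))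

theorem fhat_empty' (f : Cube n → ℤˣ) : fhat f ∅ = mu f := fhat_empty f

end Vale.Agent.P322
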