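import Vale.Agent.P322.SCQuart

/-!
Scheme C, high range `r ∈ [9/10, 1)`: elementary analytic lemmas (doubled nats).
-/

namespace Vale.Agent.P322

open Real

/-- tangent line of `a ↦ a log a` -/
theorem mul_log_tangent {a b : ℝ} (ha : 0 ≤ a) (hb : 0 < b) :
    b * Real.log b + (1 + Real.log b) * (a - b) ≤ a * Real.log a := by
  rcases ha.eq_or_lt with h | h
  · rw [← h]
    simp
    linarith
  · have h1 : Real.log (b / a) ≤ b / a - 1 := Real.log_le_sub_one_of_pos (div_pos hb h)
    rw [Real.log_div hb.ne' h.ne'] at h1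
    have h2 : a * (Real.log b - Real.log a) ≤ a * (b / a - 1) :=
      mul_le_mul_of_nonneg_left h1 h.le
    have h3 : a * (b / a - 1) = b - a := by
      field_simp
    rw [h3] at h2
    nlinarith

/-- tangent line of the convex function `psi2` -/
theorem psi2_tangent_dpsi {x y : ℝ} (hx : |x| < 1) (hy : |y| ≤ 1) :
    psi2 x + dpsi x * (y - x) ≤ psi2 y := by
  have hx' := abs_lt.mp hx
  have hy' := abs_le.mp hy
  have h1 := mul_log_tangent (a := 1 + y) (b := 1 + x) (by linarith) (by linarith)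
  have h2 := mul_log_tangent (a := 1 - y) (b := 1 - x) (by linarith) (by linarith)
  unfold psi2 dpsi
  nlinarith

/-- `hh x = (1 - x) dpsi x + 2 log (2 / (1 + x))` -/
theorem hh_eq_dpsi (x : ℝ) :
    hh x = (1 - x) * dpsi x + 2 * (Real.log 2 - Real.log (1 + x)) := by
  unfold hh dpsi
  rw [psi2_one]
  unfold psi2
  ring

theorem hh_lower_dpsi {x : ℝ} (hx0 : 0 ≤ x) (_hx1 : x < 1) :
    (1 - x) * (dpsi x + 1) ≤ hh x := by
  rw [hh_eq_dpsi]
  have h1 : Real.log ((1 + x) / 2) ≤ (1 + x) / 2 - 1 :=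
    Real.log_le_sub_one_of_pos (by linarith)
  rw [Real.log_div (by linarith) (by norm_num)] at h1
  nlinarith

theorem hh_upper_dpsi {x : ℝ} (hx0 : 0 ≤ x) (_hx1 : x < 1) :
    hh x ≤ (1 - x) * (dpsi x + 2 / (1 + x)) := by
  rw [hh_eq_dpsi]
  have h1 : Real.log (2 / (1 + x)) ≤ 2 / (1 + x) - 1 :=
    Real.log_le_sub_one_of_pos (by positivity)
  rw [Real.log_div (by norm_num) (by linarith)] at h1
  have h2 : 2 / (1 + x) - 1 = (1 - x) / (1 + x) := by
    field_simp
    ring
  rw [h2] at h1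
  have h3 : (1 - x) * (2 / (1 + x)) = 2 * ((1 - x) / (1 + x)) := by ring
  rw [mul_add, h3]
  linarith

theorem dpsi_mono {x y : ℝ} (hx : -1 < x) (hxy : x ≤ y) (hy : y < 1) : dpsi x ≤ dpsi y := by
  unfold dpsi
  have h1 : Real.log (1 + x) ≤ Real.log (1 + y) := Real.log_le_log (by linarith) (by linarith)
  have h2 : Real.log (1 - y) ≤ Real.log (1 - x) := Real.log_le_log (by linarith) (by linarith)
  linarith

theorem dpsi_zero : dpsi 0 = 0 := by simp [dpsi]

theorem dpsi_nonneg {x : ℝ} (hx0 : 0 ≤ x) (hx1 : x < 1) : 0 ≤ dpsi x := by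
  have := dpsi_mono (x := 0) (y := x) (by norm_num) hx0 hx1
  rwa [dpsi_zero] at this

theorem exp_dpsi {x : ℝ} (hx : |x| < 1) : Real.exp (dpsi x) = (1 + x) / (1 - x) := by
  have hx' := abs_lt.mp hx
  unfold dpsi
  rw [Real.exp_sub, Real.exp_log (by linarith), Real.exp_log (by linarith)]

/-- `u (u + 1) / (e^u - 1)` is decreasing for `u^2 ≥ u + 1`. -/
theorem YY_anti {u v : ℝ} (hu : 0 < u) (hu2 : u + 1 ≤ u ^ 2) (huv : u ≤ v) :
    v * (v + 1) * (Real.exp u - 1) ≤ u * (u + 1) * (Real.exp v - 1) := by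
  set t := v - u with ht
  have ht0 : 0 ≤ t := by linarith
  have hv : v = u + t := by rw [ht]; ring
  have e1 : 1 + t / u ≤ Real.exp (t / u) := by
    have := Real.add_one_le_exp (t / u); linarith
  have e2 : 1 + t / (u + 1) ≤ Real.exp (t / (u + 1)) := by
    have := Real.add_one_le_exp (t / (u + 1)); linarith
  have p1 : 0 ≤ 1 + t / u := by positivity
  have p2 : 0 ≤ 1 + t / (u + 1) := by positivity
  have e3 : (1 + t / u) * (1 + t / (u + 1)) ≤ Real.exp (t / u) * Real.exp (t / (u + 1)) :=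
    mul_le_mul e1 e2 p2 (Real.exp_pos _).le
  rw [← Real.exp_add] at e3
  have e4 : t / u + t / (u + 1) ≤ t := by
    have : t / u + t / (u + 1) = t * ((2 * u + 1) / (u * (u + 1))) := by
      field_simp
      ring
    rw [this]
    have h5 : (2 * u + 1) / (u * (u + 1)) ≤ 1 := by
      rw [div_le_one (by positivity)]
      nlinarith
    calc t * ((2 * u + 1) / (u * (u + 1))) ≤ t * 1 := mul_le_mul_of_nonneg_left h5 ht0
      _ = t := mul_one t
  have e5 : (1 + t / u) * (1 + t / (u + 1)) ≤ Real.exp t :=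
    le_trans e3 (Real.exp_le_exp.mpr e4)
  have e6 : v * (v + 1) = u * (u + 1) * ((1 + t / u) * (1 + t / (u + 1))) := by
    rw [hv]
    field_simp
    ring
  have e7 : Real.exp t * (Real.exp u - 1) ≤ Real.exp v - 1 := by
    rw [hv, Real.exp_add]
    have : 1 ≤ Real.exp t := Real.one_le_exp ht0
    nlinarith [Real.exp_pos u]
  have e8 : 0 ≤ Real.exp u - 1 := by
    have : 1 ≤ Real.exp u := Real.one_le_exp hu.le
    linarith
  have e9 : 0 ≤ u * (u + 1) := by positivity
  calc v * (v + 1) * (Real.exp u - 1)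
      = u * (u + 1) * (((1 + t / u) * (1 + t / (u + 1))) * (Real.exp u - 1)) := by
        rw [e6]; ring
    _ ≤ u * (u + 1) * (Real.exp t * (Real.exp u - 1)) := by
        apply mul_le_mul_of_nonneg_left _ e9
        exact mul_le_mul_of_nonneg_right e5 e8
    _ ≤ u * (u + 1) * (Real.exp v - 1) := mul_le_mul_of_nonneg_left e7 e9

end Vale.Agent.P322
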