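import Vale.Agent.P322.SCHighA

/-!
Scheme C, high range `r ∈ [9/10, 1)`: numerical facts and the case `s ≤ r`.
-/

namespace Vale.Agent.P322

open Real

theorem dpsi_lower {x : ℝ} (hx0 : 0 ≤ x) (hx1 : x < 1) : 2 * x + 2 / 3 * x ^ 3 ≤ dpsi x := by
  have h := Real.hasSum_log_sub_log_of_abs_lt_one (x := x) (by rw [abs_of_nonneg hx0]; exact hx1)
  have h2 := sum_le_hasSum (Finset.range 2) (fun i _ => by positivity) h
  simp only [Finset.sum_range_succ, Finset.sum_range_zero] at h2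
  norm_num at h2
  unfold dpsi
  linarith

theorem dpsi_eq_log {x : ℝ} (hx : |x| < 1) : dpsi x = Real.log ((1 + x) / (1 - x)) := by
  have hx' := abs_lt.mp hx
  unfold dpsi
  rw [Real.log_div (by linarith) (by linarith)]

theorem log_two_lo : (0.6931471803 : ℝ) < Real.log 2 := Real.log_two_gt_d9
theorem log_two_hi : Real.log 2 < (0.6931471808 : ℝ) := Real.log_two_lt_d9

/-- `dpsi (27/40) ≥ 1.62` -/
theorem dpsi_num1 : (1.62 : ℝ) ≤ dpsi (27 / 40) := by
  rw [dpsi_eq_log (by rw [abs_of_pos (by norm_num)]; norm_num)]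
  have e : ((1 : ℝ) + 27 / 40) / (1 - 27 / 40) = 2 ^ 2 * (1 + 15 / 52) := by norm_num
  rw [e, Real.log_mul (by norm_num) (by norm_num), Real.log_pow]
  have h := Real.le_log_one_add_of_nonneg (x := 15 / 52) (by norm_num)
  have := log_two_lo
  norm_num at h ⊢
  linarith

/-- `dpsi (81/100) ≥ 2.25` -/
theorem dpsi_num2 : (2.25 : ℝ) ≤ dpsi (81 / 100) := by
  rw [dpsi_eq_log (by rw [abs_of_pos (by norm_num)]; norm_num)]
  have e : ((1 : ℝ) + 81 / 100) / (1 - 81 / 100) = 2 ^ 3 * (1 + 29 / 152) := by norm_num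
  rw [e, Real.log_mul (by norm_num) (by norm_num), Real.log_pow]
  have h := Real.le_log_one_add_of_nonneg (x := 29 / 152) (by norm_num)
  have := log_two_lo
  norm_num at h ⊢
  linarith

/-- `dpsi (8649/10000) ≥ 2.6` -/
theorem dpsi_num3 : (2.6 : ℝ) ≤ dpsi (8649 / 10000) := by
  rw [dpsi_eq_log (by rw [abs_of_pos (by norm_num)]; norm_num)]
  have e : ((1 : ℝ) + 8649 / 10000) / (1 - 8649 / 10000) = 2 ^ 3 * (1 + 7841 / 10808) := by
    norm_num
  rw [e, Real.log_mul (by norm_num) (by norm_num), Real.log_pow]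
  have h := Real.le_log_one_add_of_nonneg (x := 7841 / 10808) (by norm_num)
  have := log_two_lo
  norm_num at h ⊢
  linarith

theorem log_twenty_le : Real.log 20 ≤ 3 := by
  rw [Real.log_le_iff_le_exp (by norm_num)]
  have h1 : (2.7182818283 : ℝ) < Real.exp 1 := Real.exp_one_gt_d9
  have h2 : Real.exp 3 = Real.exp 1 ^ 3 := by
    rw [← Real.exp_nat_mul]
    norm_num
  rw [h2]
  have h3 : (2.7182818283 : ℝ) ^ 3 ≤ Real.exp 1 ^ 3 := by gcongr
  norm_num at h3 ⊢
  linarith

/-- `dpsi r - dpsi (r^2) ≤ log 2` -/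
theorem dpsi_sq_gap {r : ℝ} (hr0 : 0 < r) (hr1 : r < 1) : dpsi r ≤ dpsi (r ^ 2) + Real.log 2 := by
  unfold dpsi
  have h1 : (1 : ℝ) - r ^ 2 = (1 - r) * (1 + r) := by ring
  rw [h1, Real.log_mul (by linarith) (by linarith)]
  have h2 : Real.log ((1 + r) ^ 2) ≤ Real.log (2 * (1 + r ^ 2)) := by
    apply Real.log_le_log (by positivity)
    nlinarith [sq_nonneg (1 - r)]
  rw [Real.log_pow, Real.log_mul (by norm_num) (by positivity)] at h2
  push_cast at h2
  linarith

/-- (CB) -/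
theorem high_CB {r : ℝ} (hr : 9 / 10 ≤ r) (hr1 : r < 1) :
    (1 - r) * (dpsi r + 2 / (1 + r)) ^ 2 ≤ 1.65 := by
  set dl := 1 - r with hdl
  have hd0 : 0 < dl := by linarith
  have hd1 : dl ≤ 1 / 10 := by linarith
  set w := 1 / (10 * dl) with hw
  have hw1 : 1 ≤ w := by
    rw [hw, le_div_iff₀ (by positivity)]
    linarith
  have hw0 : 0 < w := by linarith
  set q := Real.sqrt w with hq
  have hq2 : q ^ 2 = w := Real.sq_sqrt hw0.le
  have hq1 : 1 ≤ q := by
    rw [hq]
    exact Real.one_le_sqrt.mpr hw1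
  have hq0 : 0 < q := by linarith
  have hlogw : Real.log w ≤ 2 * (q - 1) := by
    rw [← hq2, Real.log_pow]
    have := Real.log_le_sub_one_of_pos hq0
    push_cast
    linarith
  have hU : dpsi r ≤ 3 + Real.log w := by
    unfold dpsi
    have h1 : Real.log (1 + r) ≤ Real.log 2 := Real.log_le_log (by linarith) (by linarith)
    have h2 : Real.log w = - Real.log 10 - Real.log dl := by
      rw [hw, Real.log_div (by norm_num) (by positivity), Real.log_mul (by norm_num) hd0.ne']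
      simp
      ring
    have h3 : Real.log 20 = Real.log 2 + Real.log 10 := by
      rw [← Real.log_mul (by norm_num) (by norm_num)]
      norm_num
    have h4 := log_twenty_le
    rw [← hdl, h2]
    linarith
  have h5 : 2 / (1 + r) ≤ 1.0527 := by
    rw [div_le_iff₀ (by linarith)]
    linarith
  have hW0 : 0 ≤ dpsi r + 2 / (1 + r) := by
    have := dpsi_nonneg (x := r) (by linarith) hr1
    have : 0 ≤ 2 / (1 + r) := by positivity
    linarith
  have hW : dpsi r + 2 / (1 + r) ≤ 4.0527 * q := by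
    nlinarith
  have hW2 : (dpsi r + 2 / (1 + r)) ^ 2 ≤ (4.0527 * q) ^ 2 := by
    apply pow_le_pow_left₀ hW0 hW
  have hdw : dl * w = 1 / 10 := by
    rw [hw]
    field_simp
  calc dl * (dpsi r + 2 / (1 + r)) ^ 2 ≤ dl * (4.0527 * q) ^ 2 :=
        mul_le_mul_of_nonneg_left hW2 hd0.le
    _ = 4.0527 ^ 2 * (dl * w) := by rw [← hq2]; ring
    _ ≤ 1.65 := by rw [hdw]; norm_num

/-- (H): the end point `x = r^2`. -/
theorem high_H {r : ℝ} (hr : 9 / 10 ≤ r) (hr1 : r < 1) :
    9 * r * (dpsi r + 2 / (1 + r)) ^ 2 ≤ 10 * (1 + r) * (dpsi (r ^ 2) * (dpsi (r ^ 2) + 1)) := by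
  have hr0 : 0 < r := by linarith
  set u := dpsi (r ^ 2) with hu
  have hgap := dpsi_sq_gap hr0 hr1
  rw [← hu] at hgap
  have hl2 := log_two_hi
  have hW0 : 0 ≤ dpsi r + 2 / (1 + r) := by
    have := dpsi_nonneg (x := r) (by linarith) hr1
    have : 0 ≤ 2 / (1 + r) := by positivity
    linarith
  have hr2 : r ^ 2 < 1 := by nlinarith
  rcases le_total r (93 / 100) with h | h
  · have hu1 : 2.25 ≤ u := by
      have := dpsi_mono (x := 81 / 100) (y := r ^ 2) (by norm_num) (by nlinarith) hr2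
      linarith [dpsi_num2]
    have h5 : 2 / (1 + r) ≤ 1.0527 := by
      rw [div_le_iff₀ (by linarith)]
      linarith
    have hW : dpsi r + 2 / (1 + r) ≤ u + 1.7459 := by linarith
    have hW2 : (dpsi r + 2 / (1 + r)) ^ 2 ≤ (u + 1.7459) ^ 2 := pow_le_pow_left₀ hW0 hW 2
    have h6 : 9 * r * (dpsi r + 2 / (1 + r)) ^ 2 ≤ 9 * (93 / 100) * (u + 1.7459) ^ 2 := by
      apply mul_le_mul (by linarith) hW2 (by positivity) (by norm_num)
    have h7 : 19 * (u * (u + 1)) ≤ 10 * (1 + r) * (u * (u + 1)) := by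
      apply mul_le_mul_of_nonneg_right (by linarith)
      nlinarith
    nlinarith
  · have hu1 : 2.6 ≤ u := by
      have := dpsi_mono (x := 8649 / 10000) (y := r ^ 2) (by norm_num) (by nlinarith) hr2
      linarith [dpsi_num3]
    have h5 : 2 / (1 + r) ≤ 1.0363 := by
      rw [div_le_iff₀ (by linarith)]
      linarith
    have hW : dpsi r + 2 / (1 + r) ≤ u + 1.7295 := by linarith
    have hW2 : (dpsi r + 2 / (1 + r)) ^ 2 ≤ (u + 1.7295) ^ 2 := pow_le_pow_left₀ hW0 hW 2
    have h6 : 9 * r * (dpsi r + 2 / (1 + r)) ^ 2 ≤ 9 * 1 * (u + 1.7295) ^ 2 := by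
      apply mul_le_mul (by linarith) hW2 (by positivity) (by norm_num)
    have h7 : 19.3 * (u * (u + 1)) ≤ 10 * (1 + r) * (u * (u + 1)) := by
      apply mul_le_mul_of_nonneg_right (by linarith)
      nlinarith
    nlinarith

end Vale.Agent.P322
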