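import Vale.Agent.P322.SCHighB

/-!
Scheme C, high range `r ∈ [9/10, 1)`: the inequality (QF) for `s ≤ r`.
-/

namespace Vale.Agent.P322

open Real

theorem high_poly {x : ℝ} (hx0 : 0 ≤ x) (hx1 : x ≤ 27 / 40) :
    1.7 ≤ (2 + 2 / 3 * x ^ 2) * (1 + 2 * x + 2 / 3 * x ^ 3) * (1 - x) := by
  rcases le_total x (1 / 2) with h | h
  · have h1 : 1 ≤ (1 + 2 * x + 2 / 3 * x ^ 3) * (1 - x) := by
      have : 0 ≤ x ^ 3 * (1 - x) := mul_nonneg (by positivity) (by linarith)
      nlinarith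
    have h2 : (2 : ℝ) ≤ 2 + 2 / 3 * x ^ 2 := by nlinarith [sq_nonneg x]
    nlinarith
  · have h1 : 0.83 ≤ (1 + 2 * x + 2 / 3 * x ^ 3) * (1 - x) := by
      nlinarith [mul_nonneg (sub_nonneg.mpr h) (sub_nonneg.mpr hx1), sq_nonneg x,
        mul_nonneg (mul_nonneg (sub_nonneg.mpr h) (sub_nonneg.mpr hx1)) hx0,
        mul_nonneg (mul_nonneg (sub_nonneg.mpr h) (sub_nonneg.mpr hx1)) (sq_nonneg x)]
    have h2 : (2 + 1 / 6 : ℝ) ≤ 2 + 2 / 3 * x ^ 2 := by nlinarith
    nlinarith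

/-- (K) -/
theorem high_K {r x : ℝ} (hr : 9 / 10 ≤ r) (hr1 : r < 1) (hx0 : 0 < x) (hx : x ≤ r ^ 2) :
    9 * x * ((1 - r) * (dpsi r + 2 / (1 + r)) ^ 2)
      ≤ 10 * r * (dpsi x * (dpsi x + 1) * (1 - x)) := by
  have hr0 : 0 < r := by linarith
  have hr2 : r ^ 2 < 1 := by nlinarith
  have hx1 : x < 1 := by linarith
  set u := dpsi x with hu
  set W := dpsi r + 2 / (1 + r) with hW
  rcases le_total x (27 / 40) with h | h
  · -- small x
    have hCB := high_CB hr hr1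
    rw [← hW] at hCB
    have hl := dpsi_lower hx0.le hx1
    rw [← hu] at hl
    have hp := high_poly hx0.le h
    have hl0 : 0 ≤ 2 * x + 2 / 3 * x ^ 3 := by positivity
    have h1 : (2 * x + 2 / 3 * x ^ 3) * (2 * x + 2 / 3 * x ^ 3 + 1) ≤ u * (u + 1) := by
      apply mul_le_mul hl (by linarith) (by linarith) (by linarith)
    have h2 : x * 1.7 ≤ u * (u + 1) * (1 - x) := by
      calc x * 1.7 ≤ x * ((2 + 2 / 3 * x ^ 2) * (1 + 2 * x + 2 / 3 * x ^ 3) * (1 - x)) :=
            mul_le_mul_of_nonneg_left hp hx0.le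
        _ = (2 * x + 2 / 3 * x ^ 3) * (2 * x + 2 / 3 * x ^ 3 + 1) * (1 - x) := by ring
        _ ≤ u * (u + 1) * (1 - x) := mul_le_mul_of_nonneg_right h1 (by linarith)
    calc 9 * x * ((1 - r) * W ^ 2) ≤ 9 * x * 1.65 :=
          mul_le_mul_of_nonneg_left hCB (by positivity)
      _ ≤ 10 * (9 / 10) * (x * 1.7) := by nlinarith
      _ ≤ 10 * r * (x * 1.7) := by
          apply mul_le_mul_of_nonneg_right (by linarith) (by positivity)
      _ ≤ 10 * r * (u * (u + 1) * (1 - x)) := mul_le_mul_of_nonneg_left h2 (by positivity)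
  · -- large x
    have hu1 : 1.62 ≤ u := by
      have := dpsi_mono (x := 27 / 40) (y := x) (by norm_num) h hx1
      linarith [dpsi_num1]
    set v := dpsi (r ^ 2) with hv
    have huv : u ≤ v := dpsi_mono (by linarith) hx hr2
    have hY := YY_anti (u := u) (v := v) (by linarith) (by nlinarith) huv
    have ex : Real.exp u = (1 + x) / (1 - x) := exp_dpsi (by rw [abs_of_pos hx0]; exact hx1)
    have ev : Real.exp v = (1 + r ^ 2) / (1 - r ^ 2) :=
      exp_dpsi (by rw [abs_of_pos (by positivity)]; exact hr2)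
    have ex' : Real.exp u - 1 = 2 * x / (1 - x) := by
      rw [ex]
      have : (1 - x) ≠ 0 := by linarith
      field_simp
      ring
    have ev' : Real.exp v - 1 = 2 * r ^ 2 / (1 - r ^ 2) := by
      rw [ev]
      have : (1 - r ^ 2) ≠ 0 := by linarith
      field_simp
      ring
    rw [ex', ev'] at hY
    have hH := high_H hr hr1
    rw [← hW, ← hv] at hH
    -- hY : v (v+1) * (2x/(1-x)) ≤ u (u+1) * (2 r^2/(1-r^2))
    have p1 : 0 < 1 - x := by linarith
    have p2 : 0 < 1 - r ^ 2 := by linarith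
    have hY2 : v * (v + 1) * x * (1 - r ^ 2) ≤ u * (u + 1) * (1 - x) * r ^ 2 := by
      have e1 : v * (v + 1) * (2 * x / (1 - x)) * ((1 - x) * (1 - r ^ 2) / 2)
          = v * (v + 1) * x * (1 - r ^ 2) := by
        field_simp
      have e2 : u * (u + 1) * (2 * r ^ 2 / (1 - r ^ 2)) * ((1 - x) * (1 - r ^ 2) / 2)
          = u * (u + 1) * (1 - x) * r ^ 2 := by
        field_simp
      rw [← e1, ← e2]
      exact mul_le_mul_of_nonneg_right hY (by positivity)
    -- combine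
    have h3 : r * (9 * x * ((1 - r) * W ^ 2)) ≤ r * (10 * r * (u * (u + 1) * (1 - x))) := by
      calc r * (9 * x * ((1 - r) * W ^ 2)) = (x * (1 - r)) * (9 * r * W ^ 2) := by ring
        _ ≤ (x * (1 - r)) * (10 * (1 + r) * (v * (v + 1))) :=
            mul_le_mul_of_nonneg_left hH (mul_nonneg hx0.le (by linarith))
        _ = 10 * (v * (v + 1) * x * (1 - r ^ 2)) := by ring
        _ ≤ 10 * (u * (u + 1) * (1 - x) * r ^ 2) := by linarith
        _ = r * (10 * r * (u * (u + 1) * (1 - x))) := by ring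
    exact le_of_mul_le_mul_left h3 hr0

/-- (QF) for `s ≤ r`. -/
theorem high_low {r s : ℝ} (hr : 9 / 10 ≤ r) (hr1 : r < 1) (hs0 : 0 < s) (hsr : s ≤ r) :
    9 * ((hh r) ^ 2 * s ^ 2) ≤ 10 * ((hh (r * s) - hh s) * hh (r * s)) := by
  have hr0 : 0 < r := by linarith
  have hs1 : s < 1 := by linarith
  set x := r * s with hx
  have hx0 : 0 < x := mul_pos hr0 hs0
  have hxr : x ≤ r ^ 2 := by rw [hx]; nlinarith
  have hx1 : x < 1 := by nlinarith
  set u := dpsi x with hu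
  set W := dpsi r + 2 / (1 + r) with hW
  have hu0 : 0 ≤ u := dpsi_nonneg hx0.le hx1
  have h1 : u * ((1 - r) * s) ≤ hh x - hh s := by
    have := psi2_tangent_dpsi (x := x) (y := s) (by rw [abs_of_pos hx0]; exact hx1)
      (by rw [abs_of_pos hs0]; exact hs1.le)
    rw [← hu] at this
    have e : s - x = (1 - r) * s := by rw [hx]; ring
    rw [e] at this
    unfold hh
    linarith
  have h2 : (1 - x) * (u + 1) ≤ hh x := hh_lower_dpsi hx0.le hx1
  have h3 : hh r ≤ (1 - r) * W := hh_upper_dpsi hr0.le hr1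
  have h4 : 0 ≤ hh r := hh_nonneg (by rw [abs_of_pos hr0]; exact hr1.le)
  have hK := high_K hr hr1 hx0 hxr
  rw [← hu, ← hW] at hK
  have h5 : (hh r) ^ 2 ≤ ((1 - r) * W) ^ 2 := pow_le_pow_left₀ h4 h3 2
  have p1 : 0 ≤ u * ((1 - r) * s) := mul_nonneg hu0 (mul_nonneg (by linarith) hs0.le)
  have p2 : 0 ≤ (1 - x) * (u + 1) := mul_nonneg (by linarith) (by linarith)
  have h6 : (u * ((1 - r) * s)) * ((1 - x) * (u + 1)) ≤ (hh x - hh s) * hh x :=
    mul_le_mul h1 h2 p2 (le_trans p1 h1)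
  -- 9 s (1-r) W^2 ≤ 10 u (u+1) (1-x)
  have h7 : 9 * s * ((1 - r) * W ^ 2) ≤ 10 * (u * (u + 1) * (1 - x)) := by
    have : r * (9 * s * ((1 - r) * W ^ 2)) ≤ r * (10 * (u * (u + 1) * (1 - x))) := by
      calc r * (9 * s * ((1 - r) * W ^ 2)) = 9 * x * ((1 - r) * W ^ 2) := by rw [hx]; ring
        _ ≤ 10 * r * (u * (u + 1) * (1 - x)) := hK
        _ = r * (10 * (u * (u + 1) * (1 - x))) := by ring
    exact le_of_mul_le_mul_left this hr0
  calc 9 * ((hh r) ^ 2 * s ^ 2) ≤ 9 * (((1 - r) * W) ^ 2 * s ^ 2) := by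
        apply mul_le_mul_of_nonneg_left _ (by norm_num)
        exact mul_le_mul_of_nonneg_right h5 (sq_nonneg s)
    _ = ((1 - r) * s) * (9 * s * ((1 - r) * W ^ 2)) := by ring
    _ ≤ ((1 - r) * s) * (10 * (u * (u + 1) * (1 - x))) :=
        mul_le_mul_of_nonneg_left h7 (mul_nonneg (by linarith) hs0.le)
    _ = 10 * ((u * ((1 - r) * s)) * ((1 - x) * (u + 1))) := by ring
    _ ≤ 10 * ((hh x - hh s) * hh x) := by linarith

end Vale.Agent.P322
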