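import Vale.Agent.P322.SCHighC

/-!
Scheme C, high range `r ∈ [9/10, 1)`: the case `s ≥ r`, and the final statement.
-/

namespace Vale.Agent.P322

open Real

theorem neg_log_bounds {y : ℝ} (hy0 : 0 ≤ y) (hy1 : y ≤ 1 / 10) :
    y + y ^ 2 / 2 - 10 / 9 * y ^ 3 ≤ - Real.log (1 - y) ∧
      - Real.log (1 - y) ≤ y + y ^ 2 / 2 + 10 / 9 * y ^ 3 := by
  have habs : |y| < 1 := by rw [abs_of_nonneg hy0]; linarith
  have h := Real.abs_log_sub_add_sum_range_le habs 2
  simp only [Finset.sum_range_succ, Finset.sum_range_zero] at h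
  rw [abs_of_nonneg hy0] at h
  norm_num at h
  have h2 : y ^ 3 / (1 - y) ≤ 10 / 9 * y ^ 3 := by
    rw [div_le_iff₀ (by linarith)]
    have : 0 ≤ y ^ 3 := by positivity
    nlinarith
  have h3 := abs_le.mp (le_trans h h2)
  constructor <;> linarith [h3.1, h3.2]

/-- (H1) at `s = r`. -/
theorem high_diag {r : ℝ} (hr : 9 / 10 ≤ r) (hr1 : r < 1) : 25 * hh r ≤ 16 * hh (r ^ 2) := by
  have hr0 : 0 < r := by linarith
  have hr2 : r ^ 2 < 1 := by nlinarith
  set dl := 1 - r with hdl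
  have hd0 : 0 < dl := by linarith
  have hd1 : dl ≤ 1 / 10 := by linarith
  have hrd : r = 1 - dl := by rw [hdl]; ring
  set u := dpsi (r ^ 2) with hu
  have hu1 : 2.25 ≤ u := by
    have := dpsi_mono (x := 81 / 100) (y := r ^ 2) (by norm_num) (by nlinarith) hr2
    linarith [dpsi_num2]
  have hgap := dpsi_sq_gap hr0 hr1
  rw [← hu] at hgap
  have hl2 := log_two_hi
  rw [hh_eq_dpsi r, hh_eq_dpsi (r ^ 2), ← hu]
  -- the two logarithms
  set y1 := dl / 2 with hy1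
  set y2 := dl * (2 - dl) / 2 with hy2
  have b1 := (neg_log_bounds (y := y1) (by positivity) (by rw [hy1]; linarith)).2
  have b2 := (neg_log_bounds (y := y2) (by rw [hy2]; nlinarith) (by rw [hy2]; nlinarith)).1
  have e1 : Real.log 2 - Real.log (1 + r) = - Real.log (1 - y1) := by
    have : 1 - y1 = (1 + r) / 2 := by rw [hy1, hrd]; ring
    rw [this, Real.log_div (by linarith) (by norm_num)]
    ring
  have e2 : Real.log 2 - Real.log (1 + r ^ 2) = - Real.log (1 - y2) := by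
    have : 1 - y2 = (1 + r ^ 2) / 2 := by rw [hy2, hrd]; ring
    rw [this, Real.log_div (by positivity) (by norm_num)]
    ring
  rw [e1, e2]
  have e3 : 1 - r ^ 2 = dl * (2 - dl) := by rw [hrd]; ring
  rw [e3]
  have c1 : dl * dpsi r ≤ dl * (u + 0.6931471808) :=
    mul_le_mul_of_nonneg_left (by linarith) hd0.le
  -- reduce to a polynomial inequality
  have key : 25 * (dl * (u + 0.6931471808) + 2 * (y1 + y1 ^ 2 / 2 + 10 / 9 * y1 ^ 3))
      ≤ 16 * (dl * (2 - dl) * u + 2 * (y2 + y2 ^ 2 / 2 - 10 / 9 * y2 ^ 3)) := by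
    have hy2le : y2 ≤ dl := by rw [hy2]; nlinarith
    have hy20 : 0 ≤ y2 := by rw [hy2]; nlinarith
    have hy23 : y2 ^ 3 ≤ dl ^ 3 := pow_le_pow_left₀ hy20 hy2le 3
    have t1 : dl * ((7 - 16 * dl) * u) ≥ dl * (5.4 * 2.25) := by
      apply mul_le_mul_of_nonneg_left _ hd0.le
      apply mul_le_mul (by linarith) hu1 (by norm_num) (by linarith)
    have t2 : dl ^ 2 ≤ dl * (1 / 10) := by nlinarith
    have t3 : dl ^ 3 ≤ dl * (1 / 100) := by nlinarith
    have t4 : 0 ≤ dl ^ 4 := by positivity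
    have ey2 : 32 * y2 + 16 * y2 ^ 2 = 32 * dl - 16 * dl ^ 3 + 4 * dl ^ 4 := by
      rw [hy2]; ring
    have ey1 : 50 * y1 + 25 * y1 ^ 2 + 500 / 9 * y1 ^ 3
        = 25 * dl + 25 / 4 * dl ^ 2 + 125 / 18 * dl ^ 3 := by
      rw [hy1]; ring
    nlinarith
  linarith

/-- (H1): the side condition holds for `s ≥ r`. -/
theorem high_up {r s : ℝ} (hr : 9 / 10 ≤ r) (hr1 : r < 1) (hrs : r ≤ s) (hs1 : s < 1) :
    25 * hh s ≤ 16 * hh (r * s) := by
  have hr0 : 0 < r := by linarith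
  have hs0 : 0 < s := by linarith
  have hd := high_diag hr hr1
  have hx0 : 0 < r * s := mul_pos hr0 hs0
  have hx1 : r * s < 1 := by nlinarith
  have hxr : r * s ≤ r := by nlinarith
  -- psi2 s - psi2 r ≥ dpsi r (s - r)
  have t1 := psi2_tangent_dpsi (x := r) (y := s) (by rw [abs_of_pos hr0]; exact hr1)
    (by rw [abs_of_pos hs0]; exact hs1.le)
  -- psi2 (r^2) ≥ psi2 (r s) + dpsi (r s) (r^2 - r s)
  have t2 := psi2_tangent_dpsi (x := r * s) (y := r ^ 2) (by rw [abs_of_pos hx0]; exact hx1)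
    (by rw [abs_of_pos (by positivity)]; nlinarith)
  have m1 : dpsi (r * s) ≤ dpsi r := dpsi_mono (by linarith) hxr hr1
  have m0 : 0 ≤ dpsi (r * s) := dpsi_nonneg hx0.le hx1
  have m2 : psi2 (r ^ 2) ≤ psi2 (r * s) := psi2_mono (by positivity) (by nlinarith) hx1.le
  -- psi2 (r s) - psi2 (r^2) ≤ dpsi (r s) * r * (s - r) ≤ dpsi r (s - r)
  have t3 : dpsi (r * s) * (r * (s - r)) ≤ dpsi r * (s - r) := by
    have a1 : r * (s - r) ≤ s - r := by nlinarith
    have a2 : 0 ≤ s - r := by linarith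
    calc dpsi (r * s) * (r * (s - r)) ≤ dpsi (r * s) * (s - r) :=
          mul_le_mul_of_nonneg_left a1 m0
      _ ≤ dpsi r * (s - r) := mul_le_mul_of_nonneg_right m1 a2
  have t4 : psi2 (r * s) - psi2 (r ^ 2) ≤ psi2 s - psi2 r := by
    have : dpsi (r * s) * (r ^ 2 - r * s) = - (dpsi (r * s) * (r * (s - r))) := by ring
    rw [this] at t2
    linarith
  unfold hh at hd ⊢
  linarith

/-- (QF) with side condition. -/
def QFs (r : ℝ) : Prop :=
  ∀ s : ℝ, 0 < s → s < 1 →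
    25 * hh s ≤ 16 * hh (r * s) ∨
      9 * ((hh r) ^ 2 * s ^ 2) ≤ 10 * ((hh (r * s) - hh s) * hh (r * s))

theorem QFs_of_QF {r : ℝ} (h : QF r) : QFs r := fun s h0 h1 => Or.inr (h s h0 h1)

theorem QFs_high {r : ℝ} (hr : 9 / 10 ≤ r) (hr1 : r < 1) : QFs r := by
  intro s hs0 hs1
  rcases le_total s r with h | h
  · exact Or.inr (high_low hr hr1 hs0 h)
  · exact Or.inl (high_up hr hr1 h hs1)

end Vale.Agent.P322
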