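import Vale.Agent.P322.SCDefs

/-!
Invariance of `mean`, `Tn`, `HH`, `mu` under a permutation of the coordinates.
Sketch: `x ↦ x ∘ σ` is a bijection of the cube (`Equiv.sum_comp` with
`σ.arrowCongr (Equiv.refl _)` or `Equiv.piCongrLeft`), `wn n ε (z ∘ σ) = wn n ε z`
(`Equiv.prod_comp`), `(y * z) ∘ σ = (y ∘ σ) * (z ∘ σ)` (rfl).
-/

namespace Vale.Agent.P322

variable {n : ℕ}

theorem sum_perm (σ : Equiv.Perm (Fin n)) (F : Cube n → ℝ) :
    ∑ x : Cube n, F (x ∘ σ) = ∑ x : Cube n, F x := by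
  have h := (Equiv.arrowCongr σ.symm (Equiv.refl ℤˣ)).sum_comp F
  rw [← h]
  refine Finset.sum_congr rfl (fun x _ => ?_)
  congr 1

theorem mean_perm (σ : Equiv.Perm (Fin n)) (F : Cube n → ℝ) :
    mean (fun x => F (x ∘ σ)) = mean F := by
  unfold mean
  rw [sum_perm σ F]

theorem wn_perm (ε : ℝ) (σ : Equiv.Perm (Fin n)) (z : Cube n) : wn n ε (z ∘ σ) = wn n ε z := by
  unfold wn
  exact Equiv.prod_comp σ (fun i => wt ε (z i))

theorem Tn_perm (ε : ℝ) (σ : Equiv.Perm (Fin n)) (G : Cube n → ℝ) (y : Cube n) :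
    Tn ε (fun x => G (x ∘ σ)) y = Tn ε G (y ∘ σ) := by
  unfold Tn
  rw [← sum_perm σ (fun z => wn n ε z * G (y ∘ σ * z))]
  refine Finset.sum_congr rfl (fun z _ => ?_)
  rw [wn_perm]
  rfl

theorem mu_perm (σ : Equiv.Perm (Fin n)) (f : Cube n → ℤˣ) : mu (fun x => f (x ∘ σ)) = mu f := by
  unfold mu
  exact mean_perm σ (fun x => sg (f x))

theorem HH_perm (ε : ℝ) (σ : Equiv.Perm (Fin n)) (f : Cube n → ℤˣ) :
    HH ε (fun x => f (x ∘ σ)) = HH ε f := by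
  unfold HH
  rw [← mean_perm σ (fun y => hh (Tn ε (fun x => sg (f x)) y))]
  congr 1
  funext y
  rw [← Tn_perm ε σ (fun x => sg (f x)) y]

theorem fhat_perm (σ : Equiv.Perm (Fin n)) (f : Cube n → ℤˣ) (i : Fin n) :
    fhat (fun x => f (x ∘ σ)) {σ i} = fhat f {i} := by
  unfold fhat
  rw [← mean_perm σ (fun x => sg (f x) * chi {i} x)]
  simp [chi]

end Vale.Agent.P322
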