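import Vale.Agent.P322.SCPeel
import Vale.Agent.P322.SCPerm
import Vale.Agent.P322.SCBest

/-!
Scheme C: the induction theorem (potential depending on the mean only; the peeled coordinate is the
best one, so the step is only needed for `3 d^2 ≤ 1 - m^2`), and the reduction of the
Courtade-Kumar inequality to the existence of a potential.
-/

namespace Vale.Agent.P322

open Real

variable {n : ℕ}

theorem mu_zero_dim (f : Cube 0 → ℤˣ) : mu f = sg (f default) := by
  unfold mu
  rw [mean_zero_dim]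

theorem HH_zero_dim (ε : ℝ) (f : Cube 0 → ℤˣ) : HH ε f = 0 := by
  unfold HH
  rw [mean_zero_dim, Tn_zero_dim, hh_sg]

theorem Lam_sg {Lam : ℝ → ℝ} (hb1 : Lam 1 ≤ 0) (hb2 : Lam (-1) ≤ 0) (u : ℤˣ) : Lam (sg u) ≤ 0 := by
  rcases sg_cases u with h | h <;> rw [h]
  · simpa using hb1
  · simpa using hb2

/-- functions of one variable -/
theorem sc_one (Lam : ℝ → ℝ) (ε : ℝ) (hb1 : Lam 1 ≤ 0) (hb2 : Lam (-1) ≤ 0)
    (hb0 : Lam 0 ≤ hh (1 - 2 * ε)) (f : Cube 1 → ℤˣ) : Lam (mu f) ≤ HH ε f := by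
  rw [HH_cons, mean_zero_dim, mu_cons, mu_zero_dim, mu_zero_dim]
  simp only [Tn_zero_dim]
  rcases sg_cases (slice f 1 default) with h | h <;>
    rcases sg_cases (slice f (-1) default) with h' | h' <;> rw [h, h']
  · simp only [sg_one]
    norm_num
    rw [hh_one]
    exact hb1
  · simp only [sg_one, sg_neg_one]
    norm_num
    have e2 : hh (2 * ε - 1) = hh (1 - 2 * ε) := by
      rw [← hh_neg]; congr 1; ring
    rw [e2]; linarith
  · simp only [sg_one, sg_neg_one]
    norm_num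
    have e2 : hh (2 * ε - 1) = hh (1 - 2 * ε) := by
      rw [← hh_neg]; congr 1; ring
    rw [e2]; linarith
  · simp only [sg_neg_one]
    norm_num
    rw [hh_neg, hh_one]
    exact hb2

/-- The induction theorem of scheme C. -/
theorem sc_induction (Lam : ℝ → ℝ) {ε : ℝ} (h0 : 0 ≤ ε) (h1 : ε ≤ 1 / 2)
    (hb1 : Lam 1 ≤ 0) (hb2 : Lam (-1) ≤ 0) (hb0 : Lam 0 ≤ hh (1 - 2 * ε))
    (hstep : ∀ m d, |m| + |d| ≤ 1 → 3 * d ^ 2 ≤ 1 - m ^ 2 → SCStep (1 - 2 * ε) Lam m d) :
    ∀ (n : ℕ) (f : Cube n → ℤˣ), Lam (mu f) ≤ HH ε f := by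
  have key : ∀ (n : ℕ) (f : Cube (n + 1) → ℤˣ), Lam (mu f) ≤ HH ε f := by
    intro n
    induction n with
    | zero => exact sc_one Lam ε hb1 hb2 hb0
    | succ k ih =>
      intro f
      obtain ⟨i, hi⟩ := best_coord f
      set σ : Equiv.Perm (Fin (k + 2)) := Equiv.swap 0 i with hσ
      set g : Cube (k + 2) → ℤˣ := fun x => f (x ∘ σ) with hg
      have hmu : mu g = mu f := mu_perm σ f
      have hHH : HH ε g = HH ε f := HH_perm ε σ f
      have hd : fhat g {0} = fhat f {i} := by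
        have := fhat_perm σ f i
        rwa [hσ, Equiv.swap_apply_right] at this
      rw [← hmu, ← hHH]
      apply sc_peel Lam h0 h1 g (ih _) (ih _)
      apply hstep
      · apply abs_add_abs_le
        · have : mu g + fhat g {0} = mu (slice g 1) := by rw [mu_cons, fhat_zero]; ring
          rw [this]
          exact abs_mu_le _
        · have : mu g - fhat g {0} = mu (slice g (-1)) := by rw [mu_cons, fhat_zero]; ring
          rw [this]
          exact abs_mu_le _
      · rw [hd, hmu]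
        exact hi
  intro n
  cases n with
  | zero =>
    intro f
    rw [mu_zero_dim, HH_zero_dim]
    exact Lam_sg hb1 hb2 _
  | succ k => exact key k

/-- Reduction of the Courtade-Kumar inequality at noise `ε` to a potential for scheme C. -/
theorem ck_of_potential (Lam : ℝ → ℝ) {ε : ℝ} (h0 : 0 ≤ ε) (h1 : ε ≤ 1 / 2)
    (hb1 : Lam 1 ≤ 0) (hb2 : Lam (-1) ≤ 0) (hb0 : Lam 0 ≤ hh (1 - 2 * ε))
    (hstep : ∀ m d, |m| + |d| ≤ 1 → 3 * d ^ 2 ≤ 1 - m ^ 2 → SCStep (1 - 2 * ε) Lam m d)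
    (hfinal : ∀ m, |m| ≤ 1 → hh m - psi2 (1 - 2 * ε) ≤ Lam m)
    (f : Cube n → ℤˣ) :
    mutualInfo (law n ε) (fun ω => f ω.1) (fun ω => noisy ω) ≤ 1 - h2 ε := by
  have hl2 : 0 < Real.log 2 := by positivity
  rw [mutualInfo_eq_E2 f h0 (by linarith), one_sub_h2 ε h0 h1]
  have h := sc_induction Lam h0 h1 hb1 hb2 hb0 hstep n f
  have hf := hfinal _ (abs_mu_le f)
  have hE : E2 (Tn ε (fun x => sg (f x))) = hh (mu f) - HH ε f := by
    unfold E2 HH mu
    have e : (fun y => hh (Tn ε (fun x => sg (f x)) y))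
        = fun y => psi2 1 - psi2 (Tn ε (fun x => sg (f x)) y) := by
      funext y; rfl
    rw [e, mean_sub, mean_const, mean_Tn]
    unfold hh
    ring
  gcongr
  rw [hE]
  linarith

end Vale.Agent.P322
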