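import Vale.Agent.P322.SCJensenA

/-!
(J1): Jensen for `J P D = K2 P D - K2 P (r D)` on the diamond.

Sketch.  By `K2_eq` (file BMIdent), for `|P| < 1`, `|D| ≤ 1 - |P|`:
`J P D = (1+P)/2 * phi (D/(1+P)) + (1-P)/2 * phi (D/(1-P))`, `phi t = psi2 t - psi2 (r t)`.
`phi` is convex on `[-1,1]` (`phi'' = 2/(1-t^2) - 2 r^2/(1-r^2 t^2) ≥ 0` on the open interval,
continuity from `psi2_continuous`; or the power series `psi2_hasSum`).  Perspective Jensen: for
weights `w y = 1 ± P y ≥ 0` with `|D y| ≤ w y`: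
`mean (w * phi (D / w)) ≥ mean w * phi (mean D / mean w)` (`ConvexOn.map_sum_le` with weights
`w y / sum w`; terms with `w y = 0` have `D y = 0`; if `mean w = 0` all terms vanish).
If `|P y| = 1` then `D y = 0` and `J = 0`.
-/

namespace Vale.Agent.P322

open Real

variable {n : ℕ}

/-- `phi t = psi2 t - psi2 (r t)` is convex on `[-1,1]`. -/
theorem phi_convex {r : ℝ} (hr0 : 0 ≤ r) (hr1 : r ≤ 1) :
    ConvexOn ℝ (Set.Icc (-1 : ℝ) 1) (fun t => psi2 t - psi2 (r * t)) :=
  phi_convex' hr0 hr1

/-- perspective Jensen on the cube -/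
theorem persp_jensen {φ : ℝ → ℝ} (hφ : ConvexOn ℝ (Set.Icc (-1 : ℝ) 1) φ)
    (w D : Cube n → ℝ) (hw : ∀ x, 0 ≤ w x) (hD : ∀ x, |D x| ≤ w x) :
    mean w * φ (mean D / mean w) ≤ mean (fun x => w x * φ (D x / w x)) := by
  by_cases h0 : mean w = 0
  · have hz : ∀ x, w x = 0 := fun x => mean_eq_zero_imp hw h0 x
    have : (fun x => w x * φ (D x / w x)) = fun _ : Cube n => (0 : ℝ) := by
      funext x; rw [hz x, zero_mul]
    rw [h0, zero_mul, this, mean_const]
  · have hpow : (0 : ℝ) < (1 / 2) ^ n := by positivity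
    set S : ℝ := ∑ x, w x with hS
    have hmw : mean w = (1 / 2) ^ n * S := rfl
    have hS0 : S ≠ 0 := by
      intro h; apply h0; rw [hmw, h, mul_zero]
    have hSnn : 0 ≤ S := Finset.sum_nonneg (fun x _ => hw x)
    have hSpos : 0 < S := lt_of_le_of_ne hSnn (Ne.symm hS0)
    have hmem : ∀ x ∈ (Finset.univ : Finset (Cube n)), D x / w x ∈ Set.Icc (-1 : ℝ) 1 := by
      intro x _
      rcases (hw x).eq_or_lt with h | h
      · rw [← h, div_zero]; constructor <;> norm_num
      · have := abs_le.mp (hD x)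
        constructor
        · rw [le_div_iff₀ h]; linarith [this.1]
        · rw [div_le_iff₀ h]; linarith [this.2]
    have hJ := hφ.map_sum_le (t := Finset.univ) (w := fun x => w x / S) (p := fun x => D x / w x)
      (fun x _ => div_nonneg (hw x) hSnn)
      (by rw [← Finset.sum_div, div_self hS0]) hmem
    have hpt : ∑ x, (w x / S) • (D x / w x) = mean D / mean w := by
      have h1 : ∀ x, (w x / S) • (D x / w x) = D x / S := by
        intro x
        rw [smul_eq_mul]
        rcases (hw x).eq_or_lt with h | h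
        · have hd : D x = 0 := by
            have := hD x; rw [← h] at this
            exact abs_eq_zero.mp (le_antisymm this (abs_nonneg _))
          rw [hd]; simp
        · field_simp
      simp only [h1]
      rw [← Finset.sum_div, hmw]
      unfold mean
      field_simp
    rw [hpt] at hJ
    have hmul := mul_le_mul_of_nonneg_left hJ (mul_pos hpow hSpos).le
    rw [← hmw] at hmul
    refine hmul.trans (le_of_eq ?_)
    rw [hmw]
    unfold mean
    rw [mul_assoc, Finset.mul_sum]
    congr 1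
    refine Finset.sum_congr rfl fun x _ => ?_
    rw [smul_eq_mul]
    field_simp

/-- `J` in perspective form, on the whole diamond -/
theorem J_eq {r P D : ℝ} (hr0 : 0 ≤ r) (hr1 : r ≤ 1) (h : |P| + |D| ≤ 1) :
    K2 P D - K2 P (r * D)
      = ((1 + P) * (psi2 (D / (1 + P)) - psi2 (r * (D / (1 + P))))
        + (1 - P) * (psi2 (D / (1 - P)) - psi2 (r * (D / (1 - P))))) / 2 := by
  by_cases hP : |P| < 1
  · have hs : |D| ≤ 1 - |P| := by linarith
    have hs' : |r * D| ≤ 1 - |P| := by
      rw [abs_mul, abs_of_nonneg hr0]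
      have : r * |D| ≤ 1 * |D| := mul_le_mul_of_nonneg_right hr1 (abs_nonneg _)
      linarith
    rw [K2_eq hP hs, K2_eq hP hs', mul_div_assoc, mul_div_assoc]
    ring
  · have hD : D = 0 := by
      have : |D| ≤ 0 := by linarith [not_lt.mp hP]
      exact abs_eq_zero.mp (le_antisymm this (abs_nonneg _))
    subst hD
    simp

/-- (J1) -/
theorem J_jensen {r : ℝ} (hr0 : 0 ≤ r) (hr1 : r ≤ 1) (P D : Cube n → ℝ)
    (hPD : ∀ x, |P x| + |D x| ≤ 1) :
    K2 (mean P) (mean D) - K2 (mean P) (r * mean D)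
      ≤ mean (fun x => K2 (P x) (D x) - K2 (P x) (r * D x)) := by
  have hφ := phi_convex hr0 hr1
  have hw1 : ∀ x, 0 ≤ 1 + P x := fun x => by
    have := hPD x; linarith [neg_abs_le (P x), abs_nonneg (D x)]
  have hw2 : ∀ x, 0 ≤ 1 - P x := fun x => by
    have := hPD x; linarith [le_abs_self (P x), abs_nonneg (D x)]
  have hD1 : ∀ x, |D x| ≤ 1 + P x := fun x => by
    have := hPD x; linarith [neg_abs_le (P x)]
  have hD2 : ∀ x, |D x| ≤ 1 - P x := fun x => by
    have := hPD x; linarith [le_abs_self (P x)]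
  have m1 : mean (fun x => 1 + P x) = 1 + mean P := by
    rw [mean_add, mean_const]
  have m2 : mean (fun x => 1 - P x) = 1 - mean P := by
    rw [mean_sub, mean_const]
  have hmD := abs_mean_le_mean_abs D
  have b1 : mean (fun x => |D x|) ≤ 1 + mean P := by
    rw [← m1]; exact mean_le_mean hD1
  have b2 : mean (fun x => |D x|) ≤ 1 - mean P := by
    rw [← m2]; exact mean_le_mean hD2
  have hdiam : |mean P| + |mean D| ≤ 1 := by
    rcases abs_cases (mean P) with ⟨h, _⟩ | ⟨h, _⟩ <;> rw [h] <;> linarith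
  rw [J_eq hr0 hr1 hdiam]
  have j1 := persp_jensen hφ (fun x => 1 + P x) D hw1 hD1
  have j2 := persp_jensen hφ (fun x => 1 - P x) D hw2 hD2
  rw [m1] at j1
  rw [m2] at j2
  have hR : mean (fun x => K2 (P x) (D x) - K2 (P x) (r * D x))
      = (mean (fun x => (1 + P x) * (psi2 (D x / (1 + P x)) - psi2 (r * (D x / (1 + P x)))))
        + mean (fun x => (1 - P x) * (psi2 (D x / (1 - P x)) - psi2 (r * (D x / (1 - P x)))))) / 2 := by
    rw [← mean_add]
    have : (fun x => K2 (P x) (D x) - K2 (P x) (r * D x)) = fun x => (1 / 2 : ℝ) *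
        ((1 + P x) * (psi2 (D x / (1 + P x)) - psi2 (r * (D x / (1 + P x))))
        + (1 - P x) * (psi2 (D x / (1 - P x)) - psi2 (r * (D x / (1 - P x))))) := by
      funext x
      rw [J_eq hr0 hr1 (hPD x)]
      ring
    rw [this, mean_mul_left]
    ring
  rw [hR]
  linarith

end Vale.Agent.P322
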