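import Vale.Agent.P322.SCInd
import Vale.Agent.P322.DCMain

/-!
Scheme C, middle range: auxiliary facts that do not depend on the potential.

Hints.  `allowed_lower`: if `m ≥ 1/2` then `1 - m^2 = (1-m)(1+m) ≥ 3/2 (1-m) ≥ 3/2 d`; if `m < 1/2` then
`v = 1 - m^2 ≥ 3/4` and `(3/2 d)^2 = 9/4 d^2 ≤ 3/4 v ≤ v^2` (`abs_le_of_sq_le_sq` / `pow_le_pow_left₀`).
`K2_scale_le`: `K2_eq` for `d` and for `r d` and `psi2_mul_le` (the case `|m| = 1` forces `d = 0`, `K2_zero`).
`K2_quad_lower`: `K2_lower'` and `sq_le_psi2` at `d / (1 - m^2)` (`abs_le_c`).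
`step_of_ray`: `dcB_mul`, `dcA_pos`: `L = (d/s) hh(r s) = (d/s)(A hh s + B s) ≤ A x + B d`.
`SCStep_symm`: the average, `K2 m d` and `|d|` do not change under `d -> -d`; under `m -> -m` use `hev`,
`psi2_neg` (unfold `K2`).
-/

namespace Vale.Agent.P322

open Real

/-- on the allowed region `1 - m^2 ≥ 3/2 d` -/
theorem allowed_lower {m d : ℝ} (hm0 : 0 ≤ m) (hd0 : 0 ≤ d) (hd : m + d ≤ 1)
    (h3 : 3 * d ^ 2 ≤ 1 - m ^ 2) : 3 / 2 * d ≤ 1 - m ^ 2 := by
  by_cases hm : 1 / 2 ≤ m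
  · nlinarith
  · have hm := not_le.mp hm
    have hv : 3 / 4 ≤ 1 - m ^ 2 := by nlinarith
    have h4 : (3 / 2 * d) ^ 2 ≤ (1 - m ^ 2) ^ 2 := by nlinarith
    exact (le_abs_self _).trans (abs_le_of_sq_le_sq h4 (by linarith))

/-- `K2 m (r d) ≤ r^2 K2 m d` -/
theorem K2_scale_le {m d r : ℝ} (h : |m| + |d| ≤ 1) (hr : |r| ≤ 1) :
    K2 m (r * d) ≤ r ^ 2 * K2 m d := by
  by_cases hP : |m| < 1
  · have hP' := abs_lt.mp hP
    have hx1 : 0 < 1 + m := by linarith
    have hx2 : 0 < 1 - m := by linarith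
    have hrd : |r * d| ≤ |d| := by
      rw [abs_mul]
      exact mul_le_of_le_one_left (abs_nonneg d) hr
    rw [K2_eq hP (by linarith), K2_eq hP (by linarith)]
    have a1 : |d / (1 + m)| ≤ 1 := by
      rw [abs_div, abs_of_pos hx1, div_le_one hx1]
      linarith [neg_abs_le m]
    have a2 : |d / (1 - m)| ≤ 1 := by
      rw [abs_div, abs_of_pos hx2, div_le_one hx2]
      linarith [le_abs_self m]
    have b1 := psi2_mul_le hr a1
    have b2 := psi2_mul_le hr a2
    rw [mul_div_assoc, mul_div_assoc]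
    nlinarith
  · have hD : d = 0 := by
      have : |d| ≤ 0 := by linarith [not_lt.mp hP]
      exact abs_eq_zero.mp (le_antisymm this (abs_nonneg d))
    subst hD
    simp [K2_zero]

/-- `d^2 ≤ (1 - m^2) K2 m d` -/
theorem K2_quad_lower {m d : ℝ} (h : |m| + |d| ≤ 1) : d ^ 2 ≤ (1 - m ^ 2) * K2 m d := by
  have h1 := K2_lower' h
  have h2 := abs_le_c h
  by_cases hc : 1 - m ^ 2 = 0
  · have hD : d = 0 := by
      have : |d| ≤ 0 := by linarith
      exact abs_eq_zero.mp (le_antisymm this (abs_nonneg d))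
    subst hD
    simp [K2_zero]
  · have hc0 : 0 < 1 - m ^ 2 := lt_of_le_of_ne ((abs_nonneg d).trans h2) (Ne.symm hc)
    have a1 : |d / (1 - m ^ 2)| ≤ 1 := by
      rw [abs_div, abs_of_pos hc0, div_le_one hc0]
      exact h2
    have h3 := sq_le_psi2 a1
    have h4 : d ^ 2 = (1 - m ^ 2) * ((1 - m ^ 2) * (d / (1 - m ^ 2)) ^ 2) := by
      field_simp
    rw [h4]
    apply mul_le_mul_of_nonneg_left _ hc0.le
    exact (mul_le_mul_of_nonneg_left h3 hc0.le).trans h1

/-- the window lemma: a ray `s` with `s Lam(m) = d hh(r s)` and `d hh(s) ≤ s x` gives a DC certificate -/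
theorem step_of_ray {r s m d L x : ℝ} (hr0 : 0 < r) (hr1 : r < 1) (hs0 : 0 < s) (hs1 : s < 1)
    (hd0 : 0 < d) (h1 : s * L = d * hh (r * s)) (h2 : d * hh s ≤ s * x) :
    L ≤ dcA r s * x + dcB r s * d := by
  have hA := dcA_pos hr0 hr1 hs0 hs1
  have hB := dcB_mul hr0 hr1 hs0 hs1
  have h3 : s * L ≤ s * (dcA r s * x + dcB r s * d) := by
    have e : s * (dcA r s * x + dcB r s * d) = dcA r s * (s * x) + d * (dcB r s * s) := by ring
    rw [e, hB, h1]
    nlinarith [mul_le_mul_of_nonneg_left h2 hA.le]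
  exact le_of_mul_le_mul_left h3 hs0

private theorem K2_neg_right (m d : ℝ) : K2 m (-d) = K2 m d := by
  unfold K2
  rw [sub_neg_eq_add, ← sub_eq_add_neg]
  ring

private theorem K2_neg_left (m d : ℝ) : K2 (-m) d = K2 m d := by
  unfold K2
  have e1 : -m + d = -(m - d) := by ring
  have e2 : -m - d = -(m + d) := by ring
  rw [e1, e2, psi2_neg, psi2_neg, psi2_neg]
  ring

private theorem SCStep_neg_d {r : ℝ} {Lam : ℝ → ℝ} {m d : ℝ}
    (h : SCStep r Lam m (-d)) : SCStep r Lam m d := by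
  unfold SCStep at h ⊢
  have e1 : m + -d = m - d := by ring
  have e2 : m - -d = m + d := by ring
  have e3 : r * -d = -(r * d) := by ring
  rw [e1, e2, e3, abs_neg, K2_neg_right, K2_neg_right, add_comm (Lam (m - d))] at h
  exact h

private theorem SCStep_neg_m {r : ℝ} {Lam : ℝ → ℝ} (hev : ∀ m, Lam (-m) = Lam m) {m d : ℝ}
    (h : SCStep r Lam (-m) d) : SCStep r Lam m d := by
  unfold SCStep at h ⊢
  have e1 : -m + d = -(m - d) := by ring
  have e2 : -m - d = -(m + d) := by ring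
  rw [e1, e2, hev, hev, hev, K2_neg_left, K2_neg_left, add_comm (Lam (m - d))] at h
  exact h

/-- symmetry of the step in `m` and in `d` -/
theorem SCStep_symm {r : ℝ} {Lam : ℝ → ℝ} (hev : ∀ m, Lam (-m) = Lam m) {m d : ℝ}
    (h : SCStep r Lam |m| |d|) : SCStep r Lam m d := by
  have h1 : SCStep r Lam |m| d := by
    rcases abs_choice d with hd | hd
    · rwa [hd] at h
    · rw [hd] at h
      exact SCStep_neg_d h
  rcases abs_choice m with hm | hm
  · rwa [hm] at h1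
  · rw [hm] at h1
    exact SCStep_neg_m hev h1

end Vale.Agent.P322
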