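import Vale.Agent.P322.SCMidSer

/-!
Scheme C, middle range: inequality (I).
-/

namespace Vale.Agent.P322

open Real

theorem cast_c0lo : ((c0lo ℚ : ℚ) : ℝ) = c0lo ℝ := by
  unfold c0lo; push_cast; ring

theorem cast_c0hi : ((c0hi ℚ : ℚ) : ℝ) = c0hi ℝ := by
  unfold c0hi; push_cast; ring

theorem cast_gx (i : ℕ) : ((gx ℚ i : ℚ) : ℝ) = gx ℝ i := by
  unfold gx; push_cast; ring

theorem cast_gt (j : ℕ) : ((gt ℚ j : ℚ) : ℝ) = gt ℝ j := by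
  unfold gt; push_cast; ring

theorem cast_Iw (j : ℕ) : ((Iw ℚ j : ℚ) : ℝ) = Iw ℝ j := by
  unfold Iw; push_cast; rw [cast_SS, cast_TT, cast_gt]

theorem cast_If1 (i j : ℕ) : ((If1 ℚ i j : ℚ) : ℝ) = If1 ℝ i j := by
  unfold If1; push_cast; rw [cast_SP, cast_Iw, cast_gt, cast_gx, cast_gx]

theorem cast_If2 (i j : ℕ) : ((If2 ℚ i j : ℚ) : ℝ) = If2 ℝ i j := by
  unfold If2; push_cast; rw [cast_c0lo, cast_Iw, cast_gt, cast_gx]

theorem cast_IHu (j : ℕ) : ((IHu ℚ j : ℚ) : ℝ) = IHu ℝ j := by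
  unfold IHu; push_cast; rw [cast_c0hi, cast_SS, cast_gt]

theorem cast_IHl (j : ℕ) : ((IHl ℚ j : ℚ) : ℝ) = IHl ℝ j := by
  unfold IHl; push_cast; rw [cast_c0lo, cast_Iw, cast_gt]

theorem cast_Iau (i j : ℕ) : ((Iau ℚ i j : ℚ) : ℝ) = Iau ℝ i j := by
  unfold Iau; push_cast; rw [cast_c0hi, cast_SS]; push_cast; rw [cast_gt, cast_gx]

/-- the cell of `t = r^2` -/
theorem exists_cell_t {r : ℝ} (hr : 2 / 3 ≤ r) (hr' : r ≤ 9 / 10) :
    ∃ j < 149, gt ℝ j ≤ r ^ 2 ∧ r ^ 2 ≤ gt ℝ (j + 1) := by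
  have h1 : (4 : ℝ) / 9 ≤ r ^ 2 := by nlinarith
  have h2 : r ^ 2 ≤ 81 / 100 := by nlinarith
  obtain ⟨j, hj, ha, hb⟩ := exists_cell 149 (by norm_num) (x := (400 * r ^ 2 - 176) / 149)
    (by apply div_nonneg <;> linarith) (by rw [div_lt_one (by norm_num)]; linarith)
  refine ⟨j, hj, ?_, ?_⟩
  · unfold gt
    push_cast at ha
    rw [div_le_div_iff_of_pos_right (by norm_num)] at ha
    rw [div_le_iff₀ (by norm_num)]
    linarith
  · unfold gt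
    push_cast at hb ⊢
    rw [div_le_div_iff_of_pos_right (by norm_num)] at hb
    rw [le_div_iff₀ (by norm_num)]
    linarith

/-- the bounds of `hh r` on the cell -/
theorem cell_H {r : ℝ} {j : ℕ} (hr0 : 0 ≤ r) (hj : j < 149) (h1 : gt ℝ j ≤ r ^ 2)
    (h2 : r ^ 2 ≤ gt ℝ (j + 1)) :
    hh r ≤ IHu ℝ j ∧ IHl ℝ j ≤ hh r ∧ 0 ≤ Iw ℝ j ∧
      ∀ s, 0 ≤ s → s ≤ 1 → psi2 (r * s) ≤ gt ℝ (j + 1) * s ^ 2 + Iw ℝ j * s ^ 4 := by
  have ht1 : 0 ≤ gt ℝ j := by unfold gt; positivity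
  have ht2 : 0 ≤ gt ℝ (j + 1) := by unfold gt; positivity
  have ht2' : gt ℝ (j + 1) < 1 := by
    unfold gt
    have : ((j + 1 : ℕ) : ℝ) ≤ 149 := by exact_mod_cast hj
    rw [div_lt_one (by norm_num)]
    linarith
  set t2 := gt ℝ (j + 1) with ht2def
  set r2 := Real.sqrt t2 with hr2def
  have hr2sq : r2 ^ 2 = t2 := Real.sq_sqrt ht2
  have hr20 : 0 ≤ r2 := Real.sqrt_nonneg _
  have hrr2 : r ≤ r2 := Real.le_sqrt_of_sq_le h2
  have hr21 : r2 < 1 := by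
    rw [hr2def, Real.sqrt_lt' (by norm_num)]
    simpa using ht2'
  have hr1 : r < 1 := lt_of_le_of_lt hrr2 hr21
  have habs2 : |r2| < 1 := by rw [abs_of_nonneg hr20]; exact hr21
  have habs : |r| < 1 := by rw [abs_of_nonneg hr0]; exact hr1
  have a1 := psi2_le_SS 8 habs2
  rw [hr2sq] at a1
  have a2 := sq_le_psi2 habs2.le
  rw [hr2sq] at a2
  have a3 := SS_le_psi2 8 habs
  have a4 := SS_mono 8 ht1 h1
  have a5 : psi2 r ≤ psi2 r2 := psi2_mono hr0 hrr2 hr21.le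
  have c1 := c0lo_lt
  have c2 := lt_c0hi
  refine ⟨?_, ?_, ?_, ?_⟩
  · unfold hh IHu
    linarith
  · unfold hh IHl Iw
    linarith
  · unfold Iw
    linarith
  · intro s hs0 hs1
    have b1 : psi2 (r * s) ≤ psi2 (r2 * s) :=
      psi2_mono (mul_nonneg hr0 hs0) (mul_le_mul_of_nonneg_right hrr2 hs0) (by nlinarith)
    have b2 := psi2_mul_le2 hr20 hr21 hs0 hs1
    rw [hr2sq] at b2
    have b3 : (psi2 r2 - t2) * s ^ 4 ≤ Iw ℝ j * s ^ 4 := by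
      apply mul_le_mul_of_nonneg_right _ (by positivity)
      unfold Iw
      linarith
    linarith

/-- the hypothesis of (I) fails on a cell -/
theorem midI_excl {H a s x1 Hl A : ℝ} (hH0 : 0 ≤ H) (hs0 : 0 ≤ s) (ha0 : 0 ≤ a)
    (hT : 3 / 2 * H * s ≤ a) (hA : a ≤ A) (hl0 : 0 ≤ Hl) (hl : Hl ≤ H) (hx0 : 0 ≤ x1)
    (hx1 : x1 ≤ s ^ 2) (h : A ^ 2 < 9 / 4 * Hl ^ 2 * x1) : False := by
  have k1 : (3 / 2 * H * s) ^ 2 ≤ a ^ 2 :=
    pow_le_pow_left₀ (mul_nonneg (mul_nonneg (by norm_num) hH0) hs0) hT 2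
  have k2 : a ^ 2 ≤ A ^ 2 := pow_le_pow_left₀ ha0 hA 2
  have k3 : Hl ^ 2 ≤ H ^ 2 := pow_le_pow_left₀ hl0 hl 2
  have k4 : Hl ^ 2 * x1 ≤ H ^ 2 * s ^ 2 := mul_le_mul k3 hx1 hx0 (sq_nonneg _)
  have k5 : (3 / 2 * H * s) ^ 2 = 9 / 4 * (H ^ 2 * s ^ 2) := by ring
  linarith

/-- Inequality (I): the gain of the cone certificate, uniformly in `s`. -/
theorem midI {r s : ℝ} (hr : 2 / 3 ≤ r) (hr' : r ≤ 9 / 10) (hs0 : 0 < s) (hs1 : s < 1)
    (hT : 3 / 2 * hh r * s ≤ hh (r * s)) :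
    89 / 100 * hh r ^ 2 * s ^ 2 ≤ (hh (r * s) - hh s) * hh (r * s) := by
  have hr0 : 0 ≤ r := by linarith
  have hr1 : r < 1 := by linarith
  obtain ⟨j, hj, ht1, ht2⟩ := exists_cell_t hr hr'
  obtain ⟨hHu, hHl, hW, hps⟩ := cell_H hr0 hj ht1 ht2
  have hx0 : 0 ≤ s ^ 2 := by positivity
  have hx1 : s ^ 2 < 1 := by nlinarith
  obtain ⟨i, hi, hxa, hxb⟩ := exists_cell 100 (by norm_num) hx0 hx1
  have hx1' : gx ℝ i ≤ s ^ 2 := by
    unfold gx; simpa using hxa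
  have hx2' : s ^ 2 ≤ gx ℝ (i + 1) := by
    unfold gx; push_cast; simpa using hxb
  have hg0 : 0 ≤ gx ℝ i := by unfold gx; positivity
  have hgt1 : 0 ≤ gt ℝ j := by unfold gt; positivity
  have hgt2 : 0 ≤ gt ℝ (j + 1) := by unfold gt; positivity
  have habs : |s| < 1 := by rw [abs_of_pos hs0]; exact hs1
  have hrs0 : 0 ≤ r * s := mul_nonneg hr0 hs0.le
  have hrs1 : r * s < 1 := by nlinarith
  have habrs : |r * s| < 1 := by rw [abs_of_nonneg hrs0]; exact hrs1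
  have hH0 : 0 ≤ hh r := hh_nonneg (by rw [abs_of_nonneg hr0]; exact hr1.le)
  have ha0 : 0 ≤ hh (r * s) := hh_nonneg habrs.le
  have c1 := c0lo_lt
  have c2 := lt_c0hi
  have p1 := hps s hs0.le hs1.le
  have e4 : s ^ 4 = s ^ 2 * s ^ 2 := by ring
  set x := s ^ 2 with hx
  set x1 := gx ℝ i with hx1def
  set x2 := gx ℝ (i + 1) with hx2def
  set t2 := gt ℝ (j + 1) with ht2def
  set W := Iw ℝ j with hWdef
  -- lower bound of the first factor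
  have q1 : SP 8 x1 * x ≤ psi2 s := by
    have := SS_le_psi2 8 habs
    rw [← SP_mul] at this
    have m1 := SP_mono 8 hg0 hx1'
    have : SP 8 x1 * x ≤ SP 8 x * x := mul_le_mul_of_nonneg_right m1 hx0
    linarith
  have q2 : x * If1 ℝ i j ≤ hh (r * s) - hh s := by
    have : If1 ℝ i j = SP 8 x1 - t2 - W * x2 := rfl
    rw [this]
    have h5 : W * x ≤ W * x2 := mul_le_mul_of_nonneg_left hx2' hW
    have h6 : x * (W * x) ≤ x * (W * x2) := mul_le_mul_of_nonneg_left h5 hx0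
    unfold hh
    rw [e4] at p1
    nlinarith
  have q3 : If2 ℝ i j ≤ hh (r * s) := by
    have : If2 ℝ i j = c0lo ℝ - t2 * x2 - W * x2 ^ 2 := rfl
    rw [this]
    have h5 : t2 * x ≤ t2 * x2 := mul_le_mul_of_nonneg_left hx2' hgt2
    have h6 : x * x ≤ x2 ^ 2 := by nlinarith
    have h7 : W * (x * x) ≤ W * x2 ^ 2 := mul_le_mul_of_nonneg_left h6 hW
    unfold hh
    rw [e4] at p1
    linarith
  have q4 : hh (r * s) ≤ Iau ℝ i j := by
    have : Iau ℝ i j = c0hi ℝ - SS 4 (gt ℝ j * x1) := rfl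
    rw [this]
    have h5 := SS_le_psi2 4 habrs
    have h6 : gt ℝ j * x1 ≤ (r * s) ^ 2 := by
      rw [mul_pow]
      exact mul_le_mul ht1 hx1' hg0 (by positivity)
    have h7 := SS_mono 4 (mul_nonneg hgt1 hg0) h6
    unfold hh
    linarith
  have hc := chkI_all hi hj
  unfold chkI at hc
  simp only [Bool.or_eq_true, Bool.and_eq_true, decide_eq_true_eq] at hc
  rcases hc with ⟨⟨h1, h2⟩, h3⟩ | ⟨h4, h5⟩
  · have h1' : (0 : ℝ) ≤ If1 ℝ i j := by rw [← cast_If1]; exact_mod_cast h1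
    have h2' : (0 : ℝ) ≤ If2 ℝ i j := by rw [← cast_If2]; exact_mod_cast h2
    have h3' : (89 : ℝ) / 100 * IHu ℝ j ^ 2 ≤ If1 ℝ i j * If2 ℝ i j := by
      have h := (Rat.cast_le (K := ℝ)).mpr h3
      push_cast at h
      rw [cast_If1, cast_If2, cast_IHu] at h
      exact h
    have k1 : x * If1 ℝ i j * If2 ℝ i j ≤ (hh (r * s) - hh s) * hh (r * s) :=
      mul_le_mul q2 q3 h2' (le_trans (mul_nonneg hx0 h1') q2)
    have k2 : hh r ^ 2 ≤ IHu ℝ j ^ 2 := pow_le_pow_left₀ hH0 hHu 2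
    have k3 : x * (89 / 100 * IHu ℝ j ^ 2) ≤ x * (If1 ℝ i j * If2 ℝ i j) :=
      mul_le_mul_of_nonneg_left h3' hx0
    have k4 : x * (89 / 100 * hh r ^ 2) ≤ x * (89 / 100 * IHu ℝ j ^ 2) :=
      mul_le_mul_of_nonneg_left (by linarith) hx0
    nlinarith
  · exfalso
    have h4' : (0 : ℝ) ≤ IHl ℝ j := by rw [← cast_IHl]; exact_mod_cast h4
    have h5' : Iau ℝ i j ^ 2 < 9 / 4 * IHl ℝ j ^ 2 * x1 := by
      have h := (Rat.cast_lt (K := ℝ)).mpr h5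
      push_cast at h
      rw [cast_Iau, cast_IHl, cast_gx] at h
      exact h
    exact midI_excl hH0 hs0.le ha0 hT q4 h4' hHl hg0 hx1' h5'

/-- the threshold of the (J1) certificate -/
theorem midJ {r : ℝ} (hr : 2 / 3 ≤ r) (hr' : r ≤ 9 / 10) :
    94 / 100 * hh r ≤ (1 - r ^ 2) * (psi2 1 * (3 / 4) + 1) := by
  have hr0 : 0 ≤ r := by linarith
  obtain ⟨j, hj, ht1, ht2⟩ := exists_cell_t hr hr'
  obtain ⟨hHu, -, -, -⟩ := cell_H hr0 hj ht1 ht2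
  have hc := chkJ_all j hj
  unfold chkJ at hc
  simp only [decide_eq_true_eq] at hc
  have hc' : (94 : ℝ) / 100 * IHu ℝ j ≤ (1 - gt ℝ (j + 1)) * (c0lo ℝ * (3 / 4) + 1) := by
    have h := (Rat.cast_le (K := ℝ)).mpr hc
    push_cast at h
    rw [cast_IHu, cast_gt, cast_c0lo] at h
    exact h
  have c1 := c0lo_lt
  have hlo : (0 : ℝ) ≤ c0lo ℝ := by unfold c0lo; norm_num
  have h1 : (1 - gt ℝ (j + 1)) * (c0lo ℝ * (3 / 4) + 1) ≤ (1 - r ^ 2) * (c0lo ℝ * (3 / 4) + 1) :=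
    mul_le_mul_of_nonneg_right (by linarith) (by positivity)
  have h2 : (1 - r ^ 2) * (c0lo ℝ * (3 / 4) + 1) ≤ (1 - r ^ 2) * (psi2 1 * (3 / 4) + 1) :=
    mul_le_mul_of_nonneg_left (by linarith) (by nlinarith)
  linarith

end Vale.Agent.P322
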