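import Vale.Agent.P322.SCMidSer

/-!
Scheme C, middle range: inequality (II) (free of the noise parameter).
-/

namespace Vale.Agent.P322

open Real

private theorem cast_gm (i : ℕ) : ((gm ℚ i : ℚ) : ℝ) = gm ℝ i := by
  simp [gm]

private theorem cast_c0hi : ((c0hi ℚ : ℚ) : ℝ) = c0hi ℝ := by
  simp [c0hi]

private theorem cast_c0lo : ((c0lo ℚ : ℚ) : ℝ) = c0lo ℝ := by
  simp [c0lo]

private theorem cast_IIl (i : ℕ) : ((IIl ℚ i : ℚ) : ℝ) = IIl ℝ i := by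
  unfold IIl
  push_cast [cast_SS, cast_gm, cast_c0hi]
  rfl

private theorem cast_IIYp (i : ℕ) : ((IIYp ℚ i : ℚ) : ℝ) = IIYp ℝ i := by
  unfold IIYp
  push_cast [cast_gm]
  rfl

private theorem cast_IIYm (i : ℕ) : ((IIYm ℚ i : ℚ) : ℝ) = IIYm ℝ i := by
  unfold IIYm
  push_cast [cast_gm]
  rfl

private theorem cast_IIr (i : ℕ) (G : ℚ) : ((IIr ℚ i G : ℚ) : ℝ) = IIr ℝ i (G : ℝ) := by
  unfold IIr
  push_cast [cast_GU, cast_gm, cast_IIYp]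
  rfl

private theorem cast_IIrhs : ((IIrhs ℚ : ℚ) : ℝ) = IIrhs ℝ := by
  unfold IIrhs
  push_cast [cast_c0lo]
  rfl

private theorem SP_nonneg (J : ℕ) {y : ℝ} (h0 : 0 ≤ y) : 0 ≤ SP J y := by
  induction J with
  | zero => simp [SP]
  | succ J ih =>
    have : 0 ≤ y ^ J / ((2 * (J : ℝ) + 1) * ((J : ℝ) + 1)) := by positivity
    simp only [SP]
    linarith

private theorem GU_nonneg (J : ℕ) {y : ℝ} (h0 : 0 ≤ y) (h1 : y < 1) : 0 ≤ GU J y := by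
  unfold GU
  have h2 : 0 < 1 - y := by linarith
  have : 0 ≤ y ^ J / ((2 * (J : ℝ) + 1) * ((J : ℝ) + 1) * (1 - y)) := by positivity
  linarith [SP_nonneg J h0]

/-- the real form of the finite check -/
private theorem chkII_real {i : ℕ} (hi : i < 181) :
    (IIYm ℝ i < 1 ∧ IIl ℝ i * IIr ℝ i (GU 8 (IIYm ℝ i)) ≤ IIrhs ℝ)
      ∨ IIl ℝ i * IIr ℝ i (c0hi ℝ) ≤ IIrhs ℝ := by
  have h := chkII_all i hi
  unfold chkII at h
  rw [Bool.or_eq_true, Bool.and_eq_true, decide_eq_true_eq, decide_eq_true_eq,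
    decide_eq_true_eq] at h
  rcases h with ⟨h1, h2⟩ | h3
  · left
    constructor
    · have : ((IIYm ℚ i : ℚ) : ℝ) < ((1 : ℚ) : ℝ) := Rat.cast_lt.2 h1
      rwa [cast_IIYm, Rat.cast_one] at this
    · have : ((IIl ℚ i * IIr ℚ i (GU 8 (IIYm ℚ i)) : ℚ) : ℝ) ≤ ((IIrhs ℚ : ℚ) : ℝ) :=
        Rat.cast_le.2 h2
      rwa [Rat.cast_mul, cast_IIl, cast_IIr, cast_GU, cast_IIYm, cast_IIrhs] at this
  · right
    have : ((IIl ℚ i * IIr ℚ i (c0hi ℚ) : ℚ) : ℝ) ≤ ((IIrhs ℚ : ℚ) : ℝ) := Rat.cast_le.2 h3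
    rwa [Rat.cast_mul, cast_IIl, cast_IIr, cast_c0hi, cast_IIrhs] at this

private theorem arith_tp {m d m1 : ℝ} (hm10 : 0 ≤ m1) (hm1 : m1 ≤ m) (hm : m ≤ 9 / 10)
    (h3 : 3 * d ^ 2 ≤ 1 - m ^ 2) : (d / (1 + m)) ^ 2 ≤ (1 - m1) / (3 * (1 + m1)) := by
  have hp1 : 0 < 1 + m := by linarith
  have hp2 : 0 < 1 + m1 := by linarith
  rw [div_pow, div_le_div_iff₀ (by positivity) (by linarith)]
  have a1 : d ^ 2 * (3 * (1 + m1)) ≤ (1 - m ^ 2) * (1 + m1) := by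
    have := mul_le_mul_of_nonneg_right h3 hp2.le
    linarith
  have a2 : (1 - m) * (1 + m1) ≤ (1 - m1) * (1 + m) := by linarith
  have a3 : (1 - m ^ 2) * (1 + m1) = ((1 - m) * (1 + m1)) * (1 + m) := by ring
  have a4 : (1 - m1) * (1 + m) ^ 2 = ((1 - m1) * (1 + m)) * (1 + m) := by ring
  rw [a4]
  calc d ^ 2 * (3 * (1 + m1)) ≤ (1 - m ^ 2) * (1 + m1) := a1
    _ = ((1 - m) * (1 + m1)) * (1 + m) := a3
    _ ≤ ((1 - m1) * (1 + m)) * (1 + m) := mul_le_mul_of_nonneg_right a2 hp1.le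

private theorem arith_tm {m d m2 : ℝ} (hm0 : 0 ≤ m) (hm2 : m ≤ m2) (hm21 : m2 ≤ 181 / 200)
    (h3 : 3 * d ^ 2 ≤ 1 - m ^ 2) : (d / (1 - m)) ^ 2 ≤ (1 + m2) / (3 * (1 - m2)) := by
  have hq1 : 0 < 1 - m := by linarith
  have hq2 : 0 < 1 - m2 := by linarith
  rw [div_pow, div_le_div_iff₀ (by positivity) (by linarith)]
  have a1 : d ^ 2 * (3 * (1 - m2)) ≤ (1 - m ^ 2) * (1 - m2) := by
    have := mul_le_mul_of_nonneg_right h3 hq2.le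
    linarith
  have a2 : (1 + m) * (1 - m2) ≤ (1 + m2) * (1 - m) := by linarith
  have a3 : (1 - m ^ 2) * (1 - m2) = ((1 + m) * (1 - m2)) * (1 - m) := by ring
  have a4 : (1 + m2) * (1 - m) ^ 2 = ((1 + m2) * (1 - m)) * (1 - m) := by ring
  rw [a4]
  calc d ^ 2 * (3 * (1 - m2)) ≤ (1 - m ^ 2) * (1 - m2) := a1
    _ = ((1 + m) * (1 - m2)) * (1 - m) := a3
    _ ≤ ((1 + m2) * (1 - m)) * (1 - m) := mul_le_mul_of_nonneg_right a2 hq1.le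

/-- bound of the second factor -/
private theorem second_factor {m d m1 m2 Gp G : ℝ} (hm0 : 0 ≤ m) (hm10 : 0 ≤ m1) (hm1 : m1 ≤ m)
    (hm2 : m ≤ m2) (hm21 : m2 ≤ 181 / 200) (hd0 : 0 < d) (hd : m + d ≤ 1)
    (hGp0 : 0 ≤ Gp) (hG0 : 0 ≤ G)
    (hpsip : psi2 (d / (1 + m)) ≤ (d / (1 + m)) ^ 2 * Gp)
    (hpsim : psi2 (d / (1 - m)) ≤ (d / (1 - m)) ^ 2 * G) :
    d ^ 2 + 3 / 4 * K2 m d
      ≤ d ^ 2 * (1 + 3 / 4 * (Gp / (2 * (1 + m1)) + G / (2 * (1 - m2)))) := by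
  have hp1 : 0 < 1 + m := by linarith
  have hq1 : 0 < 1 - m := by linarith
  have hdd : 0 ≤ d ^ 2 := by positivity
  have habsm : |m| < 1 := by
    rw [abs_of_nonneg hm0]
    linarith
  have hK2 : K2 m d = (1 + m) / 2 * psi2 (d / (1 + m)) + (1 - m) / 2 * psi2 (d / (1 - m)) := by
    apply K2_eq habsm
    rw [abs_of_pos hd0, abs_of_nonneg hm0]
    linarith
  have e1 : (1 + m) / 2 * ((d / (1 + m)) ^ 2 * Gp) = d ^ 2 * (Gp / (2 * (1 + m))) := by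
    field_simp
  have e2 : (1 - m) / 2 * ((d / (1 - m)) ^ 2 * G) = d ^ 2 * (G / (2 * (1 - m))) := by
    field_simp
  have f1 : Gp / (2 * (1 + m)) ≤ Gp / (2 * (1 + m1)) :=
    div_le_div_of_nonneg_left hGp0 (by linarith) (by linarith)
  have f2 : G / (2 * (1 - m)) ≤ G / (2 * (1 - m2)) :=
    div_le_div_of_nonneg_left hG0 (by linarith) (by linarith)
  have g1 : (1 + m) / 2 * psi2 (d / (1 + m)) ≤ d ^ 2 * (Gp / (2 * (1 + m1))) := by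
    calc (1 + m) / 2 * psi2 (d / (1 + m))
        ≤ (1 + m) / 2 * ((d / (1 + m)) ^ 2 * Gp) :=
          mul_le_mul_of_nonneg_left hpsip (by linarith)
      _ = d ^ 2 * (Gp / (2 * (1 + m))) := e1
      _ ≤ d ^ 2 * (Gp / (2 * (1 + m1))) := mul_le_mul_of_nonneg_left f1 hdd
  have g2 : (1 - m) / 2 * psi2 (d / (1 - m)) ≤ d ^ 2 * (G / (2 * (1 - m2))) := by
    calc (1 - m) / 2 * psi2 (d / (1 - m))
        ≤ (1 - m) / 2 * ((d / (1 - m)) ^ 2 * G) :=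
          mul_le_mul_of_nonneg_left hpsim (by linarith)
      _ = d ^ 2 * (G / (2 * (1 - m))) := e2
      _ ≤ d ^ 2 * (G / (2 * (1 - m2))) := mul_le_mul_of_nonneg_left f2 hdd
  have e3 : d ^ 2 * (1 + 3 / 4 * (Gp / (2 * (1 + m1)) + G / (2 * (1 - m2))))
      = d ^ 2 + 3 / 4 * (d ^ 2 * (Gp / (2 * (1 + m1))) + d ^ 2 * (G / (2 * (1 - m2)))) := by
    ring
  rw [e3, hK2]
  linarith

/-- bound of the first factor -/
private theorem first_factor {m m1 : ℝ} (hm10 : 0 ≤ m1) (hm1 : m1 ≤ m) (hm : m ≤ 9 / 10) :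
    0 ≤ 3 / 4 * hh m + (1 - m ^ 2) ∧
      3 / 4 * hh m + (1 - m ^ 2) ≤ 3 / 4 * (c0hi ℝ - SS 8 (m1 ^ 2)) + 1 - m1 ^ 2 := by
  have hm0 : 0 ≤ m := le_trans hm10 hm1
  have habsm : |m| < 1 := by
    rw [abs_of_nonneg hm0]
    linarith
  constructor
  · have h1 : 0 ≤ hh m := hh_nonneg habsm.le
    have h2 : m ^ 2 ≤ 1 := by
      have := pow_le_one₀ hm0 (by linarith : m ≤ 1) (n := 2)
      exact this
    linarith
  · have h1 : SS 8 (m1 ^ 2) ≤ SS 8 (m ^ 2) :=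
      SS_mono 8 (by positivity) (pow_le_pow_left₀ hm10 hm1 2)
    have h2 : SS 8 (m ^ 2) ≤ psi2 m := SS_le_psi2 8 habsm
    have h3' : m1 ^ 2 ≤ m ^ 2 := pow_le_pow_left₀ hm10 hm1 2
    have h4 := lt_c0hi
    unfold hh
    linarith

private theorem rhs_le : IIrhs ℝ ≤ 89 / 100 * (psi2 1 * (3 / 4) + 1) ^ 2 := by
  unfold IIrhs
  have h1 := c0lo_lt
  have h0 : (0 : ℝ) ≤ c0lo ℝ := by
    unfold c0lo
    norm_num
  have h2 : (c0lo ℝ * (3 / 4) + 1) ^ 2 ≤ (psi2 1 * (3 / 4) + 1) ^ 2 :=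
    pow_le_pow_left₀ (by positivity) (by linarith) 2
  linarith

/-- abstract combination of the two factors -/
private theorem combine {A B L R d2 rhs fin : ℝ} (hA0 : 0 ≤ A) (hA : A ≤ L) (hB : B ≤ d2 * R)
    (hd2 : 0 ≤ d2) (hR : 0 ≤ R) (hchk : L * R ≤ rhs) (hrhs : rhs ≤ fin) :
    A * B ≤ fin * d2 := by
  calc A * B ≤ A * (d2 * R) := mul_le_mul_of_nonneg_left hB hA0
    _ ≤ L * (d2 * R) := mul_le_mul_of_nonneg_right hA (mul_nonneg hd2 hR)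
    _ = (L * R) * d2 := by ring
    _ ≤ rhs * d2 := mul_le_mul_of_nonneg_right hchk hd2
    _ ≤ fin * d2 := mul_le_mul_of_nonneg_right hrhs hd2

/-- the cell of `m` -/
private theorem cell_of {m : ℝ} (hm0 : 0 ≤ m) (hm : m ≤ 9 / 10) :
    ∃ i < 181, 0 ≤ gm ℝ i ∧ gm ℝ i ≤ m ∧ m ≤ gm ℝ (i + 1) ∧ gm ℝ (i + 1) ≤ 181 / 200 := by
  obtain ⟨i, _, hi1, hi2⟩ := exists_cell 200 (by norm_num) hm0 (by linarith : m < 1)
  have hm1 : gm ℝ i ≤ m := by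
    unfold gm
    simpa using hi1
  have hm2 : m ≤ gm ℝ (i + 1) := by
    unfold gm
    simpa using hi2
  have hm10 : 0 ≤ gm ℝ i := by
    unfold gm
    positivity
  have hi : i < 181 := by
    have h1 : (i : ℝ) / 200 ≤ 9 / 10 := by
      have : gm ℝ i ≤ 9 / 10 := le_trans hm1 hm
      simpa [gm] using this
    have h2 : (i : ℝ) ≤ 180 := by linarith
    have h3' : i ≤ 180 := by exact_mod_cast h2
    omega
  have hm21 : gm ℝ (i + 1) ≤ 181 / 200 := by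
    have h2 : ((i + 1 : ℕ) : ℝ) ≤ 181 := by exact_mod_cast hi
    unfold gm
    linarith
  exact ⟨i, hi, hm10, hm1, hm2, hm21⟩

/-- Inequality (II): the cost of the step for the potential with `k / q = 3 / 4`. -/
theorem midII {m d : ℝ} (hm0 : 0 ≤ m) (hm : m ≤ 9 / 10) (hd0 : 0 < d) (hd : m + d ≤ 1)
    (h3 : 3 * d ^ 2 ≤ 1 - m ^ 2) :
    (3 / 4 * hh m + (1 - m ^ 2)) * (d ^ 2 + 3 / 4 * K2 m d)
      ≤ 89 / 100 * (psi2 1 * (3 / 4) + 1) ^ 2 * d ^ 2 := by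
  obtain ⟨i, hi, hm10, hm1, hm2, hm21⟩ := cell_of hm0 hm
  have hq1 : 0 < 1 - m := by linarith
  have hdd : 0 ≤ d ^ 2 := by positivity
  have hYp0 : 0 < IIYp ℝ i := by
    unfold IIYp
    apply div_pos <;> linarith
  have hYp1 : IIYp ℝ i < 1 := by
    unfold IIYp
    rw [div_lt_one (by linarith)]
    linarith
  have htp : (d / (1 + m)) ^ 2 ≤ IIYp ℝ i := arith_tp hm10 hm1 hm h3
  have hYm0 : 0 < IIYm ℝ i := by
    unfold IIYm
    apply div_pos <;> linarith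
  have htm : (d / (1 - m)) ^ 2 ≤ IIYm ℝ i := arith_tm hm0 hm2 hm21 h3
  have hGp0 : 0 ≤ GU 8 (IIYp ℝ i) := GU_nonneg 8 hYp0.le hYp1
  have hpsip : psi2 (d / (1 + m)) ≤ (d / (1 + m)) ^ 2 * GU 8 (IIYp ℝ i) :=
    psi2_le_GU 8 hYp0 hYp1 htp
  obtain ⟨hA0, hA⟩ := first_factor hm10 hm1 hm
  have key : ∀ G : ℝ, 0 ≤ G → psi2 (d / (1 - m)) ≤ (d / (1 - m)) ^ 2 * G →
      IIl ℝ i * IIr ℝ i G ≤ IIrhs ℝ →
      (3 / 4 * hh m + (1 - m ^ 2)) * (d ^ 2 + 3 / 4 * K2 m d)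
        ≤ 89 / 100 * (psi2 1 * (3 / 4) + 1) ^ 2 * d ^ 2 := by
    intro G hG0 hpsim hchk
    have hB := second_factor hm0 hm10 hm1 hm2 hm21 hd0 hd hGp0 hG0 hpsip hpsim
    have hr0 : 0 ≤ IIr ℝ i G := by
      unfold IIr
      have t1 : 0 ≤ GU 8 (IIYp ℝ i) / (2 * (1 + gm ℝ i)) := div_nonneg hGp0 (by linarith)
      have t2 : 0 ≤ G / (2 * (1 - gm ℝ (i + 1))) := div_nonneg hG0 (by linarith)
      linarith
    exact combine hA0 hA hB hdd hr0 hchk rhs_le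
  rcases chkII_real hi with ⟨hY1, hc⟩ | hc
  · exact key _ (GU_nonneg 8 hYm0.le hY1) (psi2_le_GU 8 hYm0 hY1 htm) hc
  · refine key _ ?_ ?_ hc
    · unfold c0hi
      norm_num
    · have habs : |d / (1 - m)| ≤ 1 := by
        rw [abs_of_nonneg (div_nonneg hd0.le hq1.le), div_le_one hq1]
        linarith
      have h1 := psi2_le_sq habs
      have h2 : (d / (1 - m)) ^ 2 * psi2 1 ≤ (d / (1 - m)) ^ 2 * c0hi ℝ :=
        mul_le_mul_of_nonneg_left lt_c0hi.le (by positivity)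
      linarith

end Vale.Agent.P322
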