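import Mathlib

/-!
Scheme C, middle range `2/3 ≤ r ≤ 9/10`: the finite rational computations.

`SS J y`, `SP J y` are the truncations of the power series of `psi2 (sqrt y)` and `psi2 (sqrt y) / y`,
`TT J y` is the geometric bound of the remainder.  All value functions are written over an arbitrary
field `F`; they are evaluated over the rationals (by the kernel) and used over the reals.
-/

namespace Vale.Agent.P322

/-- `SS J y = sum_{k<J} y^(k+1)/((2k+1)(k+1))` -/
def SS {F : Type} [Field F] : ℕ → F → F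
  | 0, _ => 0
  | J + 1, y => SS J y + y ^ (J + 1) / ((2 * (J : F) + 1) * ((J : F) + 1))

/-- `SP J y = sum_{k<J} y^k/((2k+1)(k+1))` -/
def SP {F : Type} [Field F] : ℕ → F → F
  | 0, _ => 0
  | J + 1, y => SP J y + y ^ J / ((2 * (J : F) + 1) * ((J : F) + 1))

/-- geometric bound of the remainder of `SS J y` -/
def TT {F : Type} [Field F] (J : ℕ) (y : F) : F :=
  y ^ (J + 1) / ((2 * (J : F) + 1) * ((J : F) + 1) * (1 - y))

/-- upper bound of `psi2 (sqrt y) / y` -/
def GU {F : Type} [Field F] (J : ℕ) (y : F) : F :=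
  SP J y + y ^ J / ((2 * (J : F) + 1) * ((J : F) + 1) * (1 - y))

section vals

variable (F : Type) [Field F]

/-- lower bound of `2 log 2` -/
def c0lo : F := 1386294 / 1000000
/-- upper bound of `2 log 2` -/
def c0hi : F := 1386295 / 1000000

/-- grid of `x = s^2` -/
def gx (i : ℕ) : F := (i : F) / 100
/-- grid of `t = r^2` -/
def gt (j : ℕ) : F := (176 + (j : F)) / 400
/-- grid of `m` -/
def gm (i : ℕ) : F := (i : F) / 200

/-- upper bound of `w = psi2 r - r^2` on the `j`-th cell -/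
def Iw (j : ℕ) : F := SS 8 (gt F (j + 1)) - gt F (j + 1) + TT 8 (gt F (j + 1))
/-- lower bound of `(psi2 s - psi2 (r s)) / s^2` on the cell `(i, j)` -/
def If1 (i j : ℕ) : F := SP 8 (gx F i) - gt F (j + 1) - Iw F j * gx F (i + 1)
/-- lower bound of `hh (r s)` on the cell `(i, j)` -/
def If2 (i j : ℕ) : F := c0lo F - gt F (j + 1) * gx F (i + 1) - Iw F j * gx F (i + 1) ^ 2
/-- upper bound of `hh r` on the `j`-th cell -/
def IHu (j : ℕ) : F := c0hi F - SS 8 (gt F j)
/-- lower bound of `hh r` on the `j`-th cell -/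
def IHl (j : ℕ) : F := c0lo F - gt F (j + 1) - Iw F j
/-- upper bound of `hh (r s)` on the cell `(i, j)` -/
def Iau (i j : ℕ) : F := c0hi F - SS 4 (gt F j * gx F i)

/-- upper bound of `3/4 hh m + 1 - m^2` on the `i`-th cell -/
def IIl (i : ℕ) : F := 3 / 4 * (c0hi F - SS 8 (gm F i ^ 2)) + 1 - gm F i ^ 2
/-- upper bound of `d^2/(1+m)^2` on the `i`-th cell -/
def IIYp (i : ℕ) : F := (1 - gm F i) / (3 * (1 + gm F i))
/-- upper bound of `d^2/(1-m)^2` on the `i`-th cell -/
def IIYm (i : ℕ) : F := (1 + gm F (i + 1)) / (3 * (1 - gm F (i + 1)))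
/-- upper bound of `1 + 3/4 K2 m d / d^2` on the `i`-th cell, given the bound `G` of the second term -/
def IIr (i : ℕ) (G : F) : F :=
  1 + 3 / 4 * (GU 8 (IIYp F i) / (2 * (1 + gm F i)) + G / (2 * (1 - gm F (i + 1))))
/-- the right side of (II) -/
def IIrhs : F := 89 / 100 * (c0lo F * (3 / 4) + 1) ^ 2

end vals

/-- the test of the cell `(i, j)` for inequality (I) -/
def chkI (i j : ℕ) : Bool :=
  (decide (0 ≤ If1 ℚ i j) && decide (0 ≤ If2 ℚ i j)
      && decide (89 / 100 * IHu ℚ j ^ 2 ≤ If1 ℚ i j * If2 ℚ i j))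
    || (decide (0 ≤ IHl ℚ j) && decide (Iau ℚ i j ^ 2 < 9 / 4 * IHl ℚ j ^ 2 * gx ℚ i))

/-- the test of the `j`-th cell for the (J1) threshold -/
def chkJ (j : ℕ) : Bool :=
  decide (94 / 100 * IHu ℚ j ≤ (1 - gt ℚ (j + 1)) * (c0lo ℚ * (3 / 4) + 1))

/-- the test of the `i`-th cell for inequality (II) -/
def chkII (i : ℕ) : Bool :=
  (decide (IIYm ℚ i < 1) && decide (IIl ℚ i * IIr ℚ i (GU 8 (IIYm ℚ i)) ≤ IIrhs ℚ))
    || decide (IIl ℚ i * IIr ℚ i (c0hi ℚ) ≤ IIrhs ℚ)

theorem chkI_a : ∀ j < 30, ∀ i < 100, chkI i j = true := by decide +kernel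
theorem chkI_b : ∀ j < 30, ∀ i < 100, chkI i (j + 30) = true := by decide +kernel
theorem chkI_c : ∀ j < 30, ∀ i < 100, chkI i (j + 60) = true := by decide +kernel
theorem chkI_d : ∀ j < 30, ∀ i < 100, chkI i (j + 90) = true := by decide +kernel
theorem chkI_e : ∀ j < 29, ∀ i < 100, chkI i (j + 120) = true := by decide +kernel

theorem chkI_all {i j : ℕ} (hi : i < 100) (hj : j < 149) : chkI i j = true := by
  rcases Nat.lt_or_ge j 30 with h | h
  · exact chkI_a j h i hi
  rcases Nat.lt_or_ge j 60 with h2 | h2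
  · have := chkI_b (j - 30) (by omega) i hi
    rwa [Nat.sub_add_cancel h] at this
  rcases Nat.lt_or_ge j 90 with h3 | h3
  · have := chkI_c (j - 60) (by omega) i hi
    rwa [Nat.sub_add_cancel h2] at this
  rcases Nat.lt_or_ge j 120 with h4 | h4
  · have := chkI_d (j - 90) (by omega) i hi
    rwa [Nat.sub_add_cancel h3] at this
  · have := chkI_e (j - 120) (by omega) i hi
    rwa [Nat.sub_add_cancel h4] at this

theorem chkJ_all : ∀ j < 149, chkJ j = true := by decide +kernel

theorem chkII_all : ∀ i < 181, chkII i = true := by decide +kernel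

end Vale.Agent.P322
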