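import Vale.Agent.P322.SCInd
import Vale.Agent.P322.DCMain

/-!
Scheme C, middle range `2/3 ≤ r ≤ 9/10`: the potential `LamM` and its elementary properties.

Hints.  `hh 0 = psi2 1`, `hh 1 = 0`, `hh_neg`, `hh_lower`, `hh_nonneg` are in DCBasic.lean.  `LamM_avg`: unfold `LamM`, `hh`, `K2`
and `ring`.  `LamM_final`: `hh m - psi2 r = hh r - psi2 m` and `LamM r m = hh r - 3/4 q psi2 m - q m^2`, so it is
`q m^2 ≤ (1 - 3/4 q) psi2 m`, from `sq_le_psi2` and `7/4 q ≤ 1` (`hh r ≤ psi2 1 - r^2 ≤ 1`, `psi2 1 > 1.38`).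
-/

namespace Vale.Agent.P322

open Real

/-- the coefficient `q` of the potential: `q = hh r / (3/4 * 2 log 2 + 1)` -/
noncomputable def qM (r : ℝ) : ℝ := hh r / (psi2 1 * (3 / 4) + 1)


/-- the potential `3/4 q hh m + q (1 - m^2)` -/
noncomputable def LamM (r m : ℝ) : ℝ := 3 / 4 * qM r * hh m + qM r * (1 - m ^ 2)

/-- the denominator of `qM` is positive -/
theorem qM_den_pos : 0 < psi2 1 * (3 / 4) + 1 := by
  have := psi2_one_pos
  linarith

/-- `qM r * (3/4 psi2 1 + 1) = hh r` -/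
theorem qM_mul (r : ℝ) : qM r * (psi2 1 * (3 / 4) + 1) = hh r := by
  unfold qM
  exact div_mul_cancel₀ _ qM_den_pos.ne'

theorem qM_pos {r : ℝ} (hr0 : 0 ≤ r) (hr1 : r < 1) : 0 < qM r := by
  have h : 0 < hh r := by
    have h1 : psi2 r < psi2 1 := by
      have h2 := psi2_le_sq (t := r) (by rw [abs_of_nonneg hr0]; exact hr1.le)
      have h3 : r ^ 2 < 1 := by nlinarith
      have := psi2_one_pos
      nlinarith
    unfold hh
    linarith
  unfold qM
  exact div_pos h qM_den_pos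

theorem LamM_zero (r : ℝ) : LamM r 0 = hh r := by
  have h := qM_mul r
  unfold LamM
  rw [hh_zero]
  linarith

theorem LamM_one (r : ℝ) : LamM r 1 = 0 := by
  unfold LamM
  rw [hh_one]
  ring

theorem LamM_neg (r m : ℝ) : LamM r (-m) = LamM r m := by
  unfold LamM
  rw [hh_neg]
  ring

/-- the concavity defect of the potential -/
theorem LamM_avg (r m d : ℝ) :
    (LamM r (m + d) + LamM r (m - d)) / 2 = LamM r m - qM r * (d ^ 2 + 3 / 4 * K2 m d) := by
  unfold LamM hh K2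
  ring

/-- `LamM r m ≥ hh r * (1 - m^2)` -/
theorem LamM_lower {r m : ℝ} (hr0 : 0 ≤ r) (hr1 : r < 1) (hm : |m| ≤ 1) :
    hh r * (1 - m ^ 2) ≤ LamM r m := by
  have hq := qM_pos hr0 hr1
  have h := qM_mul r
  have hl := hh_lower hm
  have h2 : qM r * (psi2 1 * (1 - m ^ 2)) ≤ qM r * hh m := mul_le_mul_of_nonneg_left hl hq.le
  unfold LamM
  rw [← h]
  nlinarith

theorem LamM_final {r : ℝ} (hr : 2 / 3 ≤ r) (hr' : r ≤ 9 / 10) (m : ℝ) (hm : |m| ≤ 1) :
    hh m - psi2 r ≤ LamM r m := by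
  have hr0 : 0 ≤ r := by linarith
  have hr1 : r < 1 := by linarith
  have hq := qM_pos hr0 hr1
  have h := qM_mul r
  have hsq := sq_le_psi2 hm
  have hsr := sq_le_psi2 (t := r) (by rw [abs_of_nonneg hr0]; exact hr1.le)
  have hL : psi2 1 ≤ 16 / 9 := by
    rw [psi2_one]
    have := Real.log_two_lt_d9
    linarith
  have hr2 : 4 / 9 ≤ r ^ 2 := by nlinarith
  -- `7/4 q ≤ 1`
  have hq1 : 7 / 4 * qM r ≤ 1 := by
    have h1 : hh r ≤ psi2 1 - 4 / 9 := by
      unfold hh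
      linarith
    have h2 : 7 / 4 * hh r ≤ psi2 1 * (3 / 4) + 1 := by linarith
    have h3 : 7 / 4 * qM r * (psi2 1 * (3 / 4) + 1) ≤ 1 * (psi2 1 * (3 / 4) + 1) := by
      calc 7 / 4 * qM r * (psi2 1 * (3 / 4) + 1) = 7 / 4 * (qM r * (psi2 1 * (3 / 4) + 1)) := by ring
        _ = 7 / 4 * hh r := by rw [h]
        _ ≤ psi2 1 * (3 / 4) + 1 := h2
        _ = 1 * (psi2 1 * (3 / 4) + 1) := by ring
    exact le_of_mul_le_mul_right h3 qM_den_pos
  have hp : 0 ≤ psi2 m := psi2_nonneg hm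
  have e1 : LamM r m = hh r - 3 / 4 * qM r * psi2 m - qM r * m ^ 2 := by
    unfold LamM
    rw [← h]
    unfold hh
    ring
  have e2 : hh m - psi2 r = hh r - psi2 m := by
    unfold hh
    ring
  rw [e1, e2]
  have h4 : qM r * m ^ 2 ≤ qM r * psi2 m := mul_le_mul_of_nonneg_left hsq hq.le
  have h5 : 7 / 4 * qM r * psi2 m ≤ 1 * psi2 m := mul_le_mul_of_nonneg_right hq1 hp
  linarith

end Vale.Agent.P322
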