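import Vale.Agent.P322.SCMidSerA

/-!
Scheme C, middle range: the truncated power series of `psi2`.
-/

namespace Vale.Agent.P322

open Real

/-- truncation from below -/
theorem SS_le_psi2 (J : ℕ) {t : ℝ} (ht : |t| < 1) : SS J (t ^ 2) ≤ psi2 t := by
  rw [SS_eq_sum]
  exact sum_le_hasSum (Finset.range J) (fun k _ => by positivity) (psi2_hasSum ht)

/-- truncation from above, geometric remainder -/
theorem psi2_le_SS (J : ℕ) {t : ℝ} (ht : |t| < 1) : psi2 t ≤ SS J (t ^ 2) + TT J (t ^ 2) := by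
  have h := psi2_hasSum ht
  have h2 := (hasSum_nat_add_iff' J).mpr h
  have ht2 : t ^ 2 < 1 := by
    rw [← sq_abs]
    exact pow_lt_one₀ (abs_nonneg t) ht (by norm_num)
  have ht0 : 0 ≤ t ^ 2 := by positivity
  set y := t ^ 2 with hy
  have hJ : (0 : ℝ) < (2 * (J : ℝ) + 1) * ((J : ℝ) + 1) := by positivity
  have hg := (hasSum_geometric_of_lt_one ht0 ht2).mul_left
    (y ^ (J + 1) / ((2 * (J : ℝ) + 1) * ((J : ℝ) + 1)))
  have hle := hasSum_le (fun k => ?_) h2 hg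
  · rw [← SS_eq_sum] at hle
    have e : y ^ (J + 1) / ((2 * (J : ℝ) + 1) * ((J : ℝ) + 1)) * (1 - y)⁻¹ = TT J y := by
      unfold TT
      rw [div_mul_eq_mul_div, ← div_eq_mul_inv, div_div, mul_comm (1 - y)]
    rw [e] at hle
    linarith
  · have e : y ^ (k + J + 1) = y ^ (J + 1) * y ^ k := by ring
    rw [e]
    have hk : (2 * (J : ℝ) + 1) * ((J : ℝ) + 1)
        ≤ (2 * ((k + J : ℕ) : ℝ) + 1) * (((k + J : ℕ) : ℝ) + 1) := by
      push_cast
      have h1 : (0 : ℝ) ≤ k := Nat.cast_nonneg k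
      have h2 : (0 : ℝ) ≤ J := Nat.cast_nonneg J
      nlinarith [mul_nonneg h1 h2, mul_nonneg h1 h1]
    have hpos : 0 ≤ y ^ (J + 1) * y ^ k := by positivity
    calc y ^ (J + 1) * y ^ k / ((2 * ((k + J : ℕ) : ℝ) + 1) * (((k + J : ℕ) : ℝ) + 1))
        ≤ y ^ (J + 1) * y ^ k / ((2 * (J : ℝ) + 1) * ((J : ℝ) + 1)) :=
          div_le_div_of_nonneg_left hpos hJ hk
      _ = y ^ (J + 1) / ((2 * (J : ℝ) + 1) * ((J : ℝ) + 1)) * y ^ k := by ring

/-- all terms of the series of `psi2 (r s)` but the first carry at least `s^4` -/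
theorem psi2_mul_le2 {r s : ℝ} (hr0 : 0 ≤ r) (hr1 : r < 1) (hs0 : 0 ≤ s) (hs1 : s ≤ 1) :
    psi2 (r * s) ≤ r ^ 2 * s ^ 2 + (psi2 r - r ^ 2) * s ^ 4 := by
  have hrs0 : 0 ≤ r * s := mul_nonneg hr0 hs0
  have hrs1 : r * s < 1 := by nlinarith
  have habr : |r| < 1 := by rw [abs_of_nonneg hr0]; exact hr1
  have habrs : |r * s| < 1 := by rw [abs_of_nonneg hrs0]; exact hrs1
  have h1 := (hasSum_nat_add_iff' 1).mpr (psi2_hasSum habrs)
  have h2 := ((hasSum_nat_add_iff' 1).mpr (psi2_hasSum habr)).mul_right (s ^ 4)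
  have hle := hasSum_le (fun k => ?_) h1 h2
  · simp only [Finset.sum_range_succ, Finset.sum_range_zero] at hle
    norm_num at hle
    have e : (r * s) ^ 2 = r ^ 2 * s ^ 2 := by ring
    rw [e] at hle
    linarith
  · have hx0 : 0 ≤ s ^ 2 := by positivity
    have hx1 : s ^ 2 ≤ 1 := pow_le_one₀ hs0 hs1
    have e : ((r * s) ^ 2) ^ (k + 1 + 1) = (r ^ 2) ^ (k + 1 + 1) * ((s ^ 2) ^ k * s ^ 4) := by ring
    rw [e]
    have hp : (s ^ 2) ^ k * s ^ 4 ≤ 1 * s ^ 4 :=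
      mul_le_mul_of_nonneg_right (pow_le_one₀ hx0 hx1) (by positivity)
    have hden : (0 : ℝ) < (2 * ((k + 1 : ℕ) : ℝ) + 1) * (((k + 1 : ℕ) : ℝ) + 1) := by positivity
    rw [div_mul_eq_mul_div]
    apply div_le_div_of_nonneg_right _ hden.le
    apply mul_le_mul_of_nonneg_left _ (by positivity)
    linarith

/-- `psi2 t / t^2` is nondecreasing, and is bounded by `GU` -/
theorem psi2_le_GU (J : ℕ) {t Y : ℝ} (hY0 : 0 < Y) (hY1 : Y < 1) (ht : t ^ 2 ≤ Y) :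
    psi2 t ≤ t ^ 2 * GU J Y := by
  set ρ := Real.sqrt Y with hρ
  have hρ0 : 0 < ρ := Real.sqrt_pos.mpr hY0
  have hρsq : ρ ^ 2 = Y := Real.sq_sqrt hY0.le
  have hρ1 : ρ < 1 := by
    rw [hρ, Real.sqrt_lt' (by norm_num)]
    simpa using hY1
  have habρ : |ρ| < 1 := by rw [abs_of_pos hρ0]; exact hρ1
  have hx : |t / ρ| ≤ 1 := by
    rw [abs_div, abs_of_pos hρ0, div_le_one hρ0]
    exact Real.abs_le_sqrt ht
  have h1 := psi2_mul_le hx habρ.le
  rw [div_mul_cancel₀ t hρ0.ne'] at h1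
  have h2 := psi2_le_SS J habρ
  rw [hρsq, ← GU_mul] at h2
  have h3 : (t / ρ) ^ 2 * psi2 ρ ≤ (t / ρ) ^ 2 * (GU J Y * Y) :=
    mul_le_mul_of_nonneg_left h2 (by positivity)
  have h4 : (t / ρ) ^ 2 * (GU J Y * Y) = t ^ 2 * GU J Y := by
    rw [div_pow, hρsq]
    field_simp
  linarith

end Vale.Agent.P322
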