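import Vale.Agent.P322.DCMain
import Vale.Agent.P322.SCMidNum

/-!
Scheme C, middle range: casts of the rational value functions, elementary facts on the truncations
`SS`, `SP`, `TT`, `GU` over the reals, the numerical bounds of `psi2 1 = 2 log 2`, and the grid lemma.

Hints.  The casts: induction on `J`, `simp [SS]` / `push_cast`.  Monotonicity: induction on `J`,
`pow_le_pow_left₀`, `div_le_div_of_nonneg_right`.  `SP_mul`, `GU_mul`: induction, `pow_succ`, `ring` /
`field_simp`-free (`div_mul_eq_mul_div`).  Bounds of `psi2 1`: `psi2_one`, `Real.log_two_gt_d9`,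
`Real.log_two_lt_d9`.  Grid: `i = Nat.floor (x * N)`, `Nat.floor_le`, `Nat.lt_floor_add_one`.
-/

namespace Vale.Agent.P322

open Real

theorem cast_SS (J : ℕ) (y : ℚ) : ((SS J y : ℚ) : ℝ) = SS J (y : ℝ) := by
  induction J with
  | zero => simp [SS]
  | succ J ih =>
    simp only [SS]
    push_cast
    rw [ih]

theorem cast_SP (J : ℕ) (y : ℚ) : ((SP J y : ℚ) : ℝ) = SP J (y : ℝ) := by
  induction J with
  | zero => simp [SP]
  | succ J ih =>
    simp only [SP]
    push_cast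
    rw [ih]

theorem cast_TT (J : ℕ) (y : ℚ) : ((TT J y : ℚ) : ℝ) = TT J (y : ℝ) := by
  simp only [TT]
  push_cast
  rfl

theorem cast_GU (J : ℕ) (y : ℚ) : ((GU J y : ℚ) : ℝ) = GU J (y : ℝ) := by
  simp only [GU]
  push_cast
  rw [cast_SP]

theorem SS_eq_sum (J : ℕ) (y : ℝ) :
    SS J y = ∑ k ∈ Finset.range J, y ^ (k + 1) / ((2 * (k : ℝ) + 1) * ((k : ℝ) + 1)) := by
  induction J with
  | zero => simp [SS]
  | succ J ih =>
    rw [Finset.sum_range_succ, ← ih]
    rfl

theorem SS_mono (J : ℕ) {y y' : ℝ} (h0 : 0 ≤ y) (h : y ≤ y') : SS J y ≤ SS J y' := by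
  induction J with
  | zero => simp [SS]
  | succ J ih =>
    simp only [SS]
    have h1 : y ^ (J + 1) ≤ y' ^ (J + 1) := pow_le_pow_left₀ h0 h _
    have h2 : (0 : ℝ) ≤ (2 * (J : ℝ) + 1) * ((J : ℝ) + 1) := by positivity
    exact add_le_add ih (div_le_div_of_nonneg_right h1 h2)

theorem SP_mono (J : ℕ) {y y' : ℝ} (h0 : 0 ≤ y) (h : y ≤ y') : SP J y ≤ SP J y' := by
  induction J with
  | zero => simp [SP]
  | succ J ih =>
    simp only [SP]
    have h1 : y ^ J ≤ y' ^ J := pow_le_pow_left₀ h0 h _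
    have h2 : (0 : ℝ) ≤ (2 * (J : ℝ) + 1) * ((J : ℝ) + 1) := by positivity
    exact add_le_add ih (div_le_div_of_nonneg_right h1 h2)

theorem SP_mul (J : ℕ) (y : ℝ) : SP J y * y = SS J y := by
  induction J with
  | zero => simp [SP, SS]
  | succ J ih =>
    simp only [SP, SS]
    rw [add_mul, ih, div_mul_eq_mul_div, pow_succ]

theorem GU_mul (J : ℕ) (y : ℝ) : GU J y * y = SS J y + TT J y := by
  simp only [GU, TT]
  rw [add_mul, SP_mul, div_mul_eq_mul_div, pow_succ]

theorem c0lo_lt : c0lo ℝ < psi2 1 := by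
  rw [psi2_one]
  unfold c0lo
  have := Real.log_two_gt_d9
  norm_num at this ⊢
  linarith

theorem lt_c0hi : psi2 1 < c0hi ℝ := by
  rw [psi2_one]
  unfold c0hi
  have := Real.log_two_lt_d9
  norm_num at this ⊢
  linarith

/-- a point of `[0,1)` lies in a cell of the uniform grid -/
theorem exists_cell (N : ℕ) (hN : 0 < N) {x : ℝ} (h0 : 0 ≤ x) (h1 : x < 1) :
    ∃ i < N, (i : ℝ) / N ≤ x ∧ x ≤ ((i : ℝ) + 1) / N := by
  have hN' : (0 : ℝ) < N := by exact_mod_cast hN
  have hx : 0 ≤ x * N := mul_nonneg h0 hN'.le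
  refine ⟨Nat.floor (x * N), ?_, ?_, ?_⟩
  · rw [Nat.floor_lt hx]
    calc x * N < 1 * N := mul_lt_mul_of_pos_right h1 hN'
      _ = N := one_mul _
  · rw [div_le_iff₀ hN']
    exact Nat.floor_le hx
  · rw [le_div_iff₀ hN']
    exact (Nat.lt_floor_add_one _).le

end Vale.Agent.P322
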