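import Vale.Agent.P322.SCQuad
import Vale.Agent.P322.SCMidPot
import Vale.Agent.P322.SCMidAux
import Vale.Agent.P322.SCMidI
import Vale.Agent.P322.SCMidII

/-!
Scheme C, middle range `2/3 ≤ r ≤ 9/10`: the step of the potential `LamM`.

`LamM_step_J` (right alternative of `SCStep`): by `LamM_avg` it is
`q (d^2 + 3/4 K2 m d) ≤ K2 m d - K2 m (r d)`; use `K2_scale_le`, `K2_quad_lower`, `1 - m^2 ≤ 19/100` and `midJ`
(`94/100 q ≤ 1 - r^2`): `q d^2 ≤ q (1-m^2) K2 ≤ 19/100 q K2` and `(19/100 + 3/4) q K2 ≤ (1 - r^2) K2`.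

`LamM_step_DC` (left alternative).  If `LamM r m ≤ hh r * d`: the pair `(0, hh r)` (`isDC_zero_hh`).  Otherwise the
intermediate value theorem for `s ↦ s * LamM r m - d * hh (r s)` on `[0,1]` (negative at `0`, positive at `1`, continuity from
`psi2_continuous`) gives `s` in `(0,1)` with `s * LamM r m = d * hh (r s)`.  Then `hh (r s) = s LamM / d ≥ 3/2 hh r s`
(`LamM_lower`, `allowed_lower`), so `midI` applies; `midII` times `q^2` reads
`LamM r m * (q (d^2 + 3/4 K2 m d)) ≤ 89/100 (hh r)^2 d^2`.  Together: `s C ≤ d (hh (r s) - hh s)` with `C = q (d^2 + 3/4 K2 m d)`, that is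
`d hh s ≤ s (LamM r m - C)`; conclude with `step_of_ray`, `isDC_cone`, `dcA_pos`, `dcB_nonneg`, `LamM_avg`.

`LamM_step`: `d = 0` is the pair `(1, 0)` (`isDC_one_zero`); otherwise `SCStep_symm` and the two cases.
-/

namespace Vale.Agent.P322

open Real

variable {n : ℕ}

/-- the (J1) certificate for `m ≥ 9/10` -/
theorem LamM_step_J {r m d : ℝ} (hr : 2 / 3 ≤ r) (hr' : r ≤ 9 / 10) (hm : 9 / 10 ≤ m)
    (hd0 : 0 < d) (hd : m + d ≤ 1) : SCStep r (LamM r) m d := by
  right
  rw [LamM_avg]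
  have hm0 : 0 ≤ m := by linarith
  have hmd : |m| + |d| ≤ 1 := by
    rw [abs_of_nonneg hm0, abs_of_pos hd0]; exact hd
  have hrabs : |r| ≤ 1 := by
    rw [abs_of_nonneg (by linarith)]; linarith
  have hq : 0 < qM r := qM_pos (by linarith) (by linarith)
  have hc : 0 < psi2 1 * (3 / 4) + 1 := by
    have := psi2_one_pos
    linarith
  have hqc : qM r * (psi2 1 * (3 / 4) + 1) = hh r := by
    unfold qM
    exact div_mul_cancel₀ _ hc.ne'
  have h1 := K2_scale_le hmd hrabs
  have h2 := K2_quad_lower hmd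
  have h3 := midJ hr hr'
  set K := K2 m d with hK
  have hv0 : 0 < 1 - m ^ 2 := by nlinarith
  have hv1 : 1 - m ^ 2 ≤ 19 / 100 := by nlinarith
  have hKpos : 0 < K := by
    by_contra hcon
    have hK0 : K ≤ 0 := not_lt.mp hcon
    have : (1 - m ^ 2) * K ≤ 0 := mul_nonpos_of_nonneg_of_nonpos hv0.le hK0
    have hd2 : 0 < d ^ 2 := by positivity
    linarith
  -- 94/100 q ≤ 1 - r^2
  have h4 : 94 / 100 * qM r ≤ 1 - r ^ 2 := by
    have h5 : 94 / 100 * qM r * (psi2 1 * (3 / 4) + 1) ≤ (1 - r ^ 2) * (psi2 1 * (3 / 4) + 1) := by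
      calc 94 / 100 * qM r * (psi2 1 * (3 / 4) + 1)
          = 94 / 100 * (qM r * (psi2 1 * (3 / 4) + 1)) := by ring
        _ = 94 / 100 * hh r := by rw [hqc]
        _ ≤ _ := h3
    exact le_of_mul_le_mul_right h5 hc
  have h6 : d ^ 2 ≤ 19 / 100 * K := by
    have : (1 - m ^ 2) * K ≤ 19 / 100 * K := mul_le_mul_of_nonneg_right hv1 hKpos.le
    linarith
  have h7 : qM r * (d ^ 2 + 3 / 4 * K) ≤ qM r * (94 / 100 * K) := by
    apply mul_le_mul_of_nonneg_left _ hq.le
    linarith
  have h8 : 94 / 100 * qM r * K ≤ (1 - r ^ 2) * K := mul_le_mul_of_nonneg_right h4 hKpos.le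
  nlinarith

/-- the cone certificate for `0 ≤ m ≤ 9/10` -/
theorem LamM_step_DC {r m d : ℝ} (hr : 2 / 3 ≤ r) (hr' : r ≤ 9 / 10) (hm0 : 0 ≤ m)
    (hm : m ≤ 9 / 10) (hd0 : 0 < d) (hd : m + d ≤ 1) (h3 : 3 * d ^ 2 ≤ 1 - m ^ 2) :
    SCStep r (LamM r) m d := by
  left
  have hr0 : 0 < r := by linarith
  have hr1 : r < 1 := by linarith
  have hmabs : |m| ≤ 1 := by
    rw [abs_of_nonneg hm0]; linarith
  have hq : 0 < qM r := qM_pos hr0.le hr1
  have hc : 0 < psi2 1 * (3 / 4) + 1 := by
    have := psi2_one_pos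
    linarith
  have hqc : qM r * (psi2 1 * (3 / 4) + 1) = hh r := by
    unfold qM
    exact div_mul_cancel₀ _ hc.ne'
  have hHpos : 0 < hh r := hh_pos (by rw [abs_of_pos hr0]; exact hr1)
  have havg := LamM_avg r m d
  have hlow := LamM_lower hr0.le hr1 hmabs
  have hall := allowed_lower hm0 hd0.le hd h3
  have hII := midII hm0 hm hd0 hd h3
  set H := hh r with hH
  set L := LamM r m with hL
  set C := qM r * (d ^ 2 + 3 / 4 * K2 m d) with hC
  have hLdef : L = qM r * (3 / 4 * hh m + (1 - m ^ 2)) := by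
    rw [hL]; unfold LamM; ring
  -- L ≥ 3/2 H d
  have hL32 : 3 / 2 * H * d ≤ L := by
    have : H * (3 / 2 * d) ≤ H * (1 - m ^ 2) := mul_le_mul_of_nonneg_left hall hHpos.le
    linarith
  have hLpos : 0 < L := by
    have : 0 < 3 / 2 * H * d := by positivity
    linarith
  -- L C ≤ 89/100 H^2 d^2
  have hLC : L * C ≤ 89 / 100 * H ^ 2 * d ^ 2 := by
    have h5 : qM r ^ 2 * ((3 / 4 * hh m + (1 - m ^ 2)) * (d ^ 2 + 3 / 4 * K2 m d))
        ≤ qM r ^ 2 * (89 / 100 * (psi2 1 * (3 / 4) + 1) ^ 2 * d ^ 2) :=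
      mul_le_mul_of_nonneg_left hII (by positivity)
    calc L * C = qM r ^ 2 * ((3 / 4 * hh m + (1 - m ^ 2)) * (d ^ 2 + 3 / 4 * K2 m d)) := by
          rw [hLdef, hC]; ring
      _ ≤ qM r ^ 2 * (89 / 100 * (psi2 1 * (3 / 4) + 1) ^ 2 * d ^ 2) := h5
      _ = 89 / 100 * (qM r * (psi2 1 * (3 / 4) + 1)) ^ 2 * d ^ 2 := by ring
      _ = 89 / 100 * H ^ 2 * d ^ 2 := by rw [hqc]
  rw [abs_of_pos hd0, havg]
  by_cases hcase : L ≤ H * d
  · refine ⟨0, H, isDC_zero_hh hr0.le hr1.le, le_refl _, hHpos.le, ?_⟩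
    linarith
  · have hcase' : H * d < L := not_le.mp hcase
    -- intermediate value theorem
    have hcont : ContinuousOn (fun s : ℝ => s * L - d * hh (r * s)) (Set.Icc 0 1) := by
      apply Continuous.continuousOn
      exact (continuous_id.mul continuous_const).sub
        (continuous_const.mul (hh_continuous.comp (continuous_const.mul continuous_id)))
    have hz : (0 : ℝ) ∈ Set.Icc ((fun s : ℝ => s * L - d * hh (r * s)) 0)
        ((fun s : ℝ => s * L - d * hh (r * s)) 1) := by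
      constructor
      · simp only [zero_mul, mul_zero, zero_sub]
        rw [hh_zero]
        have := mul_pos hd0 psi2_one_pos
        linarith
      · simp only [one_mul, mul_one]
        rw [← hH]
        linarith
    obtain ⟨s, hs, hs0⟩ := intermediate_value_Icc (by norm_num : (0 : ℝ) ≤ 1) hcont hz
    simp only at hs0
    have hspos : 0 < s := by
      rcases hs.1.eq_or_lt with h | h
      · exfalso
        rw [← h] at hs0
        simp only [zero_mul, mul_zero, zero_sub] at hs0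
        rw [hh_zero] at hs0
        have := mul_pos hd0 psi2_one_pos
        linarith
      · exact h
    have hslt : s < 1 := by
      rcases hs.2.eq_or_lt with h | h
      · exfalso
        rw [h] at hs0
        simp only [one_mul, mul_one] at hs0
        rw [← hH] at hs0
        linarith
      · exact h
    have hrs0 : 0 < r * s := mul_pos hr0 hspos
    have hrs1 : r * s < 1 := by nlinarith
    have hI0 := @midI r s hr hr' hspos hslt
    have hray := @step_of_ray r s m d L (L - C) hr0 hr1 hspos hslt hd0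
    set g := hh (r * s) with hg
    have hgpos : 0 < g := hh_pos (by rw [abs_of_pos hrs0]; exact hrs1)
    have hrel : s * L = d * g := by linarith
    -- the hypothesis of (I)
    have hT : 3 / 2 * H * s ≤ g := by
      have h5 : d * (3 / 2 * H * s) ≤ d * g := by
        rw [← hrel]
        have : s * (3 / 2 * H * d) ≤ s * L := mul_le_mul_of_nonneg_left hL32 hspos.le
        linarith
      exact le_of_mul_le_mul_left h5 hd0
    have hI := hI0 hT
    -- s C ≤ d (g - hh s)
    have hkey : s * C ≤ d * (g - hh s) := by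
      have hLg : 0 < L * g := mul_pos hLpos hgpos
      have h5 : s * C * (L * g) ≤ d * (g - hh s) * (L * g) := by
        calc s * C * (L * g) = s * g * (L * C) := by ring
          _ ≤ s * g * (89 / 100 * H ^ 2 * d ^ 2) :=
              mul_le_mul_of_nonneg_left hLC (mul_pos hspos hgpos).le
          _ = d * s * (89 / 100 * H ^ 2) * (d * g) := by ring
          _ = d * s * (89 / 100 * H ^ 2) * (s * L) := by rw [hrel]
          _ = d * L * (89 / 100 * H ^ 2 * s ^ 2) := by ring
          _ ≤ d * L * ((g - hh s) * g) :=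
              mul_le_mul_of_nonneg_left hI (mul_pos hd0 hLpos).le
          _ = d * (g - hh s) * (L * g) := by ring
      exact le_of_mul_le_mul_right h5 hLg
    have h2 : d * hh s ≤ s * (L - C) := by
      have : s * (L - C) = d * g - s * C := by rw [← hrel]; ring
      rw [this]
      linarith
    exact ⟨dcA r s, dcB r s, isDC_cone hr0 hr1 hspos hslt, (dcA_pos hr0 hr1 hspos hslt).le,
      dcB_nonneg hr0 hr1 hspos hslt, hray hrel h2⟩

theorem LamM_step {r : ℝ} (hr : 2 / 3 ≤ r) (hr' : r ≤ 9 / 10) (m d : ℝ) (h : |m| + |d| ≤ 1)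
    (h3 : 3 * d ^ 2 ≤ 1 - m ^ 2) : SCStep r (LamM r) m d := by
  rcases (abs_nonneg d).eq_or_lt with hd0 | hdpos
  · have hd : d = 0 := abs_eq_zero.mp hd0.symm
    left
    refine ⟨1, 0, isDC_one_zero (by linarith) (by linarith), by norm_num, le_refl _, ?_⟩
    rw [hd]
    simp
  · apply SCStep_symm (LamM_neg r)
    have h3' : 3 * |d| ^ 2 ≤ 1 - |m| ^ 2 := by
      rw [sq_abs, sq_abs]; exact h3
    rcases le_total |m| (9 / 10) with hm | hm
    · exact LamM_step_DC hr hr' (abs_nonneg m) hm hdpos h h3'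
    · exact LamM_step_J hr hr' hm hdpos h

/-- The Courtade-Kumar inequality for all Boolean functions, `1/20 ≤ ε ≤ 1/6`. -/
theorem ck_mid {ε : ℝ} (h0 : 1 / 20 ≤ ε) (h1 : ε ≤ 1 / 6) (f : Cube n → ℤˣ) :
    mutualInfo (law n ε) (fun ω => f ω.1) (fun ω => noisy ω) ≤ 1 - h2 ε := by
  have hr : 2 / 3 ≤ 1 - 2 * ε := by linarith
  have hr' : 1 - 2 * ε ≤ 9 / 10 := by linarith
  refine ck_of_potential (LamM (1 - 2 * ε)) (by linarith) (by linarith) ?_ ?_ ?_ ?_ ?_ f
  · exact le_of_eq (LamM_one _)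
  · rw [LamM_neg]
    exact le_of_eq (LamM_one _)
  · exact le_of_eq (LamM_zero _)
  · exact fun m d h h3 => LamM_step hr hr' m d h h3
  · exact fun m hm => LamM_final hr hr' m hm

end Vale.Agent.P322
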