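import Vale.Agent.P322.SCJensen

/-!
Scheme C: peeling the first coordinate, its noise taken outside.
-/

namespace Vale.Agent.P322

open Real

variable {n : ℕ}

/-- the slice `x_0 = b` of a Boolean function -/
def slice (f : Cube (n + 1) → ℤˣ) (b : ℤˣ) : Cube n → ℤˣ := fun x' => f (Fin.cons b x')

theorem mu_cons (f : Cube (n + 1) → ℤˣ) : mu f = (mu (slice f 1) + mu (slice f (-1))) / 2 := by
  unfold mu slice
  rw [mean_cons (fun x => sg (f x))]

theorem fhat_zero (f : Cube (n + 1) → ℤˣ) :
    fhat f {0} = (mu (slice f 1) - mu (slice f (-1))) / 2 := by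
  unfold fhat mu slice chi
  rw [mean_cons]
  simp only [Finset.prod_singleton, Fin.cons_zero, sg_one, sg_neg_one, mul_one, mul_neg]
  have : mean (fun x' : Cube n => -sg (f (Fin.cons (-1) x')))
      = - mean (fun x' : Cube n => sg (f (Fin.cons (-1) x'))) := by
    have e : (fun x' : Cube n => -sg (f (Fin.cons (-1) x')))
        = fun x' => (-1 : ℝ) * sg (f (Fin.cons (-1) x')) := by
      funext x'; ring
    rw [e, mean_mul_left]
    ring
  rw [this]
  ring

/-- The noisy version of `f` in terms of the noisy versions of its two slices. -/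
theorem Tn_slice (ε : ℝ) (f : Cube (n + 1) → ℤˣ) (b : ℤˣ) (y' : Cube n) :
    Tn ε (fun x => sg (f x)) (Fin.cons b y')
      = (1 - ε) * Tn ε (fun x => sg (slice f b x)) y' + ε * Tn ε (fun x => sg (slice f (-b) x)) y' := by
  rw [Tn_cons, Tn_add, Tn_mul_left, Tn_mul_left]
  rfl

/-- `HH f` as the mean of `hbar_r` of the noisy half sum and half difference of the slices. -/
theorem HH_cons (ε : ℝ) (f : Cube (n + 1) → ℤˣ) :
    HH ε f = mean (fun y =>
      (hh ((Tn ε (fun x => sg (slice f 1 x)) y + Tn ε (fun x => sg (slice f (-1) x)) y) / 2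
          + (1 - 2 * ε) * ((Tn ε (fun x => sg (slice f 1 x)) y
            - Tn ε (fun x => sg (slice f (-1) x)) y) / 2))
        + hh ((Tn ε (fun x => sg (slice f 1 x)) y + Tn ε (fun x => sg (slice f (-1) x)) y) / 2
          - (1 - 2 * ε) * ((Tn ε (fun x => sg (slice f 1 x)) y
            - Tn ε (fun x => sg (slice f (-1) x)) y) / 2))) / 2) := by
  unfold HH
  rw [mean_cons (fun y => hh (Tn ε (fun x => sg (f x)) y))]
  have e : ∀ F G : Cube n → ℝ, (mean F + mean G) / 2 = mean (fun y => (F y + G y) / 2) := by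
    intro F G
    have : (fun y => (F y + G y) / 2) = fun y => (1 / 2 : ℝ) * (F y + G y) := by
      funext y; ring
    rw [this, mean_mul_left, mean_add]
    ring
  rw [e]
  congr 1
  funext y
  rw [Tn_slice, Tn_slice, neg_neg]
  congr 2
  · congr 1; ring
  · congr 1; ring

/-- The one-coordinate step of scheme C. -/
theorem sc_peel (Lam : ℝ → ℝ) {ε : ℝ} (h0 : 0 ≤ ε) (h1 : ε ≤ 1 / 2) (f : Cube (n + 1) → ℤˣ)
    (hU : Lam (mu (slice f 1)) ≤ HH ε (slice f 1))
    (hV : Lam (mu (slice f (-1))) ≤ HH ε (slice f (-1)))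
    (hs : SCStep (1 - 2 * ε) Lam (mu f) (fhat f {0})) :
    Lam (mu f) ≤ HH ε f := by
  set r := 1 - 2 * ε with hr
  have hr0 : 0 ≤ r := by rw [hr]; linarith
  have hr1 : r ≤ 1 := by rw [hr]; linarith
  set TU : Cube n → ℝ := Tn ε (fun x => sg (slice f 1 x)) with hTU
  set TV : Cube n → ℝ := Tn ε (fun x => sg (slice f (-1) x)) with hTV
  set P : Cube n → ℝ := fun y => (TU y + TV y) / 2 with hP
  set D : Cube n → ℝ := fun y => (TU y - TV y) / 2 with hD
  have hTU1 : ∀ y, |TU y| ≤ 1 := Tn_abs_le h0 (by linarith) (fun x => le_of_eq (sg_abs _))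
  have hTV1 : ∀ y, |TV y| ≤ 1 := Tn_abs_le h0 (by linarith) (fun x => le_of_eq (sg_abs _))
  have a1 : ∀ y, P y + D y = TU y := fun y => by simp only [hP, hD]; ring
  have a2 : ∀ y, P y - D y = TV y := fun y => by simp only [hP, hD]; ring
  have hPD : ∀ y, |P y| + |D y| ≤ 1 := by
    intro y
    apply abs_add_abs_le
    · rw [a1]; exact hTU1 y
    · rw [a2]; exact hTV1 y
  have mTU : mean TU = mu (slice f 1) := by rw [hTU, mean_Tn]; rfl
  have mTV : mean TV = mu (slice f (-1)) := by rw [hTV, mean_Tn]; rfl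
  have mP : mean P = mu f := by
    have : P = fun y => (1 / 2 : ℝ) * (TU y + TV y) := by
      funext y; simp only [hP]; ring
    rw [this, mean_mul_left, mean_add, mTU, mTV, mu_cons]
    ring
  have mD : mean D = fhat f {0} := by
    have : D = fun y => (1 / 2 : ℝ) * (TU y - TV y) := by
      funext y; simp only [hD]; ring
    rw [this, mean_mul_left, mean_sub, mTU, mTV, fhat_zero]
    ring
  have hm1 : mu f + fhat f {0} = mu (slice f 1) := by rw [mu_cons, fhat_zero]; ring
  have hm2 : mu f - fhat f {0} = mu (slice f (-1)) := by rw [mu_cons, fhat_zero]; ring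
  have hleft : HH ε f = mean (fun y => (hh (P y + r * D y) + hh (P y - r * D y)) / 2) :=
    HH_cons ε f
  have halpha : (HH ε (slice f 1) + HH ε (slice f (-1))) / 2
      = mean (fun y => (hh (P y + D y) + hh (P y - D y)) / 2) := by
    have : (fun y => (hh (P y + D y) + hh (P y - D y)) / 2)
        = fun y => (1 / 2 : ℝ) * (hh (TU y) + hh (TV y)) := by
      funext y
      rw [a1, a2]
      ring
    rw [this, mean_mul_left, mean_add]
    unfold HH
    ring
  set α := mean (fun y => (hh (P y + D y) + hh (P y - D y)) / 2) with hα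
  have hx : (Lam (mu f + fhat f {0}) + Lam (mu f - fhat f {0})) / 2 ≤ α := by
    rw [hm1, hm2, ← halpha]
    linarith
  rw [hleft]
  rcases hs with ⟨Ac, Bc, hDC, hAc, hBc, hL⟩ | hL
  · have hdc : Ac * α + Bc * mean (fun y => |D y|)
        ≤ mean (fun y => (hh (P y + r * D y) + hh (P y - r * D y)) / 2) := by
      rw [hα, ← mean_mul_left, ← mean_mul_left, ← mean_add]
      exact mean_le_mean (fun y => hDC (P y) (D y) (hPD y))
    have hD0 := abs_mean_le_mean_abs D
    rw [mD] at hD0
    have t1 : Ac * ((Lam (mu f + fhat f {0}) + Lam (mu f - fhat f {0})) / 2) ≤ Ac * α :=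
      mul_le_mul_of_nonneg_left hx hAc
    have t2 : Bc * |fhat f {0}| ≤ Bc * mean (fun y => |D y|) :=
      mul_le_mul_of_nonneg_left hD0 hBc
    linarith
  · have hJ := J_jensen hr0 hr1 P D hPD
    rw [mP, mD] at hJ
    have e : mean (fun y => K2 (P y) (D y) - K2 (P y) (r * D y))
        = mean (fun y => (hh (P y + r * D y) + hh (P y - r * D y)) / 2) - α := by
      rw [hα, ← mean_sub]
      congr 1
      funext y
      unfold K2 hh
      ring
    rw [e] at hJ
    linarith

end Vale.Agent.P322
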