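import Vale.Agent.P322.SCInd
import Vale.Agent.P322.DCMain

/-!
Scheme C with the purely quadratic potential `Lam m = hh r * (1 - m^2)` (helper27).
The step follows from the cone bound (DC) and the two-parameter inequality `QHyp r`.
-/

namespace Vale.Agent.P322

open Real

variable {n : ℕ}

/-- The two-parameter inequality (Q) at `θ = 1/3`. -/
def QHyp (r : ℝ) : Prop :=
  ∀ s : ℝ, 0 < s → s < 1 → 2 * hh (r * s) ≤ 3 * hh s →
    (hh r) ^ 2 * s ^ 2 ≤ (hh (r * s) - hh s) * hh (r * s)

theorem hh_continuous : Continuous hh := by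
  unfold hh
  exact continuous_const.sub psi2_continuous

theorem psi2_lt_one {t : ℝ} (ht : |t| < 1) : psi2 t < psi2 1 := by
  have h1 := psi2_le_sq ht.le
  have h2 : t ^ 2 < 1 := (sq_lt_one_iff_abs_lt_one t).2 ht
  nlinarith [psi2_one_pos]

theorem hh_pos {t : ℝ} (ht : |t| < 1) : 0 < hh t := by
  unfold hh
  linarith [psi2_lt_one ht]

/-- algebra of the tangent plane -/
theorem quad_alg {H v e s g y A B : ℝ} (hH : 0 < H) (hs : 0 < s) (hg : 0 < g)
    (hrel : s * (H * v) = e * g) (hA : 0 ≤ A) (hBm : B * s = g - A * y)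
    (key : v * y ≤ g * (v - e ^ 2)) : H * v ≤ A * (H * (v - e ^ 2)) + B * e := by
  have e1 : s * g * (A * (H * (v - e ^ 2)) + B * e - H * v)
      = A * H * s * (g * (v - e ^ 2) - v * y) := by
    linear_combination (g * e) * hBm - (g - A * y) * hrel
  have e2 : 0 ≤ A * H * s * (g * (v - e ^ 2) - v * y) := by
    apply mul_nonneg (mul_nonneg (mul_nonneg hA hH.le) hs.le)
    linarith
  rw [← e1] at e2
  have e3 : 0 ≤ A * (H * (v - e ^ 2)) + B * e - H * v := by
    by_contra hc
    have hc' : A * (H * (v - e ^ 2)) + B * e - H * v < 0 := not_le.mp hc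
    have := mul_neg_of_pos_of_neg (mul_pos hs hg) hc'
    linarith
  linarith

/-- the key inequality from (Q) -/
theorem quad_key {H v e s g y : ℝ} (hv0 : 0 < v) (hv1 : v ≤ 1) (hg : 0 < g)
    (hrel : s * (H * v) = e * g) (h3 : 3 * e ^ 2 ≤ v)
    (hq : 2 * g ≤ 3 * y → H ^ 2 * s ^ 2 ≤ (g - y) * g) : v * y ≤ g * (v - e ^ 2) := by
  by_cases hc : 2 * g ≤ 3 * y
  · have q := hq hc
    have q1 : e ^ 2 * g ^ 2 = (H ^ 2 * s ^ 2) * v ^ 2 := by
      have : (e * g) ^ 2 = (s * (H * v)) ^ 2 := by rw [hrel]
      linear_combination this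
    have q2 : e ^ 2 * g ^ 2 ≤ ((g - y) * g) * v ^ 2 := by
      rw [q1]
      exact mul_le_mul_of_nonneg_right q (sq_nonneg v)
    have q3 : e ^ 2 * g ≤ (g - y) * v ^ 2 := by
      have : (e ^ 2 * g) * g ≤ ((g - y) * v ^ 2) * g := by
        calc (e ^ 2 * g) * g = e ^ 2 * g ^ 2 := by ring
          _ ≤ ((g - y) * g) * v ^ 2 := q2
          _ = ((g - y) * v ^ 2) * g := by ring
      exact le_of_mul_le_mul_right this hg
    have q4 : 0 ≤ g - y := by
      by_contra hneg
      have hneg' : g - y < 0 := not_le.mp hneg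
      have h1 : (g - y) * g < 0 := mul_neg_of_neg_of_pos hneg' hg
      have h2 : 0 ≤ H ^ 2 * s ^ 2 := by positivity
      linarith
    have q5 : (g - y) * v ^ 2 ≤ (g - y) * v := by
      apply mul_le_mul_of_nonneg_left _ q4
      calc v ^ 2 = v * v := by ring
        _ ≤ v * 1 := mul_le_mul_of_nonneg_left hv1 hv0.le
        _ = v := mul_one v
    have q6 : g * (v - e ^ 2) = g * v - e ^ 2 * g := by ring
    rw [q6]
    have q7 : (g - y) * v = g * v - v * y := by ring
    linarith
  · have hc' : 3 * y < 2 * g := not_le.mp hc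
    have t1 : v * (3 * y) ≤ v * (2 * g) := mul_le_mul_of_nonneg_left hc'.le hv0.le
    have t2 : g * (3 * e ^ 2) ≤ g * v := mul_le_mul_of_nonneg_left h3 hg.le
    have t3 : g * (v - e ^ 2) = g * v - g * e ^ 2 := by ring
    rw [t3]
    linarith

/-- The step of scheme C for the quadratic potential. -/
theorem quad_step {r : ℝ} (hr0 : 0 < r) (hr1 : r < 1) (hQ : QHyp r) (m d : ℝ)
    (hmd : |m| + |d| ≤ 1) (hd3 : 3 * d ^ 2 ≤ 1 - m ^ 2) :
    SCStep r (fun m => hh r * (1 - m ^ 2)) m d := by
  left
  set H := hh r with hH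
  have hHpos : 0 < H := hh_pos (by rw [abs_of_pos hr0]; exact hr1)
  set v := 1 - m ^ 2 with hv
  have hx : (H * (1 - (m + d) ^ 2) + H * (1 - (m - d) ^ 2)) / 2 = H * (v - d ^ 2) := by
    rw [hv]; ring
  have hdv : |d| ≤ v := abs_le_c hmd
  have hv1 : v ≤ 1 := by rw [hv]; nlinarith [sq_nonneg m]
  rcases (abs_nonneg d).eq_or_lt with hd0 | hdpos
  · -- d = 0
    have hd : d = 0 := abs_eq_zero.mp hd0.symm
    refine ⟨1, 0, isDC_one_zero hr0.le hr1.le, by norm_num, le_refl _, ?_⟩
    simp only [hx]
    rw [hd, hv]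
    simp
  · set e := |d| with he
    have he2 : e ^ 2 = d ^ 2 := sq_abs d
    have hvpos : 0 < v := lt_of_lt_of_le hdpos hdv
    -- strict inequality e < v
    have hev : e < v := by
      rcases hdv.eq_or_lt with h | h
      · exfalso
        -- e = v, 3 e^2 ≤ v gives v ≤ 1/3; and e ≤ 1 - |m|
        have h3 : 3 * v ^ 2 ≤ v := by
          have : 3 * e ^ 2 ≤ v := by rw [he2]; exact hd3
          rwa [h] at this
        have h4 : v ≤ 1 / 3 := by nlinarith
        have h5 : v ≤ 1 - |m| := by rw [← h]; linarith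
        have h6 : m ^ 2 = |m| ^ 2 := (sq_abs m).symm
        have h7 : 0 ≤ |m| := abs_nonneg m
        have h8 : |m| ≤ 1 := by linarith
        -- 1 - |m|^2 ≤ 1 - |m| gives |m| (1 - |m|) ≤ 0
        have h9 : |m| * (1 - |m|) ≤ 0 := by
          have : 1 - |m| ^ 2 ≤ 1 - |m| := by rw [← h6]; exact h5
          nlinarith
        have h10 : |m| = 0 ∨ |m| = 1 := by
          rcases h7.eq_or_lt with h0 | h0
          · left; exact h0.symm
          · right
            have : 1 - |m| ≤ 0 := by
              by_contra hc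
              have hc' : 0 < 1 - |m| := not_le.mp hc
              nlinarith [mul_pos h0 hc']
            linarith
        rcases h10 with h0 | h0
        · have : v = 1 := by rw [hv, h6, h0]; norm_num
          linarith
        · have : v = 0 := by rw [hv, h6, h0]; norm_num
          linarith
      · exact h
    -- intermediate value theorem
    have hcont : ContinuousOn (fun s : ℝ => s * (H * v) - e * hh (r * s)) (Set.Icc 0 1) := by
      apply Continuous.continuousOn
      exact (continuous_id.mul continuous_const).sub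
        (continuous_const.mul (hh_continuous.comp (continuous_const.mul continuous_id)))
    have hz : (0 : ℝ) ∈ Set.Icc ((fun s : ℝ => s * (H * v) - e * hh (r * s)) 0)
        ((fun s : ℝ => s * (H * v) - e * hh (r * s)) 1) := by
      constructor
      · simp only [zero_mul, mul_zero, zero_sub]
        rw [hh_zero]
        have := mul_pos hdpos psi2_one_pos
        linarith
      · simp only [one_mul, mul_one]
        rw [← hH]
        nlinarith
    obtain ⟨s, hs, hs0⟩ := intermediate_value_Icc (by norm_num : (0 : ℝ) ≤ 1) hcont hz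
    simp only at hs0
    have hspos : 0 < s := by
      rcases hs.1.eq_or_lt with h | h
      · exfalso
        rw [← h] at hs0
        simp only [zero_mul, mul_zero, zero_sub] at hs0
        rw [hh_zero] at hs0
        have := mul_pos hdpos psi2_one_pos
        linarith
      · exact h
    have hslt : s < 1 := by
      rcases hs.2.eq_or_lt with h | h
      · exfalso
        rw [h] at hs0
        simp only [one_mul, mul_one] at hs0
        rw [← hH] at hs0
        nlinarith
      · exact h
    have hrs0 : 0 < r * s := mul_pos hr0 hspos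
    have hrs1 : r * s < 1 := by nlinarith
    set g := hh (r * s) with hg
    have hgpos : 0 < g := hh_pos (by rw [abs_of_pos hrs0]; exact hrs1)
    have hhs0 : 0 ≤ hh s := hh_nonneg (by rw [abs_of_pos hspos]; exact hslt.le)
    have hrel : s * (H * v) = e * g := by linarith
    have hA := dcA_pos hr0 hr1 hspos hslt
    have hB := dcB_nonneg hr0 hr1 hspos hslt
    have hBm := dcB_mul hr0 hr1 hspos hslt
    rw [← hg] at hBm
    refine ⟨dcA r s, dcB r s, isDC_cone hr0 hr1 hspos hslt, hA.le, hB, ?_⟩
    simp only [hx]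
    rw [← he2]
    have h3 : 3 * e ^ 2 ≤ v := by rw [he2]; exact hd3
    have key : v * hh s ≤ g * (v - e ^ 2) := by
      apply quad_key (H := H) (s := s) hvpos hv1 hgpos hrel h3
      intro hc
      have q := hQ s hspos hslt hc
      rw [← hg, ← hH] at q
      exact q
    exact quad_alg hHpos hspos hgpos hrel hA.le hBm key

/-- The Courtade-Kumar inequality at noise `ε` from `QHyp (1 - 2 ε)`. -/
theorem ck_of_Q {ε : ℝ} (h0 : 0 < ε) (h1 : ε < 1 / 2) (hH : hh (1 - 2 * ε) ≤ 1)
    (hQ : QHyp (1 - 2 * ε)) (f : Cube n → ℤˣ) :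
    mutualInfo (law n ε) (fun ω => f ω.1) (fun ω => noisy ω) ≤ 1 - h2 ε := by
  have hr0 : 0 < 1 - 2 * ε := by linarith
  have hr1 : 1 - 2 * ε < 1 := by linarith
  have hHpos : 0 ≤ hh (1 - 2 * ε) := hh_nonneg (by rw [abs_of_pos hr0]; exact hr1.le)
  apply ck_of_potential (fun m => hh (1 - 2 * ε) * (1 - m ^ 2)) h0.le h1.le
  · norm_num
  · norm_num
  · norm_num
  · exact quad_step hr0 hr1 hQ
  · intro m hm
    have := sq_le_psi2 hm
    unfold hh at hH hHpos ⊢
    nlinarith [sq_nonneg m]

end Vale.Agent.P322
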