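import Vale.Agent.P322.SCHighD

/-!
Scheme C with the quartic potential, version with the side condition `QFs`; the low noise range.
-/

namespace Vale.Agent.P322

open Real

variable {n : ℕ}

/-- (P1): the relative loss is at most `9/25` on the admissible region. -/
theorem quart_P1 {m d : ℝ} (hmd : |m| + |d| ≤ 1) (hd3 : 3 * d ^ 2 ≤ 1 - m ^ 2) :
    d ^ 2 * ((5 + 6 * m ^ 2 + d ^ 2) / 6) ≤ 9 / 25 * GG m := by
  unfold GG
  set a := |m| with ha
  set e := |d| with he
  have ha0 : 0 ≤ a := abs_nonneg m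
  have he0 : 0 ≤ e := abs_nonneg d
  have hm2 : m ^ 2 = a ^ 2 := (sq_abs m).symm
  have hd2 : d ^ 2 = e ^ 2 := (sq_abs d).symm
  rw [hm2, hd2] at hd3 ⊢
  have ha1 : a ≤ 1 := by linarith
  rcases le_total a (1 / 2) with h | h
  · have h1 : a ^ 2 ≤ 1 / 4 := by nlinarith
    have h2 : e ^ 2 ≤ (1 - a ^ 2) / 3 := by linarith
    have h3 : 0 ≤ e ^ 2 := sq_nonneg e
    have h4 : e ^ 2 * ((5 + 6 * a ^ 2 + e ^ 2) / 6)
        ≤ (1 - a ^ 2) / 3 * ((5 + 6 * a ^ 2 + (1 - a ^ 2) / 3) / 6) := by
      apply mul_le_mul h2 (by linarith) (by positivity) (by linarith)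
    have h5 : (1 - a ^ 2) / 3 * ((5 + 6 * a ^ 2 + (1 - a ^ 2) / 3) / 6)
        ≤ 9 / 25 * ((1 - a ^ 2) * (1 + a ^ 2 / 6)) := by
      have : 0 ≤ (1 - a ^ 2) * (1 / 4 - a ^ 2) := mul_nonneg (by linarith) (by linarith)
      nlinarith
    linarith
  · have h1 : e ≤ 1 - a := by linarith
    have h2 : e ^ 2 ≤ (1 - a) ^ 2 := pow_le_pow_left₀ he0 h1 2
    have h3 : 0 ≤ e ^ 2 := sq_nonneg e
    have h4 : e ^ 2 * ((5 + 6 * a ^ 2 + e ^ 2) / 6)
        ≤ (1 - a) ^ 2 * ((5 + 6 * a ^ 2 + (1 - a) ^ 2) / 6) := by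
      apply mul_le_mul h2 (by linarith) (by positivity) (by positivity)
    have h5 : (1 - a) ^ 2 * ((5 + 6 * a ^ 2 + (1 - a) ^ 2) / 6)
        ≤ 9 / 25 * ((1 - a ^ 2) * (1 + a ^ 2 / 6)) := by
      have e1 : 9 / 25 * ((1 - a ^ 2) * (1 + a ^ 2 / 6))
          - (1 - a) ^ 2 * ((5 + 6 * a ^ 2 + (1 - a) ^ 2) / 6)
          = (1 - a) * ((a - 1 / 2) * (184 * a ^ 2 - 124 * a + 192)) / 150 := by ring
      have e2 : 0 ≤ 184 * a ^ 2 - 124 * a + 192 := by nlinarith [sq_nonneg (a - 1 / 3)]
      have e3 : 0 ≤ (1 - a) * ((a - 1 / 2) * (184 * a ^ 2 - 124 * a + 192)) / 150 := by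
        apply div_nonneg _ (by norm_num)
        exact mul_nonneg (by linarith) (mul_nonneg (by linarith) e2)
      linarith
    linarith

/-- The step of scheme C for the quartic potential. -/
theorem quart_step_s {r : ℝ} (hr0 : 0 < r) (hr1 : r < 1) (hQ : QFs r) (m d : ℝ)
    (hmd : |m| + |d| ≤ 1) (hd3 : 3 * d ^ 2 ≤ 1 - m ^ 2) :
    SCStep r (fun m => hh r * GG m) m d := by
  left
  set H := hh r with hH
  have hHpos : 0 < H := hh_pos (by rw [abs_of_pos hr0]; exact hr1)
  set v := 1 - m ^ 2 with hv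
  have hx : (H * GG (m + d) + H * GG (m - d)) / 2
      = H * (GG m - d ^ 2 * ((5 + 6 * m ^ 2 + d ^ 2) / 6)) := by
    rw [← GG_avg]; ring
  have hdv : |d| ≤ v := abs_le_c hmd
  have hv1 : v ≤ 1 := by rw [hv]; nlinarith [sq_nonneg m]
  have hm2 : m ^ 2 ≤ 1 := by
    have : 0 ≤ v := le_trans (abs_nonneg d) hdv
    rw [hv] at this
    linarith
  have hvG : v ≤ GG m := by
    unfold GG
    rw [← hv]
    have : 0 ≤ v := le_trans (abs_nonneg d) hdv
    nlinarith [sq_nonneg m]
  rcases (abs_nonneg d).eq_or_lt with hd0 | hdpos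
  · have hd : d = 0 := abs_eq_zero.mp hd0.symm
    refine ⟨1, 0, isDC_one_zero hr0.le hr1.le, by norm_num, le_refl _, ?_⟩
    simp only [hx]
    rw [hd]
    simp
  · set e := |d| with he
    have he2 : e ^ 2 = d ^ 2 := sq_abs d
    have hvpos : 0 < v := lt_of_lt_of_le hdpos hdv
    have hGpos : 0 < GG m := lt_of_lt_of_le hvpos hvG
    have hev : e < v := by
      rcases hdv.eq_or_lt with h | h
      · exfalso
        have h3 : 3 * v ^ 2 ≤ v := by
          have : 3 * e ^ 2 ≤ v := by rw [he2]; exact hd3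
          rwa [h] at this
        have h4 : v ≤ 1 / 3 := by nlinarith
        have h5 : v ≤ 1 - |m| := by rw [← h]; linarith
        have h6 : m ^ 2 = |m| ^ 2 := (sq_abs m).symm
        have h7 : 0 ≤ |m| := abs_nonneg m
        have h8 : |m| ≤ 1 := by linarith
        have h9 : |m| * (1 - |m|) ≤ 0 := by
          have : 1 - |m| ^ 2 ≤ 1 - |m| := by rw [← h6]; exact h5
          nlinarith
        have h10 : |m| = 0 ∨ |m| = 1 := by
          rcases h7.eq_or_lt with h0 | h0
          · left; exact h0.symm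
          · right
            have : 1 - |m| ≤ 0 := by
              by_contra hc
              have hc' : 0 < 1 - |m| := not_le.mp hc
              nlinarith [mul_pos h0 hc']
            linarith
        rcases h10 with h0 | h0
        · have : v = 1 := by rw [hv, h6, h0]; norm_num
          linarith
        · have : v = 0 := by rw [hv, h6, h0]; norm_num
          linarith
      · exact h
    have heG : e < GG m := lt_of_lt_of_le hev hvG
    have hcont : ContinuousOn (fun s : ℝ => s * (H * GG m) - e * hh (r * s)) (Set.Icc 0 1) := by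
      apply Continuous.continuousOn
      exact (continuous_id.mul continuous_const).sub
        (continuous_const.mul (hh_continuous.comp (continuous_const.mul continuous_id)))
    have hz : (0 : ℝ) ∈ Set.Icc ((fun s : ℝ => s * (H * GG m) - e * hh (r * s)) 0)
        ((fun s : ℝ => s * (H * GG m) - e * hh (r * s)) 1) := by
      constructor
      · simp only [zero_mul, mul_zero, zero_sub]
        rw [hh_zero]
        have := mul_pos hdpos psi2_one_pos
        linarith
      · simp only [one_mul, mul_one]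
        rw [← hH]
        nlinarith
    obtain ⟨s, hs, hs0⟩ := intermediate_value_Icc (by norm_num : (0 : ℝ) ≤ 1) hcont hz
    simp only at hs0
    have hspos : 0 < s := by
      rcases hs.1.eq_or_lt with h | h
      · exfalso
        rw [← h] at hs0
        simp only [zero_mul, mul_zero, zero_sub] at hs0
        rw [hh_zero] at hs0
        have := mul_pos hdpos psi2_one_pos
        linarith
      · exact h
    have hslt : s < 1 := by
      rcases hs.2.eq_or_lt with h | h
      · exfalso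
        rw [h] at hs0
        simp only [one_mul, mul_one] at hs0
        rw [← hH] at hs0
        nlinarith
      · exact h
    have hrs0 : 0 < r * s := mul_pos hr0 hspos
    have hrs1 : r * s < 1 := by nlinarith
    set g := hh (r * s) with hg
    have hgpos : 0 < g := hh_pos (by rw [abs_of_pos hrs0]; exact hrs1)
    have hrel : s * (H * GG m) = e * g := by linarith
    have hA := dcA_pos hr0 hr1 hspos hslt
    have hB := dcB_nonneg hr0 hr1 hspos hslt
    have hBm := dcB_mul hr0 hr1 hspos hslt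
    rw [← hg] at hBm
    refine ⟨dcA r s, dcB r s, isDC_cone hr0 hr1 hspos hslt, hA.le, hB, ?_⟩
    simp only [hx]
    rw [← he2]
    have h3 : 3 * e ^ 2 ≤ 1 - m ^ 2 := by rw [he2]; exact hd3
    have hw := quart_poly hm2 h3
    have key : GG m * hh s ≤ g * (GG m - e ^ 2 * ((5 + 6 * m ^ 2 + e ^ 2) / 6)) := by
      have hP1 : e ^ 2 * ((5 + 6 * m ^ 2 + e ^ 2) / 6) ≤ 9 / 25 * GG m := by
        rw [he2]
        exact quart_P1 hmd hd3
      rcases hQ s hspos hslt with q | q
      · rw [← hg] at q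
        have a1 : g * (16 / 25 * GG m) ≤ g * (GG m - e ^ 2 * ((5 + 6 * m ^ 2 + e ^ 2) / 6)) :=
          mul_le_mul_of_nonneg_left (by linarith) hgpos.le
        have a2 : GG m * hh s ≤ GG m * (16 / 25 * g) :=
          mul_le_mul_of_nonneg_left (by linarith) hGpos.le
        calc GG m * hh s ≤ GG m * (16 / 25 * g) := a2
          _ = g * (16 / 25 * GG m) := by ring
          _ ≤ _ := a1
      · rw [← hg, ← hH] at q
        exact quart_key hGpos hgpos hrel hw hP1 (fun _ => q)
    exact quart_alg hHpos hspos hgpos hrel hA.le hBm key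

/-- The Courtade-Kumar inequality at noise `ε` from `QFs (1 - 2 ε)`. -/
theorem ck_of_QFs {ε : ℝ} (h0 : 0 < ε) (h1 : ε ≤ 1 / 6) (hQ : QFs (1 - 2 * ε)) (f : Cube n → ℤˣ) :
    mutualInfo (law n ε) (fun ω => f ω.1) (fun ω => noisy ω) ≤ 1 - h2 ε := by
  have hr0 : 0 < 1 - 2 * ε := by linarith
  have hr1 : 1 - 2 * ε < 1 := by linarith
  have hHpos : 0 ≤ hh (1 - 2 * ε) := hh_nonneg (by rw [abs_of_pos hr0]; exact hr1.le)
  have hH : hh (1 - 2 * ε) ≤ 1 := hh_le_one_of (by linarith) hr1.le
  apply ck_of_potential (fun m => hh (1 - 2 * ε) * GG m) h0.le (by linarith)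
  · unfold GG; norm_num
  · unfold GG; norm_num
  · unfold GG; norm_num
  · exact quart_step_s hr0 hr1 hQ
  · intro m hm
    have h2 := sq_le_psi2 hm
    have hm2 : m ^ 2 ≤ 1 := by
      have := (sq_le_one_iff_abs_le_one m).2 hm
      exact this
    have h3 : 1 - GG m ≤ m ^ 2 := by
      unfold GG
      nlinarith [sq_nonneg m]
    have h4 : hh (1 - 2 * ε) * (1 - GG m) ≤ 1 * m ^ 2 := by
      calc hh (1 - 2 * ε) * (1 - GG m) ≤ hh (1 - 2 * ε) * m ^ 2 :=
            mul_le_mul_of_nonneg_left h3 hHpos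
        _ ≤ 1 * m ^ 2 := mul_le_mul_of_nonneg_right hH (sq_nonneg m)
    have h5 : hh m - psi2 (1 - 2 * ε) = hh (1 - 2 * ε) - psi2 m := by
      unfold hh; ring
    rw [h5]
    have h6 : hh (1 - 2 * ε) * GG m = hh (1 - 2 * ε) - hh (1 - 2 * ε) * (1 - GG m) := by ring
    rw [h6]
    linarith


/-- The Courtade-Kumar inequality for all Boolean functions in the low noise range
`ε ≤ 1/20`. -/
theorem ck_low_noise (f : Cube n → ℤˣ) {ε : ℝ} (h0 : 0 ≤ ε) (h1 : ε ≤ 1 / 20) :
    mutualInfo (law n ε) (fun ω => f ω.1) (fun ω => noisy ω) ≤ 1 - h2 ε := by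
  rcases h0.eq_or_lt with h' | h'
  · rw [← h']
    exact ck_zero f
  · exact ck_of_QFs h' (by linarith) (QFs_high (by linarith) (by linarith)) f

/-- The full Courtade-Kumar inequality, from `QFs` on `[2/3, 9/10]`. -/
theorem ck_full_of_QFs (hQ : ∀ r : ℝ, 2 / 3 ≤ r → r ≤ 9 / 10 → QFs r) (f : Cube n → ℤˣ) {ε : ℝ}
    (h0 : 0 ≤ ε) (h1 : ε ≤ 1 / 2) :
    mutualInfo (law n ε) (fun ω => f ω.1) (fun ω => noisy ω) ≤ 1 - h2 ε := by
  rcases le_total (1 / 6) ε with h | h
  · exact ck_sixth f h h1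
  · rcases le_total ε (1 / 20) with h' | h'
    · exact ck_low_noise f h0 h'
    · exact ck_of_QFs (by linarith) h (hQ _ (by linarith) (by linarith)) f

end Vale.Agent.P322
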